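import Vale.Agent.P371.Link.Cone

/-!
P371, gauge selection: what a stationary point gives.
-/

namespace Vale.Agent.P371.Link

open Matrix Complex MeasureTheory Set Filter
open scoped ComplexOrder MatrixOrder Matrix.Norms.L2Operator Topology

variable {n : Type} [Fintype n] [DecidableEq n] {ν ε R : ℝ} {z p : Pt n}

lemma trace_mul_re_nonneg {A B : Matrix n n ℂ} (hA : A.PosSemidef) (hB : B.PosSemidef) :
    0 ≤ (A * B).trace.re := by
  set S := CFC.sqrt A
  have hS : Sᴴ = S := (CFC.sqrt_nonneg A).posSemidef.1.eq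
  have h := (hB.conjTranspose_mul_mul_same S).trace_nonneg
  rw [hS, Matrix.trace_mul_cycle, CFC.sqrt_mul_sqrt_self A hA.nonneg] at h
  exact (Complex.nonneg_iff.1 h).1

lemma posSemidef_inv_sq {A : Matrix n n ℂ} (hA : A.PosDef) : (A⁻¹ * A⁻¹).PosSemidef := by
  have h := Matrix.posSemidef_conjTranspose_mul_self A⁻¹
  rwa [hA.inv.isHermitian.eq] at h

lemma dF_snd (w : Matrix n n ℂ) : dF ν ε R z p (0, w) = dF0 ν z p (0, w) := by
  simp [dF]

lemma dF_fst (k : Matrix n n ℂ) : dF ν ε R z p (k, 0) = dF0 ν z p (k, 0) +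
    ε * ((k * (p.1⁻¹ * p.1⁻¹)).trace.re - (k * ((co R p.1)⁻¹ * (co R p.1)⁻¹)).trace.re) := by
  simp only [dF, _root_.add_apply, ContinuousLinearMap.comp_apply,
    ContinuousLinearMap.coe_fst', Pencil.pairing_apply, Matrix.mul_smul, Matrix.trace_smul, Complex.smul_re,
    Matrix.mul_sub, Matrix.trace_sub, Complex.sub_re, smul_eq_mul]

/-- Moving along the fibre of the sum. -/
lemma dF0_anti (W : Matrix n n ℂ) :
    dF0 ν z p (-W, W) = ((XiC ν p - z.2) * W).trace.re := by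
  have e1 : sigL ((-W, W) : Pt n) = 0 := by simp [sigL]
  have e2 : beeL ((-W, W) : Pt n) = -W := by
    simp [beeL]
    module
  simp only [dF0, dPhiC, _root_.sub_apply, _root_.add_apply,
    ContinuousLinearMap.comp_apply, e1, e2, map_zero, add_zero, zero_add, Pencil.pairing_apply]
  rw [Matrix.neg_mul, Matrix.neg_mul, Matrix.trace_neg, Matrix.trace_neg, Complex.neg_re, Complex.neg_re,
    Matrix.trace_mul_comm W z.2, Matrix.trace_mul_comm W (XiC ν p), Matrix.sub_mul, Matrix.trace_sub,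
    Complex.sub_re]
  ring

/-- The first variation in `Q`, through the free variable `P`. -/
lemma dF0_snd (h : Stat ν ε R z p) {W : Matrix n n ℂ} (hW : W.IsHermitian) :
    dF0 ν z p (0, W) = ((XiC ν p - z.2) * W).trace.re -
      ε * ((W * (p.1⁻¹ * p.1⁻¹)).trace.re - (W * ((co R p.1)⁻¹ * (co R p.1)⁻¹)).trace.re) := by
  have h0 := h.freeP W hW
  rw [dF_fst] at h0
  have e : ((0, W) : Pt n) = (-W, W) + (W, 0) := by simp
  rw [e, map_add, dF0_anti]
  linarith

theorem stat_radial_P (hε : 0 ≤ ε) (h : Stat ν ε R z p) :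
    -(ε * (p.1⁻¹).trace.re) ≤ dF0 ν z p (p.1, 0) := by
  have h0 := h.freeP p.1 h.posP.isHermitian
  rw [dF_fst, ← Matrix.mul_assoc p.1 p.1⁻¹,
    Matrix.mul_nonsing_inv p.1 ((Matrix.isUnit_iff_isUnit_det p.1).1 h.posP.isUnit), one_mul] at h0
  have h1 := trace_mul_re_nonneg h.posP.posSemidef (posSemidef_inv_sq h.posCo)
  nlinarith [mul_nonneg hε h1]

lemma zero_mem_slab (hR : 0 ≤ R) : (0 : Matrix n n ℂ) ∈ slab 0 R := by
  constructor
  · simpa using Matrix.PosSemidef.zero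
  · simpa [co, Complex.coe_smul] using (Matrix.PosSemidef.one (n := n) (R := ℂ)).smul hR

lemma posSemidef_snd (h : Stat ν ε R z p) : p.2.PosSemidef := by simpa using h.memQ.1

lemma posSemidef_co_snd (h : Stat ν ε R z p) : (co R p.2).PosSemidef := by simpa using h.memQ.2

lemma mem_cone (h : Stat ν ε R z p) : p ∈ (Cone : Set (Pt n)) := ⟨h.posP.posSemidef, posSemidef_snd h⟩

theorem stat_radial_Q (hR : 0 ≤ R) (h : Stat ν ε R z p) : dF0 ν z p (0, p.2) ≤ 0 := by
  have h0 := h.minQ 0 (zero_mem_slab hR)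
  rw [dF_snd, show ((0, 0 - p.2) : Pt n) = -(0, p.2) by simp, map_neg] at h0
  linarith

lemma posSemidef_mul_co {P : Matrix n n ℂ} (hP : P.PosSemidef) (hC : (co R P).PosSemidef) :
    (P * co R P).PosSemidef := by
  set S := CFC.sqrt P
  have hS : Sᴴ = S := (CFC.sqrt_nonneg P).posSemidef.1.eq
  have eS : S * S = P := CFC.sqrt_mul_sqrt_self P hP.nonneg
  have h := hC.conjTranspose_mul_mul_same S
  rw [hS] at h
  convert h using 1
  rw [← eS]
  simp only [co, Matrix.mul_sub, Matrix.sub_mul, Matrix.mul_smul, Matrix.smul_mul, mul_one, Matrix.mul_assoc]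

/-- Congruence by `1 - t P` stays in the slab for small `t`. -/
lemma sandwich_mem_slab {P Q : Matrix n n ℂ} (hP : P.PosSemidef) (hC : (co R P).PosSemidef)
    (hQ : Q.PosSemidef) (hQR : (co R Q).PosSemidef) (hR : 0 ≤ R) {t : ℝ} (ht : 0 ≤ t) (htR : t * R ≤ 2) :
    ((1 : Matrix n n ℂ) - (t : ℂ) • P) * Q * (1 - (t : ℂ) • P) ∈ slab 0 R := by
  set S := (1 : Matrix n n ℂ) - (t : ℂ) • P
  have hS : Sᴴ = S := by
    simp only [S, conjTranspose_sub, conjTranspose_one, conjTranspose_smul, hP.1.eq, Complex.star_def,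
      Complex.conj_ofReal]
  have h1 := hQ.conjTranspose_mul_mul_same S
  have h2 := hQR.conjTranspose_mul_mul_same S
  rw [hS] at h1 h2
  refine ⟨by simpa using h1, ?_⟩
  have h3 : ((t * (2 - t * R) : ℝ) • P + (t * t : ℝ) • (P * co R P)).PosSemidef :=
    (hP.smul (mul_nonneg ht (by linarith))).add ((posSemidef_mul_co hP hC).smul (mul_nonneg ht ht))
  have h4 := h2.add (h3.smul hR)
  rw [sub_zero]
  convert h4 using 1
  simp only [S, co, Matrix.mul_sub, Matrix.sub_mul, Matrix.mul_smul, Matrix.smul_mul, mul_one, one_mul,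
    smul_sub, smul_add, smul_smul, ← Complex.coe_smul]
  push_cast
  module

lemma nonpos_of_forall_small {a b t₀ : ℝ} (ht₀ : 0 < t₀) (h : ∀ t, 0 < t → t ≤ t₀ → a ≤ t * b) :
    a ≤ 0 := by
  have hb : 0 < |b| + 1 := by positivity
  refine le_of_forall_pos_le_add fun η hη => ?_
  have h1 := h (min t₀ (η / (|b| + 1))) (lt_min ht₀ (div_pos hη hb)) (min_le_left _ _)
  have h2 : min t₀ (η / (|b| + 1)) * b ≤ η / (|b| + 1) * (|b| + 1) :=
    (mul_le_mul_of_nonneg_left (by linarith [le_abs_self b] : b ≤ |b| + 1)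
      (lt_min ht₀ (div_pos hη hb)).le).trans (mul_le_mul_of_nonneg_right (min_le_right _ _) hb.le)
  rw [div_mul_cancel₀ _ hb.ne'] at h2
  linarith

theorem stat_mid (hε : 0 ≤ ε) (hR : 0 ≤ R) (hY : z.2.IsHermitian) (h : Stat ν ε R z p) :
    ((XiC ν p - z.2) * mid p).trace.re ≤ ε * (p.1⁻¹ * p.2).trace.re := by
  have hP := h.posP
  have hC := h.posCo
  have hQ := posSemidef_snd h
  have hM : (mid p).IsHermitian := by
    show _ = _
    rw [mid, conjTranspose_smul, conjTranspose_add, conjTranspose_mul, conjTranspose_mul, hP.1.eq, hQ.1.eq,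
      star_trivial, add_comm]
  have hkey : dF0 ν z p (0, mid p) ≤ 0 := by
    refine nonpos_of_forall_small (b := dF0 ν z p (0, p.1 * p.2 * p.1) / 2) (t₀ := 1 / (R + 1)) (by positivity)
      fun t ht htle => ?_
    have htR : t * R ≤ 2 := by
      rw [le_div_iff₀ (by linarith)] at htle
      nlinarith
    have h0 := h.minQ _ (sandwich_mem_slab hP.posSemidef hC.posSemidef hQ (posSemidef_co_snd h) hR ht.le htR)
    have e : ((0, (1 - (t : ℂ) • p.1) * p.2 * (1 - (t : ℂ) • p.1) - p.2) : Pt n) =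
        (-2 * t) • (0, mid p) + (t * t) • (0, p.1 * p.2 * p.1) := by
      refine Prod.ext (by simp) ?_
      simp only [Prod.smul_snd, Prod.snd_add, mid, Matrix.sub_mul, Matrix.mul_sub, Matrix.smul_mul,
        Matrix.mul_smul, mul_one, one_mul, smul_sub, smul_add, smul_smul, ← Complex.coe_smul]
      push_cast
      module
    rw [dF_snd, e, map_add, map_smul, map_smul, smul_eq_mul, smul_eq_mul] at h0
    nlinarith
  rw [dF0_snd h hM] at hkey
  have hd := (Matrix.isUnit_iff_isUnit_det p.1).1 hP.isUnit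
  have hdC := (Matrix.isUnit_iff_isUnit_det (co R p.1)).1 hC.isUnit
  have e1 : (mid p * (p.1⁻¹ * p.1⁻¹)).trace.re = (p.1⁻¹ * p.2).trace.re := by
    have a1 : (p.1 * p.2 * (p.1⁻¹ * p.1⁻¹)).trace = (p.1⁻¹ * p.2).trace := by
      rw [Matrix.mul_assoc, Matrix.trace_mul_comm p.1, Matrix.mul_assoc, Matrix.mul_assoc p.1⁻¹,
        Matrix.nonsing_inv_mul p.1 hd, mul_one, Matrix.trace_mul_comm]
    have a2 : (p.2 * p.1 * (p.1⁻¹ * p.1⁻¹)).trace = (p.1⁻¹ * p.2).trace := by
      rw [Matrix.mul_assoc, ← Matrix.mul_assoc p.1, Matrix.mul_nonsing_inv p.1 hd, one_mul,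
        Matrix.trace_mul_comm]
    rw [mid, Matrix.smul_mul, Matrix.add_mul, Matrix.trace_smul, Matrix.trace_add, a1, a2, Complex.smul_re,
      Complex.add_re, smul_eq_mul]
    ring
  have e2 : 0 ≤ (mid p * ((co R p.1)⁻¹ * (co R p.1)⁻¹)).trace.re := by
    set C := co R p.1 with hCdef
    have hPC : p.1 = (R : ℂ) • 1 - C := by rw [hCdef, co, sub_sub_cancel]
    have c1 : p.1 * (C⁻¹ * C⁻¹) = C⁻¹ * p.1 * C⁻¹ := by
      rw [hPC]
      simp only [Matrix.sub_mul, Matrix.mul_sub, Matrix.smul_mul, Matrix.mul_smul, one_mul, mul_one,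
        ← Matrix.mul_assoc, Matrix.mul_nonsing_inv C hdC, Matrix.nonsing_inv_mul C hdC]
    have c2 : C⁻¹ * C⁻¹ * p.1 = C⁻¹ * p.1 * C⁻¹ := by
      rw [hPC]
      simp only [Matrix.sub_mul, Matrix.mul_sub, Matrix.smul_mul, Matrix.mul_smul, one_mul, mul_one,
        Matrix.mul_assoc, Matrix.mul_nonsing_inv C hdC, Matrix.nonsing_inv_mul C hdC]
    have a1 : (p.1 * p.2 * (C⁻¹ * C⁻¹)).trace = (p.2 * (C⁻¹ * p.1 * C⁻¹)).trace := by
      rw [Matrix.mul_assoc, Matrix.trace_mul_comm, Matrix.mul_assoc, c2]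
    have a2 : (p.2 * p.1 * (C⁻¹ * C⁻¹)).trace = (p.2 * (C⁻¹ * p.1 * C⁻¹)).trace := by
      rw [Matrix.mul_assoc, c1]
    have hpsd : (C⁻¹ * p.1 * C⁻¹).PosSemidef := by
      have := hP.posSemidef.conjTranspose_mul_mul_same C⁻¹
      rwa [hC.inv.isHermitian.eq] at this
    rw [mid, Matrix.smul_mul, Matrix.add_mul, Matrix.trace_smul, Matrix.trace_add, a1, a2, Complex.smul_re,
      Complex.add_re, smul_eq_mul]
    linarith [trace_mul_re_nonneg hQ hpsd]
  rw [e1] at hkey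
  nlinarith [mul_nonneg hε e2]

theorem stat_test (hε : 0 ≤ ε) (hY : z.2.IsHermitian) (h : Stat ν ε R z p) (hQ : (co R p.2).PosDef)
    {Z : Matrix n n ℂ} (hZ : Z.PosSemidef) :
    -(ε * ((co R p.1)⁻¹ * (co R p.1)⁻¹ * Z).trace.re) ≤ ((XiC ν p - z.2) * Z).trace.re := by
  have hc : Tendsto (fun t : ℝ => co R p.2 - t • Z) (𝓝 0) (𝓝 (co R p.2)) := by
    have h1 : Continuous fun t : ℝ => co R p.2 - t • Z := continuous_const.sub (continuous_id.smul continuous_const)
    simpa using h1.tendsto 0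
  obtain ⟨t₀, ht₀, hball⟩ := Metric.eventually_nhds_iff.1 (hc.eventually (Pencil.eventually_posDef hQ))
  have ht : t₀ / 2 ∈ Ioo 0 t₀ := ⟨by linarith, by linarith⟩
  set t := t₀ / 2
  have hH : (co R p.2 - t • Z).IsHermitian := hQ.1.sub ((IsSelfAdjoint.all t).smul hZ.1)
  have hpd := hball (y := t) (by rw [dist_zero_right, Real.norm_of_nonneg ht.1.le]; exact ht.2) hH
  have hmem : p.2 + t • Z ∈ slab 0 R := by
    refine ⟨by simpa using (posSemidef_snd h).add (hZ.smul ht.1.le), ?_⟩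
    rw [sub_zero, co, ← sub_sub]
    exact hpd.posSemidef
  have h0 := h.minQ _ hmem
  rw [dF_snd, add_sub_cancel_left, show ((0, t • Z) : Pt n) = t • (0, Z) by simp, map_smul, smul_eq_mul] at h0
  have h1 : 0 ≤ dF0 ν z p (0, Z) := (mul_nonneg_iff_of_pos_left ht.1).1 h0
  rw [dF0_snd h hZ.1, Matrix.trace_mul_comm Z ((co R p.1)⁻¹ * (co R p.1)⁻¹)] at h1
  have h2 := trace_mul_re_nonneg hZ (posSemidef_inv_sq h.posP)
  nlinarith [mul_nonneg hε h2]

theorem stat_barrier (hε : 0 ≤ ε) (hR : 0 < R) (h : Stat ν ε R z p) :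
    ε * (p.1⁻¹).trace.re ≤
      2 * Real.sqrt ((Fintype.card n : ℝ) * ε *
        (|dF0 ν z p ((((1 : Matrix n n ℂ) - (1 / R) • p.1) * ((1 : Matrix n n ℂ) - (1 / R) • p.1)), 0)| +
          (Fintype.card n : ℝ) * ε / R ^ 2)) + 2 * (Fintype.card n : ℝ) * ε / R := by
  set c : ℝ := (Fintype.card n : ℝ)
  have hd := (Matrix.isUnit_iff_isUnit_det p.1).1 h.posP.isUnit
  have hdC := (Matrix.isUnit_iff_isUnit_det (co R p.1)).1 h.posCo.isUnit
  set K := ((1 : Matrix n n ℂ) - (1 / R) • p.1) * (1 - (1 / R) • p.1) with hKdef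
  have hS : ((1 : Matrix n n ℂ) - (1 / R) • p.1).IsHermitian :=
    Matrix.isHermitian_one.sub ((IsSelfAdjoint.all (1 / R)).smul h.posP.1)
  have h0 := h.freeP K (by show _ = _; rw [hKdef, conjTranspose_mul, hS.eq])
  rw [dF_fst] at h0
  set D := (p.1⁻¹ : Matrix n n ℂ) - (1 / R) • 1
  have hD : D.IsHermitian := h.posP.inv.1.sub ((IsSelfAdjoint.all (1 / R)).smul Matrix.isHermitian_one)
  have e1 : (K * (p.1⁻¹ * p.1⁻¹)).trace.re = (D * D).trace.re := by
    have e : (1 - (1 / R) • p.1) * p.1⁻¹ = D := by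
      rw [Matrix.sub_mul, one_mul, Matrix.smul_mul, Matrix.mul_nonsing_inv p.1 hd]
    have e' : p.1⁻¹ * (1 - (1 / R) • p.1) = D := by
      rw [Matrix.mul_sub, mul_one, Matrix.mul_smul, Matrix.nonsing_inv_mul p.1 hd]
    rw [← Matrix.mul_assoc, Matrix.trace_mul_comm, hKdef,
      show p.1⁻¹ * ((1 - (1 / R) • p.1) * (1 - (1 / R) • p.1) * p.1⁻¹) =
        (p.1⁻¹ * (1 - (1 / R) • p.1)) * ((1 - (1 / R) • p.1) * p.1⁻¹) by simp only [Matrix.mul_assoc], e, e']
  have e2 : (K * ((co R p.1)⁻¹ * (co R p.1)⁻¹)).trace.re = c / R ^ 2 := by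
    have e : (1 : Matrix n n ℂ) - (1 / R) • p.1 = (1 / R) • co R p.1 := by
      rw [co, smul_sub, Complex.coe_smul, smul_smul, one_div, inv_mul_cancel₀ hR.ne', one_smul]
    rw [hKdef, e, Matrix.smul_mul, Matrix.mul_smul, smul_smul, Matrix.smul_mul, Matrix.mul_assoc,
      Matrix.mul_nonsing_inv_cancel_left _ _ hdC, Matrix.mul_nonsing_inv _ hdC, Matrix.trace_smul,
      Complex.smul_re, Matrix.trace_one, Complex.natCast_re, smul_eq_mul]
    ring
  rw [e1, e2] at h0
  set G := |dF0 ν z p (K, 0)| + c * ε / R ^ 2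
  have hG : ε * (D * D).trace.re ≤ G := by
    have := neg_abs_le (dF0 ν z p (K, 0))
    simp only [G, c]
    ring_nf at h0 ⊢
    linarith
  have hDt : D.trace.re = (p.1⁻¹).trace.re - c / R := by
    rw [Matrix.trace_sub, Matrix.trace_smul, Complex.sub_re, Complex.smul_re, Matrix.trace_one,
      Complex.natCast_re, smul_eq_mul]
    ring
  have hsq : (ε * D.trace.re) ^ 2 ≤ c * ε * G := by
    rw [mul_pow]
    calc ε ^ 2 * D.trace.re ^ 2 ≤ ε ^ 2 * (c * (D * D).trace.re) :=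
          mul_le_mul_of_nonneg_left (Pencil.trace_re_sq_le hD) (sq_nonneg ε)
      _ = c * ε * (ε * (D * D).trace.re) := by ring
      _ ≤ _ := mul_le_mul_of_nonneg_left hG (mul_nonneg (Nat.cast_nonneg _) hε)
  have h3 : ε * D.trace.re ≤ Real.sqrt (c * ε * G) := (le_abs_self _).trans (Real.abs_le_sqrt hsq)
  have h4 : 0 ≤ c * ε / R := div_nonneg (mul_nonneg (Nat.cast_nonneg _) hε) hR.le
  rw [hDt] at h3
  have h5 : 2 * c * ε / R = 2 * (c * ε / R) := by ring
  rw [h5]
  have h6 : ε * (c / R) = c * ε / R := by ring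
  nlinarith [Real.sqrt_nonneg (c * ε * G)]

/-- The power of a nonnegative matrix that the test needs. -/
lemma exists_test_power (hν : 0 < ν) {Y : Matrix n n ℂ} (hY : Y.PosSemidef) :
    ∃ Z : Matrix n n ℂ, Z.PosSemidef ∧ powTr (1 + ν) Z = powTr (1 + 1 / ν) Y ∧
      (Y * Z).trace.re = powTr (1 + 1 / ν) Y ∧ Z.trace.re = powTr (1 / ν) Y := by
  set y := hY.1.eigenvalues
  set U : Matrix n n ℂ := (hY.1.eigenvectorUnitary : Matrix n n ℂ)
  have hy : ∀ i, 0 ≤ y i := hY.eigenvalues_nonneg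
  have u1 : Uᴴ * U = 1 := Unitary.coe_star_mul_self _
  have eY : Y = U * diagonal (fun i => (y i : ℂ)) * Uᴴ := by
    conv_lhs => rw [hY.1.spectral_theorem]
    rfl
  set g : n → ℝ := fun i => y i ^ (1 / ν)
  set Z := U * diagonal (fun i => (g i : ℂ)) * Uᴴ with hZdef
  have hZ : Z.PosSemidef := (Matrix.PosSemidef.diagonal fun i =>
    Complex.zero_le_real.2 (Real.rpow_nonneg (hy i) _)).mul_mul_conjTranspose_same U
  refine ⟨Z, hZ, ?_, ?_, ?_⟩
  · have hcp : Z.charpoly = (diagonal fun i => (g i : ℂ)).charpoly := by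
      rw [hZdef, Matrix.charpoly_mul_comm, ← Matrix.mul_assoc, u1, one_mul]
    have hr := hZ.1.roots_charpoly_eq_eigenvalues
    rw [hcp, Matrix.charpoly_diagonal, Finset.prod,
      ← Function.comp_def (fun a => Polynomial.X - Polynomial.C a) (fun i => (g i : ℂ)), ← Multiset.map_map,
      Polynomial.roots_multiset_prod_X_sub_C] at hr
    have h1 := congrArg (fun m : Multiset ℂ => (m.map fun w => w.re ^ (1 + ν)).sum) hr
    simp only [Multiset.map_map, Function.comp_def] at h1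
    rw [powTr, dif_pos hZ.1, powTr, dif_pos hY.1]
    refine h1.symm.trans (Finset.sum_congr rfl fun i _ => ?_)
    rw [Complex.ofReal_re, ← Real.rpow_mul (hy i)]
    congr 1
    field_simp
    ring
  · rw [powTr, dif_pos hY.1, hZdef]
    conv_lhs => rw [eY]
    rw [show U * diagonal (fun i => (y i : ℂ)) * Uᴴ * (U * diagonal (fun i => (g i : ℂ)) * Uᴴ) =
      U * (diagonal (fun i => (y i : ℂ)) * (Uᴴ * U) * diagonal (fun i => (g i : ℂ))) * Uᴴ by
        simp only [Matrix.mul_assoc], u1, mul_one, diagonal_mul_diagonal, Matrix.trace_mul_cycle, u1, one_mul,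
      trace_diagonal, Complex.re_sum]
    refine Finset.sum_congr rfl fun i _ => ?_
    rw [← Complex.ofReal_mul, Complex.ofReal_re, Real.rpow_add' (hy i) (by positivity), Real.rpow_one]
  · rw [powTr, dif_pos hY.1, hZdef, Matrix.trace_mul_cycle, u1, one_mul, trace_diagonal, Complex.re_sum]
    exact Finset.sum_congr rfl fun i _ => Complex.ofReal_re _

theorem stat_key (hν : 1 / 2 < ν) (hν1 : ν < 1) (hε : 0 ≤ ε) (hR : 0 < R) (hY : z.2.PosSemidef)
    (h : Stat ν ε R z p) (hP : (co (R / 2) p.1).PosSemidef) (hQ : (co (R / 2) p.2).PosSemidef) :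
    powTr (1 + 1 / ν) z.2 ≤ (z.2 * mid p).trace.re + ε * (p.1⁻¹).trace.re * (R / 2) +
      (1 + 1 / ν) * (4 * ε / R ^ 2) * powTr (1 / ν) z.2 := by
  have hν0 : 0 < ν := by linarith
  obtain ⟨Z, hZ, eZ, eYZ, etZ⟩ := exists_test_power hν0 hY
  have hQpd : (co R p.2).PosDef := by
    have e : co R p.2 = ((R / 2 : ℝ) : ℂ) • 1 + co (R / 2) p.2 := by
      simp only [co]
      push_cast
      module
    rw [e]
    exact (Matrix.PosDef.one.smul (Complex.zero_lt_real.2 (by linarith))).add_posSemidef hQ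
  have h1 := key_cone hν hν1 (mem_cone h) hZ
  have h2 := stat_mid hε hR.le hY.1 h
  have h3 := stat_test hε hY.1 h hQpd hZ
  rw [Matrix.sub_mul, Matrix.trace_sub, Complex.sub_re] at h2 h3
  rw [eYZ] at h3
  rw [eZ] at h1
  have h4 : (p.1⁻¹ * p.2).trace.re ≤ (p.1⁻¹).trace.re * (R / 2) := by
    have h0 := trace_mul_re_nonneg h.posP.inv.posSemidef hQ
    rw [co, Matrix.mul_sub, Matrix.mul_smul, mul_one, Matrix.trace_sub, Matrix.trace_smul, smul_eq_mul,
      Complex.sub_re, Complex.re_ofReal_mul] at h0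
    linarith
  have h5 : ((co R p.1)⁻¹ * (co R p.1)⁻¹ * Z).trace.re ≤ 4 / R ^ 2 * powTr (1 / ν) z.2 := by
    set C := co R p.1
    have hd := (Matrix.isUnit_iff_isUnit_det C).1 h.posCo.isUnit
    set D := ((2 / R : ℝ) : ℂ) • co (R / 2) p.1
    have hD : D.PosSemidef := hP.smul (Complex.zero_le_real.2 (by positivity))
    have hCD : ((2 / R : ℝ) : ℂ) • C = 1 + D := by
      have e : ((2 / R : ℝ) : ℂ) * ((R / 2 : ℝ) : ℂ) = 1 := by
        rw [← Complex.ofReal_mul, show 2 / R * (R / 2) = 1 by field_simp, Complex.ofReal_one]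
      have e' : C = ((R / 2 : ℝ) : ℂ) • 1 + co (R / 2) p.1 := by
        simp only [C, co]
        push_cast
        module
      rw [e', smul_add, smul_smul, e, one_smul]
    have hD2 : (D + D + D * D).PosSemidef := by
      have := Matrix.posSemidef_conjTranspose_mul_self D
      rw [hD.1.eq] at this
      exact (hD.add hD).add this
    have hps := hD2.conjTranspose_mul_mul_same C⁻¹
    rw [h.posCo.inv.1.eq] at hps
    have e6 : C⁻¹ * (D + D + D * D) * C⁻¹ = (((2 / R) ^ 2 : ℝ) : ℂ) • 1 - C⁻¹ * C⁻¹ := by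
      have e : D + D + D * D = (((2 / R : ℝ) : ℂ) • C) * (((2 / R : ℝ) : ℂ) • C) - 1 := by
        simp only [hCD, Matrix.add_mul, Matrix.mul_add, one_mul, mul_one]
        abel
      rw [e]
      simp only [Matrix.mul_sub, Matrix.sub_mul, Matrix.smul_mul, Matrix.mul_smul, smul_smul, mul_one,
        ← Matrix.mul_assoc C⁻¹ C, Matrix.nonsing_inv_mul C hd, one_mul, Matrix.mul_nonsing_inv C hd]
      rw [← Complex.ofReal_mul, sq]
    rw [e6] at hps
    have h0 := trace_mul_re_nonneg hps hZ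
    rw [Matrix.sub_mul, Matrix.smul_mul, one_mul, Matrix.trace_sub, Matrix.trace_smul, smul_eq_mul,
      Complex.sub_re, Complex.re_ofReal_mul, etZ, div_pow] at h0
    linarith [show (4 : ℝ) = 2 ^ 2 by norm_num]
  have h6 := mul_le_mul_of_nonneg_left h4 hε
  have h7 := mul_le_mul_of_nonneg_left h5 hε
  have hr : 0 ≤ 1 + 1 / ν := by positivity
  have h8 := mul_le_mul_of_nonneg_left (le_trans (neg_le_neg h7) h3) hr
  have e : ε * (4 / R ^ 2 * powTr (1 / ν) z.2) = 4 * ε / R ^ 2 * powTr (1 / ν) z.2 := by ring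
  rw [e] at h8
  ring_nf at h1 h2 h6 h8 ⊢
  linarith

end Vale.Agent.P371.Link
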