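import Vale.Agent.P371.Link.Strict
import Vale.Agent.P371.Link.Stationary

/-!
P371, gauge selection: stationary points are bounded independently of the box (seat helper22).
-/

namespace Vale.Agent.P371.Link

open _root_.Matrix Complex MeasureTheory Set Filter
open scoped ComplexOrder Matrix.Norms.L2Operator Topology

variable {n : Type} [Fintype n] [DecidableEq n] {ν : ℝ}

lemma abs_trace_mul_le (A B : Matrix n n ℂ) :
    |(A * B).trace.re| ≤ (Fintype.card n : ℝ) * (‖A‖ * ‖B‖) := by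
  rw [Pencil.trace_re_eq_sum_qf]
  refine (Finset.abs_sum_le_sum_abs _ _).trans ?_
  calc ∑ k, |Pencil.qf (A * B) (Pi.single k 1)| ≤ ∑ _k : n, ‖A‖ * ‖B‖ :=
        Finset.sum_le_sum fun k _ => by
          refine (Pencil.qf_le_opNorm _ _).trans ?_
          rw [show Pencil.sqLen (Pi.single k (1 : ℂ) : n → ℂ) = 1 by simp [Pencil.sqLen], mul_one]
          exact norm_mul_le _ _
    _ = _ := by simp

lemma co_posSemidef_of_norm_le {P : Matrix n n ℂ} (hP : P.IsHermitian) {R : ℝ} (h : ‖P‖ ≤ R) :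
    (co R P).PosSemidef := by
  have hH : (co R P).IsHermitian := (Matrix.isHermitian_one.smul (k := (R : ℂ))
    (by simp [IsSelfAdjoint])).sub hP
  refine Matrix.PosSemidef.of_dotProduct_mulVec_nonneg hH fun v => ?_
  rw [Complex.nonneg_iff]
  refine ⟨?_, (Pencil.isHermitian_quad_im hH v).symm⟩
  have h1 := (abs_le.1 (Pencil.qf_le_opNorm P v)).2
  have h2 := mul_le_mul_of_nonneg_right h (Pencil.sqLen_nonneg v)
  show 0 ≤ Pencil.qf (co R P) v
  rw [co, sub_eq_add_neg, Pencil.qf_add, Pencil.qf_ofReal_one, show Pencil.qf (-P) v = -Pencil.qf P v by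
    simp [Pencil.qf, Matrix.neg_mulVec]]
  linarith

lemma powTr_nonpos_eq_zero {P : Matrix n n ℂ} (hP : P.PosSemidef) {r : ℝ} (hr : r ≠ 0)
    (h : powTr r P ≤ 0) : P = 0 := by
  rw [powTr, dif_pos hP.1] at h
  have h0 : ∀ i ∈ Finset.univ, 0 ≤ hP.1.eigenvalues i ^ r := fun i _ =>
    Real.rpow_nonneg (hP.eigenvalues_nonneg i) r
  have h1 := (Finset.sum_eq_zero_iff_of_nonneg h0).1 (le_antisymm h (Finset.sum_nonneg h0))
  exact hP.1.eigenvalues_eq_zero_iff.1 (funext fun i =>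
    (Real.rpow_eq_zero (hP.eigenvalues_nonneg i) hr).1 (h1 i (Finset.mem_univ i)))

lemma endC_pos' (hν : 1 / 2 < ν) : 0 < endC ν := by
  refine intervalIntegral.intervalIntegral_pos_of_pos_on ?_ (fun t ht => ?_) one_pos
  · exact ((continuous_const.sub (continuous_id.pow 2)).rpow_const
      fun t => Or.inr (by linarith)).intervalIntegrable _ _
  · exact Real.rpow_pos_of_pos (by nlinarith [ht.1, ht.2]) _

omit [DecidableEq n] in
lemma isClosed_cone : IsClosed (Cone : Set (Pt n)) := by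
  classical
  refine IsSeqClosed.isClosed fun x p hx hl => ⟨?_, ?_⟩
  · exact Pencil.posSemidef_of_tendsto (fun k => (hx k).1) ((continuous_fst.tendsto p).comp hl)
  · exact Pencil.posSemidef_of_tendsto (fun k => (hx k).2) ((continuous_snd.tendsto p).comp hl)

omit [DecidableEq n] in
lemma mid_smul (s : ℝ) (p : Pt n) : mid (s • p) = (s * s) • mid p := by
  simp only [mid, Prod.smul_fst, Prod.smul_snd, Matrix.smul_mul, Matrix.mul_smul, smul_smul, ← smul_add]
  ring_nf

lemma Stat.mem_cone {ε R : ℝ} {z p : Pt n} (h : Stat ν ε R z p) : p ∈ (Cone : Set (Pt n)) := by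
  refine ⟨h.posP.posSemidef, ?_⟩
  simpa using h.memQ.1

lemma dF0_scale (hν : 1 / 2 < ν) (hν1 : ν < 1) {u : Pt n} (hu : u ∈ (Cone : Set (Pt n))) {ρ : ℝ}
    (hρ : 0 ≤ ρ) (z d : Pt n) :
    dF0 ν z (ρ • u) d = ρ * ((z.1 * sigL u + sigL u * z.1) * sigL d).trace.re +
      (z.2 * beeL d).trace.re - ρ ^ (2 * ν) * dPhiC ν u d := by
  rw [dF0, (homogeneous hν hν1 hu hρ).2.2]
  simp only [_root_.sub_apply, _root_.add_apply, _root_.smul_apply, ContinuousLinearMap.comp_apply, smul_eq_mul,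
    Pencil.pairing_apply, sig, map_smul, Matrix.mul_smul, Matrix.smul_mul, ← smul_add, Matrix.trace_smul,
    Complex.real_smul, Complex.re_ofReal_mul]
  rw [Matrix.trace_mul_comm (sigL d), Matrix.trace_mul_comm (beeL d)]

/-- The linear and the homogeneous parts of the differential are dominated by the power `ρ ^ (2ν)`. -/
lemma exists_dF0_bound (hν : 1 / 2 < ν) (hν1 : ν < 1) {K : Set (Pt n)} (hK : IsCompact K) (r : ℝ) :
    ∃ C : ℝ, 0 ≤ C ∧ ∀ z ∈ K, ∀ u ∈ (Cone : Set (Pt n)), ‖u‖ ≤ 1 → ∀ ρ : ℝ, 1 ≤ ρ → ∀ d : Pt n, ‖d‖ ≤ r →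
      |dF0 ν z (ρ • u) d| ≤ C * ρ ^ (2 * ν) ∧
      |dF0 ν z (ρ • u) d + ρ ^ (2 * ν) * dPhiC ν u d| ≤ C * ρ := by
  have : ProperSpace (Pt n) := FiniteDimensional.proper ℝ _
  have hc1 : IsCompact (Cone ∩ Metric.closedBall (0 : Pt n) 1) :=
    (isCompact_closedBall 0 1).inter_left isClosed_cone
  obtain ⟨M, hM⟩ := hc1.exists_bound_of_continuousOn ((continuousOn_dPhiC hν hν1).mono inter_subset_left)
  obtain ⟨L, hL⟩ := (hK.prod ((isCompact_closedBall (0 : Pt n) 1).prod
    (isCompact_closedBall (0 : Pt n) r))).exists_bound_of_continuousOn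
    (f := fun a : Pt n × Pt n × Pt n =>
      |((a.1.1 * sigL a.2.1 + sigL a.2.1 * a.1.1) * sigL a.2.2).trace.re| + |(a.1.2 * beeL a.2.2).trace.re|)
    (by
      have ht : Continuous fun X : Matrix n n ℂ => X.trace.re :=
        Complex.continuous_re.comp continuous_id.matrix_trace
      have hx : Continuous fun a : Pt n × Pt n × Pt n => a.1.1 := continuous_fst.comp continuous_fst
      have hy : Continuous fun a : Pt n × Pt n × Pt n => a.1.2 := continuous_snd.comp continuous_fst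
      have hu : Continuous fun a : Pt n × Pt n × Pt n => sigL a.2.1 :=
        sigL.continuous.comp (continuous_fst.comp continuous_snd)
      have hd : Continuous fun a : Pt n × Pt n × Pt n => sigL a.2.2 :=
        sigL.continuous.comp (continuous_snd.comp continuous_snd)
      have he : Continuous fun a : Pt n × Pt n × Pt n => beeL a.2.2 :=
        beeL.continuous.comp (continuous_snd.comp continuous_snd)
      exact ((ht.comp (((hx.mul hu).add (hu.mul hx)).mul hd)).abs.add (ht.comp (hy.mul he)).abs).continuousOn)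
  set M' := max M 0
  set L' := max L 0
  refine ⟨L' + M' * |r|, by positivity, fun z hz u hu hu1 ρ hρ d hd => ?_⟩
  have hρ0 : 0 ≤ ρ := le_trans zero_le_one hρ
  have h1 := hM u ⟨hu, by simpa using hu1⟩
  have h2 := hL (z, u, d) ⟨hz, by simpa using hu1, by simpa using hd⟩
  rw [Real.norm_eq_abs] at h2
  set a := ((z.1 * sigL u + sigL u * z.1) * sigL d).trace.re
  set b := (z.2 * beeL d).trace.re
  have hab : |a| + |b| ≤ L' := ((le_abs_self _).trans h2).trans (le_max_left _ _)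
  have hd' : |dPhiC ν u d| ≤ M' * |r| := by
    rw [← Real.norm_eq_abs]
    exact ((dPhiC ν u).le_opNorm d).trans (mul_le_mul (h1.trans (le_max_left _ _)) (hd.trans (le_abs_self r))
      (norm_nonneg _) (le_max_right _ _))
  rw [dF0_scale hν hν1 hu hρ0]
  have hlin : |ρ * a + b| ≤ L' * ρ := by
    refine (abs_add_le _ _).trans ?_
    rw [abs_mul, abs_of_nonneg hρ0]
    nlinarith [abs_nonneg a, abs_nonneg b]
  have hp : (0 : ℝ) ≤ ρ ^ (2 * ν) := Real.rpow_nonneg hρ0 _
  have hge : ρ ≤ ρ ^ (2 * ν) := by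
    nth_rw 1 [← Real.rpow_one ρ]
    exact Real.rpow_le_rpow_of_exponent_le hρ (by linarith)
  constructor
  · refine (abs_sub _ _).trans ?_
    rw [abs_mul (ρ ^ (2 * ν)), abs_of_nonneg hp]
    nlinarith [mul_le_mul_of_nonneg_left hd' hp, le_max_right L 0]
  · rw [sub_add_cancel]
    exact hlin.trans (mul_le_mul_of_nonneg_right (le_add_of_nonneg_right (by positivity)) hρ0)

/-- The three radial functions at the normalised point are small at a far stationary point. -/
lemma exists_radial_bound (hν : 1 / 2 < ν) (hν1 : ν < 1) {K : Set (Pt n)} (hK : IsCompact K)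
    (hKh : ∀ z ∈ K, z.1.IsHermitian ∧ z.2.IsHermitian) :
    ∃ C : ℝ, ∀ ε ∈ Ioc (0 : ℝ) 1, ∀ R : ℝ, 1 ≤ R → ∀ z ∈ K, ∀ p : Pt n, Stat ν ε R z p → 1 ≤ ‖p‖ →
      ∀ u : Pt n, u = ‖p‖⁻¹ • p →
        dPhiC ν u (u.1, 0) ≤ C * ‖p‖ ^ (1 - 2 * ν) ∧ -(C * ‖p‖ ^ (1 - 2 * ν)) ≤ dPhiC ν u (0, u.2) ∧
          (XiC ν u * mid u).trace.re ≤ C * ‖p‖ ^ (1 - 2 * ν) := by
  obtain ⟨Y₀, hY₀⟩ := hK.exists_bound_of_continuousOn continuous_id.continuousOn
  set N := (Fintype.card n : ℝ)
  obtain ⟨C, hC0, hC⟩ := exists_dF0_bound hν hν1 hK (max 1 (N * N))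
  set B := 2 * Real.sqrt (N * (C + N)) + 2 * N with hB
  have hB0 : 0 ≤ B := by positivity
  refine ⟨C + B + N * (max Y₀ 0) + N * B, fun ε hε R hR z hz p h hp u hu => ?_⟩
  set ρ := ‖p‖ with hρ
  have hρ0 : 0 < ρ := lt_of_lt_of_le one_pos hp
  have hpu : ρ • u = p := by rw [hu, smul_inv_smul₀ hρ0.ne']
  have hu1 : ‖u‖ = 1 := by rw [hu, norm_smul, norm_inv, norm_norm, inv_mul_cancel₀ hρ0.ne']
  have hui : ρ⁻¹ • p = u := hu.symm
  have hcone : u ∈ (Cone : Set (Pt n)) := by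
    rw [← hui]
    constructor
    · rw [Prod.smul_fst, ← Complex.coe_smul]
      exact h.mem_cone.1.smul (Complex.zero_le_real.2 (inv_nonneg.2 hρ0.le))
    · rw [Prod.smul_snd, ← Complex.coe_smul]
      exact h.mem_cone.2.smul (Complex.zero_le_real.2 (inv_nonneg.2 hρ0.le))
  -- powers
  have e2ν : ρ * ρ ^ (2 * ν) * ρ ^ (1 - 2 * ν) = ρ * ρ := by
    rw [mul_assoc, ← Real.rpow_add hρ0, show 2 * ν + (1 - 2 * ν) = 1 by ring, Real.rpow_one]
  have hνle : ρ ^ ν ≤ ρ := by
    nth_rw 2 [← Real.rpow_one ρ]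
    exact Real.rpow_le_rpow_of_exponent_le hp hν1.le
  have hρρ : ρ ≤ ρ * ρ := le_mul_of_one_le_left hρ0.le hp
  have hpos : 0 < ρ * ρ ^ (2 * ν) := mul_pos hρ0 (Real.rpow_pos_of_pos hρ0 _)
  -- the barrier
  have hbar : ε * (p.1⁻¹).trace.re ≤ B * ρ ^ ν := by
    refine (stat_barrier hε.1.le (lt_of_lt_of_le one_pos hR) h).trans ?_
    set T := (1 : Matrix n n ℂ) - (1 / R) • p.1
    have hR0 : 0 < R := lt_of_lt_of_le one_pos hR
    have hTe : T = (1 / R) • co R p.1 := by
      rw [co, smul_sub, Complex.coe_smul, smul_smul, one_div_mul_cancel hR0.ne', one_smul]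
    have hTp : T.PosSemidef := by
      rw [hTe, ← Complex.coe_smul]
      exact h.posCo.posSemidef.smul (Complex.zero_le_real.2 (by positivity))
    have hTn : ‖T‖ ≤ N := by
      refine (Pencil.norm_le_trace hTp).trans ?_
      have : 0 ≤ ((1 / R) • p.1).trace.re := by
        rw [Matrix.trace_smul, Complex.real_smul, Complex.re_ofReal_mul]
        exact mul_nonneg (by positivity) (Complex.nonneg_iff.1 h.posP.posSemidef.trace_nonneg).1
      simp only [T, Matrix.trace_sub, Matrix.trace_one, Complex.sub_re, Complex.natCast_re]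
      linarith
    have hd : ‖((T * T, 0) : Pt n)‖ ≤ max 1 (N * N) := by
      rw [Prod.norm_def, norm_zero]
      exact max_le (((norm_mul_le _ _).trans (mul_le_mul hTn hTn (norm_nonneg _) (Nat.cast_nonneg _))).trans
        (le_max_right _ _)) (le_trans zero_le_one (le_max_left _ _))
    have h1 := (hC z hz u hcone hu1.le ρ hp _ hd).1
    rw [hpu] at h1
    have h1' : 1 ≤ ρ ^ (2 * ν) := Real.one_le_rpow hp (by linarith)
    have hεR : ε / R ^ 2 ≤ 1 :=
      (div_le_one (by positivity)).2 (hε.2.trans (one_le_pow₀ hR))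
    have hs : Real.sqrt (N * ε * (|dF0 ν z p (T * T, 0)| + N * ε / R ^ 2)) ≤
        Real.sqrt (N * (C + N)) * ρ ^ ν := by
      rw [show ρ ^ ν = Real.sqrt (ρ ^ (2 * ν)) by
        rw [Real.sqrt_eq_rpow, ← Real.rpow_mul hρ0.le]; ring_nf, ← Real.sqrt_mul (by positivity)]
      refine Real.sqrt_le_sqrt ?_
      have hN : 0 ≤ N := Nat.cast_nonneg _
      calc N * ε * (|dF0 ν z p (T * T, 0)| + N * ε / R ^ 2)
          ≤ N * 1 * (C * ρ ^ (2 * ν) + N * ρ ^ (2 * ν)) := by
            refine mul_le_mul (mul_le_mul_of_nonneg_left hε.2 hN) (add_le_add h1 ?_)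
              (add_nonneg (abs_nonneg _) (div_nonneg (mul_nonneg hN hε.1.le) (sq_nonneg R))) (by linarith)
            rw [mul_div_assoc]
            exact mul_le_mul_of_nonneg_left (hεR.trans h1') hN
        _ = _ := by ring
    have hlast : 2 * N * ε / R ≤ 2 * N * ρ ^ ν := by
      rw [mul_div_assoc]
      exact mul_le_mul_of_nonneg_left (((div_le_one hR0).2 (hε.2.trans hR)).trans
        (Real.one_le_rpow hp (by linarith))) (by positivity)
    rw [hB]
    linarith
  have hbd : ∀ d : Pt n, ‖d‖ ≤ 1 → |dF0 ν z p d + ρ ^ (2 * ν) * dPhiC ν u d| ≤ C * ρ := fun d hd => by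
    have h1 := (hC z hz u hcone hu1.le ρ hp d (hd.trans (le_max_left _ _))).2
    rwa [hpu] at h1
  have hN0 : 0 ≤ N := Nat.cast_nonneg _
  have hY : 0 ≤ max Y₀ 0 := le_max_right _ _
  have n1 : ‖((u.1, 0) : Pt n)‖ ≤ 1 := by
    rw [Prod.norm_def, norm_zero]
    exact max_le ((norm_fst_le u).trans hu1.le) zero_le_one
  have n2 : ‖((0, u.2) : Pt n)‖ ≤ 1 := by
    rw [Prod.norm_def, norm_zero]
    exact max_le zero_le_one ((norm_snd_le u).trans hu1.le)
  refine ⟨?_, ?_, ?_⟩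
  · have h1 := stat_radial_P hε.1.le h
    have e : ((p.1, 0) : Pt n) = ρ • ((u.1, 0) : Pt n) := by rw [Prod.smul_mk, smul_zero, ← Prod.smul_fst, hpu]
    rw [e, map_smul, smul_eq_mul] at h1
    refine le_of_mul_le_mul_left ?_ hpos
    rw [mul_left_comm, e2ν, mul_assoc]
    have h2 := mul_le_mul_of_nonneg_left (abs_le.1 (hbd _ n1)).2 hρ0.le
    nlinarith [hbar, mul_le_mul_of_nonneg_left (hνle.trans hρρ) hB0,
      mul_nonneg (add_nonneg (mul_nonneg hN0 hY) (mul_nonneg hN0 hB0)) (mul_nonneg hρ0.le hρ0.le)]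
  · have h1 := stat_radial_Q (zero_le_one.trans hR) h
    have e : ((0, p.2) : Pt n) = ρ • ((0, u.2) : Pt n) := by rw [Prod.smul_mk, smul_zero, ← Prod.smul_snd, hpu]
    rw [e, map_smul, smul_eq_mul] at h1
    refine le_of_mul_le_mul_left ?_ hpos
    rw [mul_neg, mul_left_comm, e2ν, mul_assoc]
    have h2 := mul_le_mul_of_nonneg_left (abs_le.1 (hbd _ n2)).1 hρ0.le
    nlinarith [mul_nonneg (add_nonneg (add_nonneg hB0 (mul_nonneg hN0 hY)) (mul_nonneg hN0 hB0))
      (mul_nonneg hρ0.le hρ0.le), mul_le_mul_of_nonneg_left hρρ (mul_nonneg hC0 hρ0.le)]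
  · have h1 := stat_mid hε.1.le (zero_le_one.trans hR) (hKh z hz).2 h
    rw [Matrix.sub_mul, Matrix.trace_sub, Complex.sub_re, ← hpu, (homogeneous hν hν1 hcone hρ0.le).2.1,
      mid_smul] at h1
    simp only [Matrix.smul_mul, Matrix.mul_smul, smul_smul, Matrix.trace_smul, Complex.real_smul,
      Complex.re_ofReal_mul, hpu] at h1
    have hP : (p.1⁻¹).PosSemidef := h.posP.inv.posSemidef
    have hQ : ‖p.2‖ ≤ ρ := norm_snd_le p
    have h3 : ε * (p.1⁻¹ * p.2).trace.re ≤ N * (B * ρ ^ ν) * ρ := by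
      calc ε * (p.1⁻¹ * p.2).trace.re ≤ ε * (N * ((p.1⁻¹).trace.re * ρ)) := by
            refine mul_le_mul_of_nonneg_left ((le_abs_self _).trans ((abs_trace_mul_le _ _).trans
              (mul_le_mul_of_nonneg_left (mul_le_mul (Pencil.norm_le_trace hP) hQ (norm_nonneg _)
                (Complex.nonneg_iff.1 hP.trace_nonneg).1) hN0))) hε.1.le
        _ = N * (ε * (p.1⁻¹).trace.re) * ρ := by ring
        _ ≤ _ := by gcongr
    have h4 : (z.2 * mid u).trace.re ≤ N * max Y₀ 0 := by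
      refine (le_abs_self _).trans ((abs_trace_mul_le _ _).trans (mul_le_mul_of_nonneg_left ?_ hN0))
      have hm : ‖mid u‖ ≤ 1 := by
        have a := (norm_fst_le u).trans hu1.le
        have b := (norm_snd_le u).trans hu1.le
        rw [mid, norm_smul, Real.norm_of_nonneg (by norm_num)]
        have := (norm_add_le (u.1 * u.2) (u.2 * u.1)).trans (add_le_add ((norm_mul_le _ _).trans
          (mul_le_one₀ a (norm_nonneg _) b)) ((norm_mul_le _ _).trans (mul_le_one₀ b (norm_nonneg _) a)))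
        linarith
      calc ‖z.2‖ * ‖mid u‖ ≤ max Y₀ 0 * 1 := mul_le_mul
            (((norm_snd_le z).trans (hY₀ z hz)).trans (le_max_left _ _)) hm (norm_nonneg _) hY
        _ = _ := mul_one _
    set T := (XiC ν u * mid u).trace.re
    rcases le_or_gt T 0 with hT | hT
    · exact hT.trans (mul_nonneg (by positivity) (Real.rpow_nonneg hρ0.le _))
    refine le_of_mul_le_mul_left ?_ hpos
    rw [mul_left_comm, e2ν]
    have h5 : ρ * ρ ^ (2 * ν) * T ≤ ρ * ρ * ρ ^ (2 * ν) * T := by gcongr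
    nlinarith [mul_le_mul_of_nonneg_left h4 (mul_nonneg hρ0.le hρ0.le),
      mul_le_mul_of_nonneg_left hνle (mul_nonneg (mul_nonneg hN0 hB0) hρ0.le),
      mul_nonneg (add_nonneg hC0 hB0) (mul_nonneg hρ0.le hρ0.le)]

theorem exists_apriori (hν : 1 / 2 < ν) (hν1 : ν < 1) {K : Set (Pt n)} (hK : IsCompact K)
    (hKh : ∀ z ∈ K, z.1.IsHermitian ∧ z.2.IsHermitian) :
    ∃ R₀ : ℝ, ∀ ε ∈ Ioc (0 : ℝ) 1, ∀ R : ℝ, 1 ≤ R → ∀ z ∈ K, ∀ p : Pt n,
      Stat ν ε R z p → (co R₀ p.1).PosSemidef ∧ (co R₀ p.2).PosSemidef := by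
  suffices h : ∃ R₀ : ℝ, ∀ ε ∈ Ioc (0 : ℝ) 1, ∀ R : ℝ, 1 ≤ R → ∀ z ∈ K, ∀ p : Pt n,
      Stat ν ε R z p → ‖p‖ ≤ R₀ by
    obtain ⟨R₀, h⟩ := h
    refine ⟨R₀, fun ε hε R hR z hz p hp => ?_⟩
    have hb := h ε hε R hR z hz p hp
    exact ⟨co_posSemidef_of_norm_le hp.mem_cone.1.1 ((norm_fst_le p).trans hb),
      co_posSemidef_of_norm_le hp.mem_cone.2.1 ((norm_snd_le p).trans hb)⟩
  by_contra hne
  push Not at hne
  obtain ⟨C, hC⟩ := exists_radial_bound hν hν1 hK hKh
  choose ε hε R hR z hz p hst hbig using fun k : ℕ => hne ((k : ℝ) + 1)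
  have : ProperSpace (Pt n) := FiniteDimensional.proper ℝ _
  set u : ℕ → Pt n := fun k => ‖p k‖⁻¹ • p k
  have hp1 : ∀ k, 1 ≤ ‖p k‖ := fun k => by
    linarith [hbig k, (Nat.cast_nonneg k : (0 : ℝ) ≤ k)]
  have hmem : ∀ k, u k ∈ (Cone : Set (Pt n)) ∩ Metric.sphere (0 : Pt n) 1 := fun k => by
    have h0 : 0 < ‖p k‖ := lt_of_lt_of_le one_pos (hp1 k)
    refine ⟨?_, ?_⟩
    · constructor
      · rw [Prod.smul_fst, ← Complex.coe_smul]
        exact (hst k).mem_cone.1.smul (Complex.zero_le_real.2 (inv_nonneg.2 h0.le))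
      · rw [Prod.smul_snd, ← Complex.coe_smul]
        exact (hst k).mem_cone.2.smul (Complex.zero_le_real.2 (inv_nonneg.2 h0.le))
    · rw [mem_sphere_zero_iff_norm, norm_smul, norm_inv, norm_norm, inv_mul_cancel₀ h0.ne']
  obtain ⟨v, hv, φ, hφ, hlim⟩ := ((isCompact_sphere (0 : Pt n) 1).inter_left isClosed_cone).tendsto_subseq hmem
  have hw : Tendsto (u ∘ φ) atTop (𝓝[Cone] v) :=
    tendsto_nhdsWithin_iff.2 ⟨hlim, Eventually.of_forall fun k => (hmem (φ k)).1⟩
  have hrho : Tendsto (fun k => C * ‖p (φ k)‖ ^ (1 - 2 * ν)) atTop (𝓝 0) := by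
    have h1 : Tendsto (fun k => ‖p (φ k)‖) atTop atTop := by
      refine tendsto_atTop_mono (fun k => ?_) tendsto_natCast_atTop_atTop
      have : (k : ℝ) ≤ (φ k : ℝ) := Nat.cast_le.2 hφ.le_apply
      linarith [hbig (φ k)]
    have := ((tendsto_rpow_neg_atTop (show (0 : ℝ) < 2 * ν - 1 by linarith)).comp h1).const_mul C
    rw [mul_zero] at this
    exact this.congr fun k => by simp only [Function.comp_apply, neg_sub]
  have hP : dPhiC ν v (v.1, 0) ≤ 0 := by
    have hc : ContinuousOn (fun w : Pt n => dPhiC ν w (w.1, 0)) Cone :=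
      (continuousOn_dPhiC hν hν1).clm_apply (continuous_fst.prodMk continuous_const).continuousOn
    exact le_of_tendsto_of_tendsto ((hc v hv.1).tendsto.comp hw) hrho
      (Eventually.of_forall fun k => (hC _ (hε _) _ (hR _) _ (hz _) _ (hst _) (hp1 _) (u (φ k)) rfl).1)
  have hQ : 0 ≤ dPhiC ν v (0, v.2) := by
    have hc : ContinuousOn (fun w : Pt n => dPhiC ν w (0, w.2)) Cone :=
      (continuousOn_dPhiC hν hν1).clm_apply (continuous_const.prodMk continuous_snd).continuousOn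
    have := le_of_tendsto_of_tendsto hrho.neg ((hc v hv.1).tendsto.comp hw)
      (Eventually.of_forall fun k => (hC _ (hε _) _ (hR _) _ (hz _) _ (hst _) (hp1 _) (u (φ k)) rfl).2.1)
    simpa using this
  have hM : (XiC ν v * mid v).trace.re ≤ 0 := by
    have ht : Continuous fun X : Matrix n n ℂ => X.trace.re :=
      Complex.continuous_re.comp continuous_id.matrix_trace
    have hm : Continuous (mid : Pt n → Matrix n n ℂ) :=
      ((continuous_fst.mul continuous_snd).add (continuous_snd.mul continuous_fst)).const_smul (1 / 2 : ℝ)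
    have hc : ContinuousOn (fun w : Pt n => (XiC ν w * mid w).trace.re) Cone :=
      ht.comp_continuousOn ((continuousOn_XiC hν hν1).mul hm.continuousOn)
    exact le_of_tendsto_of_tendsto ((hc v hv.1).tendsto.comp hw) hrho
      (Eventually.of_forall fun k => (hC _ (hε _) _ (hR _) _ (hz _) _ (hst _) (hp1 _) (u (φ k)) rfl).2.2)
  obtain ⟨e1, e2⟩ := dPhiC_orth hν hν1 hv.1 (mul_eq_zero_of_trace_le hν hν1 hv.1 hM)
  rw [e1] at hP
  rw [e2, Left.nonneg_neg_iff] at hQ
  have hc0 : 0 < (2 * ν + 1) * endC ν := mul_pos (by linarith) (endC_pos' hν)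
  have half : ∀ {M : Matrix n n ℂ}, M.PosSemidef → ((1 / 2 : ℝ) • M).PosSemidef := fun hM => by
    rw [← Complex.coe_smul]
    exact hM.smul (Complex.zero_le_real.2 (by norm_num))
  have z1 := powTr_nonpos_eq_zero (r := 2 * ν + 1) (half hv.1.1) (by linarith) (le_of_mul_le_mul_left (by simpa using hP) hc0)
  have z2 := powTr_nonpos_eq_zero (r := 2 * ν + 1) (half hv.1.2) (by linarith) (le_of_mul_le_mul_left (by simpa using hQ) hc0)
  have : v = 0 := Prod.ext ((smul_eq_zero.1 z1).resolve_left (by norm_num))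
    ((smul_eq_zero.1 z2).resolve_left (by norm_num))
  have hn := hv.2
  simp [this] at hn

end Vale.Agent.P371.Link
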