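import Vale.Agent.P371.Link.Apriori

/-!
P371, gauge selection: the box, the barrier and the functional on the box (seat helper25).
-/

namespace Vale.Agent.P371.Link

open _root_.Matrix Complex Set Filter
open scoped ComplexOrder MatrixOrder Matrix.Norms.L2Operator Topology

set_option linter.unusedSectionVars false

variable {n : Type} [Fintype n] [DecidableEq n] {ν δ ε R : ℝ}

/-- Hermitian matrices as a real normed space. -/
noncomputable abbrev Her (n : Type) : Submodule ℝ (Matrix n n ℂ) := selfAdjoint.submodule ℝ (Matrix n n ℂ)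

lemma sub_smul_one_add (P : Matrix n n ℂ) (a : ℝ) : P - (a : ℂ) • 1 + (a : ℂ) • 1 = P := sub_add_cancel _ _

lemma co_add_smul_one (P : Matrix n n ℂ) (a b : ℝ) : co (a - b) P + (b : ℂ) • 1 = co a P := by
  simp only [co]
  push_cast
  module

lemma posSemidef_of_mem_slab (hδ : 0 ≤ δ) {P : Matrix n n ℂ} (h : P ∈ slab δ R) :
    P.PosSemidef ∧ (co R P).PosSemidef := by
  have h1 : ((δ : ℂ) • (1 : Matrix n n ℂ)).PosSemidef :=
    Matrix.PosSemidef.one.smul (Complex.zero_le_real.2 hδ)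
  constructor
  · simpa only [sub_smul_one_add] using h.1.add h1
  · simpa only [co_add_smul_one] using h.2.add h1

lemma posDef_of_mem_slab (hδ : 0 < δ) {P : Matrix n n ℂ} (h : P ∈ slab δ R) :
    P.PosDef ∧ (co R P).PosDef := by
  have h1 : ((δ : ℂ) • (1 : Matrix n n ℂ)).PosDef := Matrix.PosDef.one.smul (Complex.zero_lt_real.2 hδ)
  constructor
  · simpa only [sub_smul_one_add] using h1.posSemidef_add h.1
  · simpa only [co_add_smul_one] using h1.posSemidef_add h.2

lemma co_posSemidef_mono {a b : ℝ} (hab : a ≤ b) {P : Matrix n n ℂ} (h : (co a P).PosSemidef) :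
    (co b P).PosSemidef := by
  have h1 := h.add ((Matrix.PosSemidef.one (n := n) (R := ℂ)).smul
    (Complex.zero_le_real.2 (sub_nonneg.2 hab)))
  convert h1 using 1
  simp only [co]
  push_cast
  module

lemma mem_slab_zero (hδ : 0 ≤ δ) {P : Matrix n n ℂ} (h : P ∈ slab δ R) : P ∈ slab 0 R := by
  obtain ⟨h1, h2⟩ := posSemidef_of_mem_slab hδ h
  exact ⟨by simpa using h1, by simpa using h2⟩

lemma smul_one_mem_slab {a : ℝ} (h1 : δ ≤ a) (h2 : a ≤ R - δ) : ((a : ℂ) • 1 : Matrix n n ℂ) ∈ slab δ R := by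
  constructor
  · rw [← sub_smul, ← Complex.ofReal_sub]
    exact Matrix.PosSemidef.one.smul (Complex.zero_le_real.2 (sub_nonneg.2 h1))
  · rw [co, ← sub_smul, ← Complex.ofReal_sub]
    exact Matrix.PosSemidef.one.smul (Complex.zero_le_real.2 (sub_nonneg.2 h2))

lemma continuous_co (a : ℝ) : Continuous (co a : Matrix n n ℂ → Matrix n n ℂ) :=
  continuous_const.sub continuous_id

lemma isClosed_slab : IsClosed (slab δ R : Set (Matrix n n ℂ)) := by
  refine IsSeqClosed.isClosed fun x P hx hl => ⟨?_, ?_⟩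
  · exact Pencil.posSemidef_of_tendsto (fun k => (hx k).1) (hl.sub tendsto_const_nhds)
  · exact Pencil.posSemidef_of_tendsto (fun k => (hx k).2) (((continuous_co _).tendsto P).comp hl)

lemma norm_le_of_mem_slab (hR : 0 ≤ R) {P : Matrix n n ℂ} (h : P ∈ slab 0 R) : ‖P‖ ≤ R := by
  obtain ⟨h1, h2⟩ := posSemidef_of_mem_slab le_rfl h
  refine (CStarAlgebra.norm_le_iff_le_algebraMap P hR h1.nonneg).2 ?_
  rw [Algebra.algebraMap_eq_smul_one]
  rw [Matrix.le_iff, ← Complex.coe_smul]
  exact h2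

lemma isCompact_slab (hR : 0 ≤ R) (hδ : 0 ≤ δ) : IsCompact (slab δ R : Set (Matrix n n ℂ)) := by
  have : ProperSpace (Matrix n n ℂ) := FiniteDimensional.proper ℝ _
  refine (isCompact_closedBall (0 : Matrix n n ℂ) R).of_isClosed_subset isClosed_slab fun P hP => ?_
  rw [mem_closedBall_zero_iff]
  exact norm_le_of_mem_slab hR (mem_slab_zero hδ hP)

lemma convex_slab : Convex ℝ (slab δ R : Set (Matrix n n ℂ)) := by
  intro P hP Q hQ a b ha hb hab
  have e : (a : ℂ) + b = 1 := by rw [← Complex.ofReal_add, hab, Complex.ofReal_one]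
  constructor
  · convert (hP.1.smul ha).add (hQ.1.smul hb) using 1
    simp only [← Complex.coe_smul, smul_sub, smul_smul]
    linear_combination (norm := module) (e • ((δ : ℂ) • (1 : Matrix n n ℂ)))
  · convert (hP.2.smul ha).add (hQ.2.smul hb) using 1
    simp only [co, ← Complex.coe_smul, smul_sub, smul_smul]
    linear_combination (norm := module) (-e • ((((R - δ : ℝ)) : ℂ) • (1 : Matrix n n ℂ)))

/-- Strict points of the slab are interior among Hermitian matrices. -/
lemma eventually_mem_slab {P : Matrix n n ℂ} (h1 : (P - (δ : ℂ) • 1).PosDef) (h2 : (co (R - δ) P).PosDef) :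
    ∀ᶠ X in 𝓝 P, X.IsHermitian → X ∈ slab δ R := by
  have c1 : Tendsto (fun X : Matrix n n ℂ => X - (δ : ℂ) • 1) (𝓝 P) (𝓝 (P - (δ : ℂ) • 1)) :=
    (continuous_id.sub continuous_const).tendsto P
  filter_upwards [c1.eventually (Pencil.eventually_posDef h1),
    ((continuous_co (R - δ)).tendsto P).eventually (Pencil.eventually_posDef h2)] with X hX1 hX2 hX
  have hs : ∀ a : ℝ, ((a : ℂ) • (1 : Matrix n n ℂ)).IsHermitian := fun a =>
    Matrix.isHermitian_one.smul (by simp [IsSelfAdjoint])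
  exact ⟨(hX1 (hX.sub (hs δ))).posSemidef, (hX2 ((hs (R - δ)).sub hX)).posSemidef⟩

/-- The trace of the inverse of a shifted positive matrix. -/
lemma trace_inv_add {A : Matrix n n ℂ} (hA : A.PosSemidef) (hδ : 0 < δ) :
    0 ≤ ((A + (δ : ℂ) • 1)⁻¹).trace.re ∧ (¬ A.PosDef → 1 / δ ≤ ((A + (δ : ℂ) • 1)⁻¹).trace.re) := by
  set U : Matrix n n ℂ := hA.1.eigenvectorUnitary.1
  set l := hA.1.eigenvalues
  have hU : U * Uᴴ = 1 := Unitary.coe_mul_star_self _
  have hU' : Uᴴ * U = 1 := mul_eq_one_comm.1 hU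
  have hl : ∀ i, 0 < l i + δ := fun i => by linarith [hA.eigenvalues_nonneg i]
  have eA : A + (δ : ℂ) • 1 = U * Pencil.dg (fun i => l i + δ) * Uᴴ := by
    have hsp : A = U * Pencil.dg l * Uᴴ := hA.1.spectral_theorem
    have e1 : ((δ : ℂ) • 1 : Matrix n n ℂ) = U * Pencil.dg (fun _ => δ) * Uᴴ := by
      rw [Pencil.dg, ← Matrix.smul_one_eq_diagonal, Matrix.mul_smul, Matrix.smul_mul, mul_one, hU]
    rw [e1, hsp, ← Matrix.add_mul, ← Matrix.mul_add, Pencil.dg, Pencil.dg, Pencil.dg, diagonal_add]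
    congr 3
    funext i
    simp
  have eI : (A + (δ : ℂ) • 1)⁻¹ = U * Pencil.dg (fun i => (l i + δ)⁻¹) * Uᴴ := by
    refine Matrix.inv_eq_right_inv ?_
    rw [eA, show U * Pencil.dg (fun i => l i + δ) * Uᴴ * (U * Pencil.dg (fun i => (l i + δ)⁻¹) * Uᴴ) =
      U * (Pencil.dg (fun i => l i + δ) * (Uᴴ * U) * Pencil.dg fun i => (l i + δ)⁻¹) * Uᴴ by
      simp only [Matrix.mul_assoc], hU', mul_one, Pencil.dg, Pencil.dg, diagonal_mul_diagonal]
    convert hU
    rw [show (fun i => (((l i + δ : ℝ)) : ℂ) * (((l i + δ)⁻¹ : ℝ) : ℂ)) = fun _ => (1 : ℂ) from funext fun i => by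
      rw [← Complex.ofReal_mul, mul_inv_cancel₀ (hl i).ne', Complex.ofReal_one], diagonal_one, mul_one]
  have et : ((A + (δ : ℂ) • 1)⁻¹).trace.re = ∑ i, (l i + δ)⁻¹ := by
    rw [eI, Matrix.trace_mul_cycle, hU', one_mul, Pencil.dg, trace_diagonal, Complex.re_sum]
    exact Finset.sum_congr rfl fun i _ => Complex.ofReal_re _
  have hnn : ∀ i ∈ Finset.univ, 0 ≤ (l i + δ)⁻¹ := fun i _ => (inv_pos.2 (hl i)).le
  rw [et]
  refine ⟨Finset.sum_nonneg hnn, fun hn => ?_⟩
  obtain ⟨i, hi⟩ : ∃ i, l i = 0 := by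
    by_contra hne
    exact hn (hA.1.posDef_iff_eigenvalues_pos.2 fun i =>
      lt_of_le_of_ne (hA.eigenvalues_nonneg i) fun h => hne ⟨i, h.symm⟩)
  calc 1 / δ = (l i + δ)⁻¹ := by rw [hi, zero_add, one_div]
    _ ≤ _ := Finset.single_le_sum hnn (Finset.mem_univ i)

lemma barrier_bounds (hδ : 0 < δ) (hε : 0 ≤ ε) {P : Matrix n n ℂ} (h : P ∈ slab δ R) :
    0 ≤ barrier ε R P ∧
      (¬ ((P - (δ : ℂ) • 1).PosDef ∧ (co (R - δ) P).PosDef) → ε / δ ≤ barrier ε R P) := by
  have h1 := trace_inv_add h.1 hδ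
  have h2 := trace_inv_add h.2 hδ
  rw [sub_smul_one_add] at h1
  rw [co_add_smul_one] at h2
  refine ⟨mul_nonneg hε (add_nonneg h1.1 h2.1), fun hn => ?_⟩
  rw [barrier, div_eq_mul_one_div]
  refine mul_le_mul_of_nonneg_left ?_ hε
  rw [not_and_or] at hn
  rcases hn with hn | hn
  · linarith [h1.2 hn, h2.1]
  · linarith [h2.2 hn, h1.1]

lemma trace_inv_smul_one {a : ℝ} (ha : a ≠ 0) :
    (((a : ℂ) • 1 : Matrix n n ℂ)⁻¹).trace.re = Fintype.card n / a := by
  have e : ((a : ℂ) • 1 : Matrix n n ℂ)⁻¹ = ((a⁻¹ : ℝ) : ℂ) • 1 := by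
    refine Matrix.inv_eq_right_inv ?_
    rw [Matrix.smul_mul, one_mul, smul_smul, ← Complex.ofReal_mul, mul_inv_cancel₀ ha, Complex.ofReal_one, one_smul]
  rw [e, Matrix.trace_smul, Matrix.trace_one, smul_eq_mul, Complex.re_ofReal_mul, Complex.natCast_re,
    div_eq_mul_inv, mul_comm]

lemma barrier_smul_one {a : ℝ} (ha : a ≠ 0) (ha' : R - a ≠ 0) :
    barrier ε R ((a : ℂ) • 1 : Matrix n n ℂ) =
      ε * (Fintype.card n / a + Fintype.card n / (R - a)) := by
  have e : co R ((a : ℂ) • 1 : Matrix n n ℂ) = (((R - a : ℝ)) : ℂ) • 1 := by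
    rw [co, Complex.ofReal_sub, sub_smul]
  rw [barrier, e, trace_inv_smul_one ha, trace_inv_smul_one ha']

/-- The differential of the trace of the inverse. -/
lemma hasFDerivAt_trace_inv {P : Matrix n n ℂ} (hP : IsUnit P) :
    HasFDerivAt (fun X : Matrix n n ℂ => (X⁻¹).trace.re) (-(Pencil.pairing (P⁻¹ * P⁻¹))) P := by
  obtain ⟨u, rfl⟩ := hP
  have h : HasFDerivAt (fun X : Matrix n n ℂ => X⁻¹)
      (-ContinuousLinearMap.mulLeftRight ℝ (Matrix n n ℂ) ↑u⁻¹ ↑u⁻¹) (u : Matrix n n ℂ) := by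
    simpa only [Matrix.nonsing_inv_eq_ringInverse] using hasFDerivAt_ringInverse u
  refine (((Pencil.pairing (1 : Matrix n n ℂ)).hasFDerivAt.comp (u : Matrix n n ℂ) h).congr_of_eventuallyEq
    (Eventually.of_forall fun X => ?_)).congr_fderiv ?_
  · simp [Pencil.pairing_apply]
  · refine ContinuousLinearMap.ext fun k => ?_
    simp only [ContinuousLinearMap.comp_apply, _root_.neg_apply, ContinuousLinearMap.mulLeftRight_apply,
      Pencil.pairing_apply, mul_one, Matrix.coe_units_inv, Matrix.trace_neg, Complex.neg_re]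
    rw [Matrix.trace_mul_cycle, Matrix.trace_mul_comm]

lemma sig_isHermitian {p : Pt n} (hp : p ∈ (Cone : Set (Pt n))) : (sig p).IsHermitian :=
  Pencil.isHermitian_cC hp

lemma bee_isHermitian {p : Pt n} (hp : p ∈ (Cone : Set (Pt n))) : (bee p).IsHermitian :=
  (IsSelfAdjoint.all (1 / 2 : ℝ)).smul (hp.1.isHermitian.sub hp.2.isHermitian)

lemma box_subset_cone (hδ : 0 ≤ δ) :
    slab δ R ×ˢ slab 0 R ⊆ (Cone : Set (Pt n)) := fun _ hp =>
  ⟨(posSemidef_of_mem_slab hδ hp.1).1, (posSemidef_of_mem_slab le_rfl hp.2).1⟩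

lemma hasFDerivWithinAt_F0 (hν : 1 / 2 < ν) (hν1 : ν < 1) (z : Pt n) {p : Pt n}
    (hp : p ∈ (Cone : Set (Pt n))) : HasFDerivWithinAt (F0 ν z) (dF0 ν z p) Cone p := by
  have hs : HasFDerivAt (fun q : Pt n => sig q) (sigL : Pt n →L[ℝ] Matrix n n ℂ) p :=
    (sigL (n := n)).hasFDerivAt
  have hb : HasFDerivAt (fun q : Pt n => bee q) (beeL : Pt n →L[ℝ] Matrix n n ℂ) p :=
    (beeL (n := n)).hasFDerivAt
  have h1 := (Pencil.pairing (1 : Matrix n n ℂ)).hasFDerivAt.comp p ((hs.mul' hs).const_mul z.1)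
  have h2 := (Pencil.pairing (1 : Matrix n n ℂ)).hasFDerivAt.comp p (hb.const_mul z.2)
  have h3 := (h1.add h2).hasFDerivWithinAt.sub (hasFDerivWithinAt_PhiC hν hν1 hp)
  refine (h3.congr_of_eventuallyEq (Eventually.of_forall fun q => ?_) ?_).congr_fderiv ?_
  · simp [F0, Pencil.pairing_apply]
  · simp [F0, Pencil.pairing_apply]
  · refine ContinuousLinearMap.ext fun d => ?_
    simp only [dF0, _root_.sub_apply, _root_.add_apply, ContinuousLinearMap.comp_apply,
      _root_.smul_apply, smul_eq_mul, op_smul_eq_mul, Pencil.pairing_apply, mul_one,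
      Matrix.mul_add, Matrix.trace_add, Complex.add_re]
    rw [Matrix.trace_mul_comm (beeL d) z.2, ← Matrix.mul_assoc z.1 (sig p), ← Matrix.mul_assoc z.1 (sigL d),
      Matrix.trace_mul_cycle z.1 (sigL d), Matrix.trace_mul_comm (sigL d) (z.1 * sig p),
      ← Matrix.mul_assoc (sigL d) (sig p), Matrix.trace_mul_comm (sigL d * sig p) z.1]
    rw [← Matrix.mul_assoc z.1, Matrix.trace_mul_cycle z.1 (sigL d)]

lemma hasFDerivWithinAt_F (hν : 1 / 2 < ν) (hν1 : ν < 1) (hδ : 0 < δ) (z : Pt n) {p : Pt n}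
    (hp : p ∈ slab δ R ×ˢ slab 0 R) :
    HasFDerivWithinAt (F ν ε R z) (dF ν ε R z p) (slab δ R ×ˢ slab 0 R) p := by
  obtain ⟨hP, hC⟩ := posDef_of_mem_slab hδ hp.1
  have hc : HasFDerivAt (fun X : Matrix n n ℂ => co R X) (-ContinuousLinearMap.id ℝ (Matrix n n ℂ)) p.1 :=
    (hasFDerivAt_id p.1).const_sub _
  have hb := (((hasFDerivAt_trace_inv hP.isUnit).add ((hasFDerivAt_trace_inv hC.isUnit).comp p.1 hc)).const_mul
    ε).comp p (hasFDerivAt_fst (𝕜 := ℝ) (p := p))
  have h := ((hasFDerivWithinAt_F0 hν hν1 z (box_subset_cone hδ.le hp)).mono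
    (box_subset_cone (R := R) hδ.le)).sub hb.hasFDerivWithinAt
  refine (h.congr_of_eventuallyEq (Eventually.of_forall fun q => rfl) rfl).congr_fderiv ?_
  refine ContinuousLinearMap.ext fun d => ?_
  simp only [dF, _root_.sub_apply, _root_.add_apply, _root_.neg_apply, ContinuousLinearMap.comp_apply,
    _root_.smul_apply, ContinuousLinearMap.id_apply, smul_eq_mul, Pencil.pairing_apply, Matrix.mul_smul,
    Matrix.trace_smul, Complex.smul_re, Matrix.mul_sub, Matrix.trace_sub, Complex.sub_re, Matrix.neg_mul,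
    Matrix.trace_neg, Complex.neg_re, ContinuousLinearMap.coe_fst']
  ring

/-- The linear dependence of the functional on the parameter. -/
noncomputable def paramL (p : Pt n) : Pt n →L[ℝ] ℝ :=
  (Pencil.pairing (sig p * sig p)).comp (ContinuousLinearMap.fst ℝ (Matrix n n ℂ) (Matrix n n ℂ)) +
    (Pencil.pairing (bee p)).comp (ContinuousLinearMap.snd ℝ (Matrix n n ℂ) (Matrix n n ℂ))

lemma paramL_apply (p w : Pt n) :
    paramL p w = (w.1 * (sig p * sig p)).trace.re + (w.2 * bee p).trace.re := rfl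

lemma F_add_param (z w p : Pt n) : F ν ε R (z + w) p = F ν ε R z p + paramL p w := by
  simp only [F, F0, paramL_apply, Prod.fst_add, Prod.snd_add, Matrix.add_mul, Matrix.trace_add, Complex.add_re]
  ring

lemma continuous_sig : Continuous (sig : Pt n → Matrix n n ℂ) := (sigL (n := n)).continuous

lemma continuous_bee : Continuous (bee : Pt n → Matrix n n ℂ) := (beeL (n := n)).continuous

lemma continuous_trace_re : Continuous fun X : Matrix n n ℂ => X.trace.re :=
  Complex.continuous_re.comp continuous_id.matrix_trace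

lemma continuous_paramL : Continuous (paramL : Pt n → Pt n →L[ℝ] ℝ) :=
  continuous_clm_apply.2 fun w => by
    simp only [paramL_apply]
    exact (continuous_trace_re.comp (continuous_const.mul (continuous_sig.mul continuous_sig))).add
      (continuous_trace_re.comp (continuous_const.mul continuous_bee))

/-- The functional without barrier is continuous in both variables. -/
lemma continuousOn_F0 (hν : 1 / 2 < ν) (hν1 : ν < 1) :
    ContinuousOn (fun q : Pt n × Pt n => F0 ν q.1 q.2) (univ ×ˢ (Cone : Set (Pt n))) := by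
  have h : ContinuousOn (fun q : Pt n × Pt n => paramL q.2 q.1) (univ ×ˢ (Cone : Set (Pt n))) :=
    ((continuous_paramL.comp continuous_snd).clm_apply continuous_fst).continuousOn
  exact h.sub ((continuousOn_PhiC hν hν1).comp continuous_snd.continuousOn fun q hq => hq.2)

/-- Its differential is continuous in all variables. -/
lemma continuousOn_dF0 (hν : 1 / 2 < ν) (hν1 : ν < 1) :
    ContinuousOn (fun q : Pt n × Pt n => dF0 ν q.1 q.2) (univ ×ˢ (Cone : Set (Pt n))) := by
  refine continuousOn_clm_apply.2 fun d => ?_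
  have h : Continuous fun q : Pt n × Pt n =>
      (sigL d * (q.1.1 * sig q.2 + sig q.2 * q.1.1)).trace.re + (beeL d * q.1.2).trace.re := by
    have hs : Continuous fun q : Pt n × Pt n => sig q.2 := continuous_sig.comp continuous_snd
    exact (continuous_trace_re.comp (continuous_const.mul
      ((continuous_fst.fst.mul hs).add (hs.mul continuous_fst.fst)))).add
      (continuous_trace_re.comp (continuous_const.mul continuous_fst.snd))
  exact h.continuousOn.sub ((continuousOn_clm_apply.1 (continuousOn_dPhiC hν hν1) d).comp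
    continuous_snd.continuousOn fun q hq => hq.2)

lemma continuousOn_inv : ContinuousOn (fun X : Matrix n n ℂ => X⁻¹) {X | IsUnit X} := fun X hX => by
  obtain ⟨u, rfl⟩ := hX
  simpa only [Matrix.nonsing_inv_eq_ringInverse] using
    (NormedRing.inverse_continuousAt u).continuousWithinAt

lemma continuousOn_dF (hν : 1 / 2 < ν) (hν1 : ν < 1) (hδ : 0 < δ) (z : Pt n) :
    ContinuousOn (dF ν ε R z) (slab δ R ×ˢ slab 0 R) := by
  have h1 : ContinuousOn (dF0 ν z) (slab δ R ×ˢ slab 0 R) :=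
    ContinuousOn.comp (f := fun p : Pt n => ((z, p) : Pt n × Pt n))
      (g := fun q : Pt n × Pt n => dF0 ν q.1 q.2) (continuousOn_dF0 hν hν1)
      (continuousOn_const.prodMk continuousOn_id) fun p hp => ⟨mem_univ z, box_subset_cone hδ.le hp⟩
  have hi : ContinuousOn (fun p : Pt n => p.1⁻¹) (slab δ R ×ˢ slab 0 R) :=
    continuousOn_inv.comp continuous_fst.continuousOn fun p hp => (posDef_of_mem_slab hδ hp.1).1.isUnit
  have hj : ContinuousOn (fun p : Pt n => (co R p.1)⁻¹) (slab δ R ×ˢ slab 0 R) :=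
    continuousOn_inv.comp ((continuous_co R).comp continuous_fst).continuousOn
      fun p hp => (posDef_of_mem_slab hδ hp.1).2.isUnit
  refine continuousOn_clm_apply.2 fun d => ?_
  have h2 : ContinuousOn (fun p : Pt n => (d.1 * (ε • (p.1⁻¹ * p.1⁻¹ - (co R p.1)⁻¹ * (co R p.1)⁻¹))).trace.re)
      (slab δ R ×ˢ slab 0 R) :=
    continuous_trace_re.comp_continuousOn
      (continuousOn_const.mul (((hi.mul hi).sub (hj.mul hj)).const_smul ε))
  refine ((continuousOn_clm_apply.1 h1 d).add h2).congr fun p _ => ?_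
  simp [dF, Pencil.pairing_apply]

end Vale.Agent.P371.Link
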