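import Mathlib

/-!
P371: the topological input of the linking selection. A continuous map of a compact set which is
the identity on the frontier takes every interior value. The proof is analytic: the weighted
integral of the Jacobian of `x + t g x` is a polynomial in `t`, constant for small `t`.
-/

open MeasureTheory Set Metric Filter Topology Module Polynomial

namespace Vale.Agent.P371.Link

section Inner

variable {E : Type*} [NormedAddCommGroup E] [InnerProductSpace ℝ E] [FiniteDimensional ℝ E]

/-- A smooth compactly supported perturbation of the identity is onto. -/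
theorem exists_preimage_smooth {g : E → E} (hg : ContDiff ℝ 1 g) (hc : HasCompactSupport g)
    (y : E) : ∃ x, x + g x = y := by
  by_contra hne
  push Not at hne
  borelize E
  set μ : Measure E := Measure.addHaar
  obtain ⟨R₀, hR₀⟩ := hc.isBounded.subset_closedBall (0 : E)
  set R : ℝ := max R₀ (‖y‖ + 1)
  have hRy : ‖y‖ < R := lt_of_lt_of_le (lt_add_one _) (le_max_right _ _)
  have hR0 : 0 ≤ R := (norm_nonneg y).trans hRy.le
  set B := closedBall (0 : E) R
  have hB : IsCompact B := isCompact_closedBall _ _
  have hgB : ∀ x ∉ B, g x = 0 := fun x hx =>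
    image_eq_zero_of_notMem_tsupport fun h =>
      hx (closedBall_subset_closedBall (le_max_left _ _) (hR₀ h))
  have hgd : Differentiable ℝ g := hg.differentiable (by norm_num)
  have hg' : Continuous (fderiv ℝ g) := hg.continuous_fderiv (by norm_num)
  obtain ⟨L, hL⟩ := (hc.fderiv ℝ).exists_bound_of_continuous hg'
  have hL0 : 0 ≤ L := (norm_nonneg _).trans (hL 0)
  -- the Jacobian is a polynomial in `t`
  set b := finBasis ℝ E
  set n := finrank ℝ E
  set A : E → Matrix (Fin n) (Fin n) ℝ := fun x =>
    LinearMap.toMatrix b b (fderiv ℝ g x : E →ₗ[ℝ] E)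
  set J : ℝ → E → ℝ := fun t x => ((1 : E →L[ℝ] E) + t • fderiv ℝ g x).det
  have hJA : ∀ t x, J t x = (1 + t • A x).det := fun t x => by
    show LinearMap.det ((((1 : E →L[ℝ] E) + t • fderiv ℝ g x : E →L[ℝ] E)) : E →ₗ[ℝ] E) = _
    rw [← LinearMap.det_toMatrix b, ContinuousLinearMap.toLinearMap_add,
      ContinuousLinearMap.toLinearMap_smul,
      ContinuousLinearMap.toLinearMap_one, map_add, map_smul, LinearMap.toMatrix_one]
  have hJc : Continuous fun p : ℝ × E => J p.1 p.2 :=
    ContinuousLinearMap.continuous_det.comp (continuous_const.add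
      (continuous_fst.smul (hg'.comp continuous_snd)))
  have hJ0 : ∀ x, J 0 x = 1 := fun x => by rw [hJA, zero_smul, add_zero, Matrix.det_one]
  have hev : ∀ᶠ t : ℝ in 𝓝 0, ∀ x ∈ B, 0 < J t x :=
    hB.eventually_forall_of_forall_eventually fun x _ =>
      hJc.continuousAt.tendsto.eventually_const_lt (by simp [hJ0])
  obtain ⟨τ, hτ, hτJ⟩ := Metric.eventually_nhds_iff.1 hev
  set T : ℝ := min τ (1 / (L + 1))
  have hT : 0 < T := lt_min hτ (by positivity)
  -- change of variables for small `t`
  have hcv : ∀ t, 0 ≤ t → t < T → ∀ φ : E → ℝ,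
      ∫ x in B, φ (x + t • g x) * J t x ∂μ = ∫ x in B, φ x ∂μ := by
    intro t ht0 htT φ
    have htL : t * L < 1 := by
      have h := htT.trans_le (min_le_right _ _)
      rw [lt_div_iff₀ (by positivity)] at h
      nlinarith
    have hLip : ∀ x x', ‖t • g x - t • g x'‖ ≤ t * L * ‖x - x'‖ := fun x x' => by
      rw [← smul_sub, norm_smul, Real.norm_of_nonneg ht0, mul_assoc]
      exact mul_le_mul_of_nonneg_left (convex_univ.norm_image_sub_le_of_norm_fderiv_le
        (fun z _ => hgd z) (fun z _ => hL z) (mem_univ x') (mem_univ x)) ht0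
    have hinj : Function.Injective fun x => x + t • g x := fun x x' h => by
      have h' : x - x' = -(t • g x - t • g x') := by
        have : x + t • g x = x' + t • g x' := h
        linear_combination (norm := module) this
      have h'' := hLip x x'
      rw [← norm_neg (t • g x - t • g x'), ← h'] at h''
      have : ‖x - x'‖ = 0 := by
        rcases (norm_nonneg (x - x')).lt_or_eq with h0 | h0
        · have := mul_lt_mul_of_pos_right htL h0
          linarith
        · exact h0.symm
      exact sub_eq_zero.1 (norm_eq_zero.1 this)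
    have himg : (fun x => x + t • g x) '' B = B := by
      refine Subset.antisymm ?_ fun z hz => ?_
      · rintro _ ⟨x, hx, rfl⟩
        by_contra hout
        have := hinj (a₁ := x + t • g x) (a₂ := x) (by simp [hgB _ hout])
        exact hout (by show x + t • g x ∈ B; rw [this]; exact hx)
      · have hcon : ContractingWith (t * L).toNNReal fun x => z - t • g x := by
          refine ⟨Real.toNNReal_lt_one.2 htL, LipschitzWith.of_dist_le_mul fun x x' => ?_⟩
          rw [Real.coe_toNNReal _ (mul_nonneg ht0 hL0), dist_eq_norm, dist_eq_norm, sub_sub_sub_cancel_left,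
            norm_sub_rev]
          exact hLip x x'
        set x := ContractingWith.fixedPoint _ hcon
        have hx : z - t • g x = x := hcon.fixedPoint_isFixedPt
        refine ⟨x, ?_, by show x + t • g x = z; nth_rw 1 [← hx]; abel⟩
        by_contra hout
        rw [hgB x hout, smul_zero, sub_zero] at hx
        exact hout (hx ▸ hz)
    have h := integral_image_eq_integral_abs_det_fderiv_smul μ measurableSet_closedBall
      (f := fun x => x + t • g x) (f' := fun x => 1 + t • fderiv ℝ g x) (s := B)
      (fun x _ => ((hasFDerivAt_id x).add ((hgd x).hasFDerivAt.const_smul t)).hasFDerivWithinAt)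
      hinj.injOn φ
    rw [himg] at h
    rw [h]
    refine setIntegral_congr_fun measurableSet_closedBall fun x hx => ?_
    show φ (x + t • g x) * J t x = |J t x| • φ (x + t • g x)
    have hd0 : dist t 0 < τ := by
      rw [Real.dist_eq, sub_zero, abs_of_nonneg ht0]
      exact htT.trans_le (min_le_left _ _)
    rw [abs_of_pos (hτJ hd0 x hx), smul_eq_mul, mul_comm]
  -- the values to separate
  have hgc := hg.continuous
  obtain ⟨x₁, hx₁, hmin⟩ := hB.exists_isMinOn ⟨0, mem_closedBall_self hR0⟩
    (f := fun x => ‖x + g x - y‖) (by fun_prop)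
  obtain ⟨x₂, -, hmax⟩ := hB.exists_isMaxOn ⟨0, mem_closedBall_self hR0⟩
    (f := fun x => ‖x + g x - y‖) (by fun_prop)
  set d := ‖x₁ + g x₁ - y‖
  have hd : 0 < d := norm_pos_iff.2 (sub_ne_zero.2 (hne x₁))
  set D := max (‖x₂ + g x₂ - y‖) (2 * R)
  have hdD : d ≤ D := (hmax hx₁).trans (le_max_left _ _)
  have hD : 0 < D := hd.trans_le hdD
  set ρ : E → ℝ := fun z => 1 - ‖z - y‖ ^ 2 / D ^ 2
  set r := min (d / 2) (R - ‖y‖)
  have hr : 0 < r := lt_min (by linarith) (by linarith)
  set p := 1 - r ^ 2 / D ^ 2
  set q := 1 - d ^ 2 / D ^ 2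
  have hq0 : 0 ≤ q := by
    simp only [q, sub_nonneg]
    rw [div_le_one (by positivity)]
    exact pow_le_pow_left₀ hd.le hdD 2
  have hqp : q < p := by
    simp only [q, p]
    gcongr
    · have : r ≤ d / 2 := min_le_left _ _
      linarith
  -- the moments
  have key : ∀ k : ℕ, ∫ x in B, ρ (x + g x) ^ k * J 1 x ∂μ = ∫ x in B, ρ x ^ k ∂μ := by
    intro k
    set m : ℕ := 2 * k + n
    set nodes := Finset.range (m + 1)
    set v : ℕ → ℝ := fun i => T * (i + 1) / (m + 2)
    have hv : InjOn v nodes := fun i _ j _ h => by
      simp only [v] at h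
      field_simp at h
      exact_mod_cast (show (i : ℝ) = j by linarith)
    have hvT : ∀ i ∈ nodes, 0 ≤ v i ∧ v i < T := fun i hi => by
      have hi' : (i : ℝ) ≤ m := by exact_mod_cast Nat.lt_succ_iff.1 (Finset.mem_range.1 hi)
      refine ⟨by positivity, ?_⟩
      simp only [v]
      rw [div_lt_iff₀ (by positivity)]
      nlinarith
    set w : ℕ → ℝ := fun i => (Lagrange.basis nodes v i).eval 1
    have hw : ∑ i ∈ nodes, w i = 1 := by
      simp only [w, ← Polynomial.eval_finsetSum]
      rw [Lagrange.sum_basis hv ⟨0, by simp [nodes]⟩, eval_one]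
    have hpt : ∀ x, ρ (x + g x) ^ k * J 1 x =
        ∑ i ∈ nodes, w i * (ρ (x + v i • g x) ^ k * J (v i) x) := by
      intro x
      set P : ℝ[X] := (C (1 - ‖x - y‖ ^ 2 / D ^ 2) + C (-(2 * inner ℝ (x - y) (g x)) / D ^ 2) * X +
        C (-‖g x‖ ^ 2 / D ^ 2) * X ^ 2) ^ k * ((X : ℝ[X]) • (A x).map C + (1 : Matrix _ _ ℝ).map C).det
      have hev' : ∀ t, P.eval t = ρ (x + t • g x) ^ k * J t x := fun t => by
        have e : ‖x + t • g x - y‖ ^ 2 =
            ‖x - y‖ ^ 2 + 2 * t * inner ℝ (x - y) (g x) + t ^ 2 * ‖g x‖ ^ 2 := by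
          rw [show x + t • g x - y = (x - y) + t • g x by abel, norm_add_sq_real, inner_smul_right,
            norm_smul, Real.norm_eq_abs, mul_pow, sq_abs]
          ring
        simp only [P, eval_mul, eval_pow, eval_add, eval_C, eval_X, hJA, ρ, e]
        congr 1
        · ring
        · generalize A x = M
          rw [← coe_evalRingHom, RingHom.map_det]
          congr 1
          ext i j
          simp only [RingHom.mapMatrix_apply, Matrix.map_apply, Matrix.add_apply, Matrix.smul_apply,
            Matrix.one_apply, smul_eq_mul, coe_evalRingHom, eval_add, eval_mul, eval_X, eval_C]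
          split_ifs <;> ring
      have hdeg : P.degree < (nodes.card : ℕ) := by
        refine degree_le_natDegree.trans_lt ?_
        refine WithBot.coe_lt_coe.2 (Nat.lt_of_le_of_lt (natDegree_mul_le.trans
          (Nat.add_le_add (natDegree_pow_le_of_le (m := 2) k (by compute_degree))
            ((natDegree_det_X_add_C_le _ _).trans_eq (Fintype.card_fin n)))) ?_)
        simp [nodes, Finset.card_range, m, n, Nat.mul_comm]
      have h1 := congrArg (eval (1 : ℝ)) (Lagrange.eq_interpolate hv hdeg)
      rw [Lagrange.interpolate_apply, eval_finsetSum, hev', one_smul] at h1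
      rw [h1]
      exact Finset.sum_congr rfl fun i _ => by rw [eval_mul, eval_C, hev', mul_comm]
    have hint : ∀ t, IntegrableOn (fun x => ρ (x + t • g x) ^ k * J t x) B μ := fun t => by
      have hJt : Continuous (J t) := hJc.comp (continuous_const.prodMk continuous_id)
      exact ContinuousOn.integrableOn_compact hB (by fun_prop)
    simp only [hpt]
    rw [integral_finsetSum _ fun i _ => (hint (v i)).const_mul _]
    simp only [integral_const_mul]
    rw [Finset.sum_congr rfl fun i hi => by
      rw [hcv (v i) (hvT i hi).1 (hvT i hi).2 fun z => ρ z ^ k], ← Finset.sum_mul, hw, one_mul]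
  -- the contradiction
  have hJ1 : Continuous (J 1) := hJc.comp (continuous_const.prodMk continuous_id)
  obtain ⟨CJ, hCJ⟩ := hB.exists_bound_of_continuousOn hJ1.continuousOn
  have hfin : μ B < ⊤ := hB.measure_lt_top
  have hball : ball y r ⊆ B := fun z hz => by
    rw [mem_ball, dist_eq_norm] at hz
    rw [mem_closedBall_zero_iff]
    have h1 := norm_le_norm_add_norm_sub' z y
    have h2 : r ≤ R - ‖y‖ := min_le_right _ _
    linarith
  have hρ0 : ∀ z ∈ B, 0 ≤ ρ z := fun z hz => by
    simp only [ρ, sub_nonneg]
    rw [div_le_one (by positivity)]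
    refine pow_le_pow_left₀ (norm_nonneg _) ((norm_sub_le z y).trans ?_) 2
    have := mem_closedBall_zero_iff.1 hz
    have h2 : 2 * R ≤ D := le_max_right _ _
    linarith
  have hp0 : 0 < p := by linarith
  have up : ∀ k : ℕ, p ^ k * μ.real (ball y r) ≤ CJ * μ.real B * q ^ k := by
    intro k
    have hρc : ContinuousOn (fun z => ρ z ^ k) B := by fun_prop
    calc p ^ k * μ.real (ball y r) = ∫ _ in ball y r, p ^ k ∂μ := by
          rw [setIntegral_const, smul_eq_mul, mul_comm]
      _ ≤ ∫ z in ball y r, ρ z ^ k ∂μ := by
          refine setIntegral_mono_on (integrableOn_const ((measure_mono hball).trans_lt hfin).ne)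
            ((hρc.integrableOn_compact hB).mono_set hball) measurableSet_ball fun z hz => ?_
          refine pow_le_pow_left₀ hp0.le ?_ k
          rw [mem_ball, dist_eq_norm] at hz
          simp only [p, ρ]
          gcongr
      _ ≤ ∫ z in B, ρ z ^ k ∂μ :=
          setIntegral_mono_set (hρc.integrableOn_compact hB)
            ((ae_restrict_mem measurableSet_closedBall).mono fun z hz => pow_nonneg (hρ0 z hz) k)
            hball.eventuallyLE
      _ = ∫ x in B, ρ (x + g x) ^ k * J 1 x ∂μ := (key k).symm
      _ ≤ q ^ k * CJ * μ.real B := by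
          refine (le_abs_self _).trans ?_
          rw [← Real.norm_eq_abs]
          refine norm_setIntegral_le_of_norm_le_const hfin fun x hx => ?_
          rw [norm_mul, norm_pow, Real.norm_eq_abs]
          refine mul_le_mul (pow_le_pow_left₀ (abs_nonneg _) (abs_le.2 ⟨?_, ?_⟩) k) (hCJ x hx)
            (norm_nonneg _) (by positivity)
          · have : 0 ≤ ρ (x + g x) := by
              simp only [ρ, sub_nonneg]
              rw [div_le_one (by positivity)]
              exact pow_le_pow_left₀ (norm_nonneg _) ((hmax hx).trans (le_max_left _ _)) 2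
            linarith
          · simp only [ρ, q]
            gcongr
            exact hmin hx
      _ = _ := by ring
  have hlim : Tendsto (fun k : ℕ => CJ * μ.real B * (q / p) ^ k) atTop (𝓝 0) := by
    simpa using (tendsto_pow_atTop_nhds_zero_of_lt_one (div_nonneg hq0 hp0.le)
      ((div_lt_one hp0).2 hqp)).const_mul (CJ * μ.real B)
  have hvol : 0 < μ.real (ball y r) :=
    ENNReal.toReal_pos (measure_ball_pos μ y hr).ne' ((measure_mono hball).trans_lt hfin).ne
  refine hvol.not_ge (ge_of_tendsto hlim (Eventually.of_forall fun k => ?_))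
  rw [div_pow, ← mul_div_assoc, le_div_iff₀ (pow_pos hp0 k), mul_comm]
  exact up k

/-- A continuous compactly supported perturbation of the identity is onto. -/
theorem exists_preimage {g : E → E} (hg : Continuous g) (hc : HasCompactSupport g) (y : E) :
    ∃ x, x + g x = y := by
  by_contra hne
  push Not at hne
  obtain ⟨R₀, hR₀⟩ := hc.isBounded.subset_closedBall (0 : E)
  set R : ℝ := max (max R₀ 0 + 1) ‖y‖
  obtain ⟨x₁, -, hmin⟩ := (isCompact_closedBall (0 : E) R).exists_isMinOn
    ⟨y, mem_closedBall_zero_iff.2 (le_max_right _ _)⟩ (f := fun x => ‖x + g x - y‖) (by fun_prop)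
  set d := ‖x₁ + g x₁ - y‖
  have hd : 0 < d := norm_pos_iff.2 (sub_ne_zero.2 (hne x₁))
  obtain ⟨δ, hδ, hu⟩ :=
    Metric.uniformContinuous_iff.1 (hc.uniformContinuous_of_continuous hg) (d / 2) (half_pos hd)
  obtain ⟨G, hG, hGg⟩ :=
    hg.exists_contDiff_dist_le_of_forall_mem_ball_dist_le (lt_min one_pos hδ)
  have hG0 : ∀ x, R < ‖x‖ → G x = 0 := fun x hx => by
    have h0 : ∀ z ∈ ball x (min 1 δ), g z = 0 := fun z hz =>
      image_eq_zero_of_notMem_tsupport fun h => by
        have h1 := mem_closedBall_zero_iff.1 (hR₀ h)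
        rw [mem_ball, dist_eq_norm] at hz
        have h2 := norm_le_norm_add_norm_sub z x
        have h3 : max R₀ 0 + 1 ≤ R := le_max_left _ _
        have h4 := le_max_left R₀ 0
        have h5 := min_le_left (1 : ℝ) δ
        linarith
    have hx' : g x = 0 := h0 x (mem_ball_self (lt_min one_pos hδ))
    have h := hGg x 0 fun z hz => by simp [h0 z hz, hx']
    rw [hx'] at h
    simpa using h
  obtain ⟨x, hx⟩ := exists_preimage_smooth (hG.of_le (by simp))
    (HasCompactSupport.of_support_subset_isCompact (isCompact_closedBall (0 : E) R) fun z hz => by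
      by_contra h
      rw [mem_closedBall_zero_iff, not_le] at h
      exact hz (hG0 z h)) y
  by_cases hxR : x ∈ closedBall (0 : E) R
  · have h1 : d ≤ ‖x + g x - y‖ := hmin hxR
    have h2 := hGg x (d / 2) fun z hz =>
      (hu ((mem_ball.1 hz).trans_le (min_le_right _ _))).le
    rw [← hx, add_sub_add_left_eq_sub, norm_sub_rev, ← dist_eq_norm] at h1
    linarith
  · rw [mem_closedBall_zero_iff, not_le] at hxR
    have h3 : ‖y‖ ≤ R := le_max_right _ _
    rw [hG0 x hxR, add_zero] at hx
    rw [hx] at hxR
    linarith

end Inner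

variable {W : Type*} [NormedAddCommGroup W] [NormedSpace ℝ W] [FiniteDimensional ℝ W]

/-- A continuous map which is the identity on the frontier of a compact set hits every interior
point. -/
theorem exists_mem_eq {K : Set W} (hK : IsCompact K) {a : W → W} (ha : ContinuousOn a K)
    (hfix : ∀ x ∈ frontier K, a x = x) {y : W} (hy : y ∈ interior K) : ∃ x ∈ K, a x = y := by
  classical
  set g : W → W := K.piecewise (fun x => a x - x) 0
  have hgc : Continuous g := by
    refine continuous_piecewise (fun x hx => ?_) ?_ continuousOn_const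
    · simp [hfix x hx]
    · rw [hK.isClosed.closure_eq]
      exact ha.sub continuousOn_id
  set e := toEuclidean (E := W)
  obtain ⟨z, hz⟩ := exists_preimage (g := fun z => e (g (e.symm z))) (by fun_prop)
    (HasCompactSupport.of_support_subset_isCompact (hK.image e.continuous) fun z hz => by
      by_contra h
      exact hz (by
        have : e.symm z ∉ K := fun hm => h ⟨_, hm, e.apply_symm_apply z⟩
        simp [g, this])) (e y)
  refine ⟨e.symm z, ?_, ?_⟩ <;> have hx := congrArg e.symm hz <;>
    simp only [map_add, ContinuousLinearEquiv.symm_apply_apply] at hx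
  · by_contra hm
    simp only [g, Set.piecewise_eq_of_notMem _ _ _ hm, Pi.zero_apply, add_zero] at hx
    exact hm (hx ▸ interior_subset hy)
  · by_cases hm : e.symm z ∈ K
    · simpa [g, hm] using hx
    · simp only [g, Set.piecewise_eq_of_notMem _ _ _ hm, Pi.zero_apply, add_zero] at hx
      exact absurd (interior_subset hy) (hx ▸ hm)

end Vale.Agent.P371.Link
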