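import Vale.Agent.P371.Link.Defs
import Vale.Agent.P371.Pencil.ConeCalc

/-!
P371, gauge selection: calculus on the product of cones (seat helper1).
-/

namespace Vale.Agent.P371.Link

open Matrix Complex MeasureTheory Filter Set
open scoped ComplexOrder Matrix.Norms.L2Operator Topology

variable {n : Type} [Fintype n] [DecidableEq n] {ν : ℝ} {p q : Pt n}

theorem code_spec (hp : p ∈ (Cone : Set (Pt n))) :
    code p ∈ Pencil.domZC ∧ Pencil.partB (code p) = bee p ∧ Pencil.partE (code p) = sig p * sig p ∧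
      sig p * sig p - bee p * bee p = mid p :=
  ⟨Pencil.codeQ_mem hp, (Pencil.parts_codeQ hp).1, (Pencil.parts_codeQ hp).2, Pencil.excess_cone p⟩

theorem isHermitian_XiC (hν : 1 / 2 < ν) (hν1 : ν < 1) (hp : p ∈ (Cone : Set (Pt n))) :
    (XiC ν p).IsHermitian :=
  Pencil.isHermitian_XiZ hν hν1 (Pencil.codeQ_mem hp)

lemma powTr_eq {A : Matrix n n ℂ} (h : A.IsHermitian) (r : ℝ) :
    powTr r A = ∑ i, h.eigenvalues i ^ r := dif_pos h

theorem key_cone (hν : 1 / 2 < ν) (hν1 : ν < 1) (hp : p ∈ (Cone : Set (Pt n))) {Z : Matrix n n ℂ}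
    (hZ : Z.PosSemidef) :
    (1 + 1 / ν) * (XiC ν p * Z).trace.re - 1 / ν * powTr (1 + ν) Z ≤ (XiC ν p * mid p).trace.re := by
  have h := Pencil.key_cone (by linarith) hν1 (show p ∈ Pencil.coneQ from hp) hZ
  rw [powTr_eq hZ.1, ← (code_spec hp).2.2.2]
  exact h

/-- The weighted multiplier is the symmetrisation of the half product. -/
lemma HeC_eq (hν : 0 < ν) (hν1 : ν < 1) (hp : p ∈ (Cone : Set (Pt n))) :
    HeC ν p = Pencil.HQ ν p + (Pencil.HQ ν p)ᴴ := by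
  obtain ⟨hi, -⟩ := Pencil.hI_cone hν hν1 (show p ∈ Pencil.coneQ from hp)
  set S := (starL' ℝ : Matrix n n ℂ ≃L[ℝ] Matrix n n ℂ).toContinuousLinearMap
  show _ = _ + S (Pencil.HQ ν p)
  rw [Pencil.HQ, map_smul, ← smul_add, HeC, Pencil.hI, ← S.integral_comp_comm hi,
    ← integral_add hi (S.integrable_comp hi)]
  congr 1
  refine setIntegral_congr_fun measurableSet_Ioi fun u hu => ?_
  obtain ⟨hs, -⟩ := Pencil.rootZ_spec (Pencil.shiftZ_mem' (Pencil.codeQ_mem hp) (show (0 : ℝ) < u from hu))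
  have hG := Pencil.isHermitian_gOf hs.isUnit hs.lyapSol_posDef.isHermitian
    (Pencil.lyapSol_spec hs.isUnit_lyapL)
  show _ = _ + (u ^ (ν - 1 / 2) • (sig p * Pencil.gZ (Pencil.shiftZ (code p) u)))ᴴ
  rw [conjTranspose_smul, star_trivial, conjTranspose_mul,
    show sig p = Pencil.cC p from rfl, (Pencil.isHermitian_cC hp).eq]
  rw [show (Pencil.gZ (Pencil.shiftZ (code p) u))ᴴ = Pencil.gZ (Pencil.shiftZ (code p) u) from hG.eq, smul_add]
  rfl

lemma trace_HeC (hν : 0 < ν) (hν1 : ν < 1) (hp : p ∈ (Cone : Set (Pt n))) {D : Matrix n n ℂ} (hD : D.IsHermitian) :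
    (HeC ν p * D).trace.re = 2 * (Pencil.HQ ν p * D).trace.re := by
  rw [HeC_eq hν hν1 hp, Matrix.add_mul, Matrix.trace_add, Complex.add_re,
    show (Pencil.HQ ν p)ᴴ * D = (D * Pencil.HQ ν p)ᴴ by rw [conjTranspose_mul, hD.eq],
    Matrix.trace_conjTranspose, Complex.star_def, Complex.conj_re, Matrix.trace_mul_comm D]
  ring

lemma PhiC_eq (hν : 0 < ν) (hν1 : ν < 1) (hp : p ∈ (Cone : Set (Pt n))) : PhiC ν p = Pencil.PhiQ ν p := by
  rw [PhiC, trace_HeC hν hν1 hp (show (sig p).IsHermitian from Pencil.isHermitian_cC hp), Pencil.PhiQ]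
  rfl

lemma dPhiC_apply (p d : Pt n) :
    dPhiC ν p d = (XiC ν p * bee d).trace.re + (HeC ν p * sig d).trace.re := by
  show (bee d * XiC ν p).trace.re + (sig d * HeC ν p).trace.re = _
  rw [Matrix.trace_mul_comm (bee d), Matrix.trace_mul_comm (sig d)]

lemma dPhiC_eq (hν : 0 < ν) (hν1 : ν < 1) (hp : p ∈ (Cone : Set (Pt n))) {d : Pt n}
    (hd : d.1.IsHermitian ∧ d.2.IsHermitian) : dPhiC ν p d = Pencil.dPhiQ ν p d := by
  rw [dPhiC_apply, trace_HeC hν hν1 hp (show (sig d).IsHermitian from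
    (IsSelfAdjoint.all (1 / 2 : ℝ)).smul (hd.1.add hd.2)), Pencil.dPhiQ]
  rfl

theorem continuousOn_XiC (hν : 1 / 2 < ν) (hν1 : ν < 1) :
    ContinuousOn (XiC ν) (Cone : Set (Pt n)) := fun _ hp =>
  (Pencil.weightI_cone (by linarith) hν1 hp).2

lemma continuousOn_HeC (hν : 0 < ν) (hν1 : ν < 1) : ContinuousOn (HeC ν) (Cone : Set (Pt n)) := by
  have h : ContinuousOn (Pencil.HQ ν) (Cone : Set (Pt n)) := fun _ hp => (Pencil.hI_cone hν hν1 hp).2
  exact (h.add ((starL' ℝ : Matrix n n ℂ ≃L[ℝ] Matrix n n ℂ).continuous.comp_continuousOn h)).congr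
    fun _ hp => HeC_eq hν hν1 hp

theorem continuousOn_PhiC (hν : 1 / 2 < ν) (hν1 : ν < 1) :
    ContinuousOn (PhiC ν) (Cone : Set (Pt n)) :=
  ContinuousOn.congr (f := Pencil.PhiQ ν) (Pencil.continuousOn_PhiQ (by linarith) hν1)
    fun _ hp => PhiC_eq (by linarith) hν1 hp

theorem continuousOn_dPhiC (hν : 1 / 2 < ν) (hν1 : ν < 1) :
    ContinuousOn (dPhiC ν) (Cone : Set (Pt n)) := by
  refine continuousOn_clm_apply.2 fun d => ?_
  simp only [dPhiC_apply]
  have ht : Continuous fun X : Matrix n n ℂ => X.trace.re := Complex.continuous_re.comp continuous_id.matrix_trace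
  exact (ht.comp_continuousOn ((continuousOn_XiC hν hν1).mul continuousOn_const)).add
    (ht.comp_continuousOn ((continuousOn_HeC (by linarith) hν1).mul continuousOn_const))

theorem hasFDerivWithinAt_PhiC (hν : 1 / 2 < ν) (hν1 : ν < 1) (hp : p ∈ (Cone : Set (Pt n))) :
    HasFDerivWithinAt (PhiC ν) (dPhiC ν p) Cone p := by
  have hν0 : 0 < ν := by linarith
  have h := Pencil.hasFDerivWithinAt_PhiQ hν0 hν1 (show p ∈ Pencil.coneQ from hp)
  refine HasFDerivWithinAt.of_isLittleO (Asymptotics.IsLittleO.congr' h.isLittleO ?_ EventuallyEq.rfl)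
  filter_upwards [self_mem_nhdsWithin] with w hw
  rw [dPhiC_eq hν0 hν1 hp ⟨hw.1.isHermitian.sub hp.1.isHermitian, hw.2.isHermitian.sub hp.2.isHermitian⟩,
    Pencil.dPhiQL_apply, PhiC_eq hν0 hν1 hw, PhiC_eq hν0 hν1 hp]

lemma XiC_conj_dg (hν : 1 / 2 < ν) (hν1 : ν < 1) {U : Matrix n n ℂ} (hU : U * Uᴴ = 1) {a b : n → ℝ}
    (ha : ∀ i, 0 ≤ a i) (hb : ∀ i, 0 ≤ b i) :
    XiC ν (U * Pencil.dg a * Uᴴ, U * Pencil.dg b * Uᴴ) = U * Pencil.dg (fun i => (a i * b i) ^ ν) * Uᴴ := by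
  set p : Pt n := (U * Pencil.dg a * Uᴴ, U * Pencil.dg b * Uᴴ)
  have hpos : ∀ f : n → ℝ, (∀ i, 0 ≤ f i) → (U * Pencil.dg f * Uᴴ).PosSemidef := fun f hf =>
    (Matrix.posSemidef_diagonal_iff.2 fun i => Complex.zero_le_real.2 (hf i)).mul_mul_conjTranspose_same U
  have hp : p ∈ (Cone : Set (Pt n)) := ⟨hpos a ha, hpos b hb⟩
  have hU' : Uᴴ * U = 1 := mul_eq_one_comm.1 hU
  have hB : bee p = U * Pencil.dg (fun i => (a i - b i) / 2) * Uᴴ := by
    show (1 / 2 : ℝ) • (U * Pencil.dg a * Uᴴ - U * Pencil.dg b * Uᴴ) = _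
    rw [← Matrix.sub_mul, ← Matrix.mul_sub, ← smul_mul_assoc, ← mul_smul_comm]
    congr 2
    ext i j
    by_cases h : i = j <;> simp [Pencil.dg, h] <;> ring
  have hS : sig p = U * Pencil.dg (fun i => (a i + b i) / 2) * Uᴴ := by
    show (1 / 2 : ℝ) • (U * Pencil.dg a * Uᴴ + U * Pencil.dg b * Uᴴ) = _
    rw [← Matrix.add_mul, ← Matrix.mul_add, ← smul_mul_assoc, ← mul_smul_comm]
    congr 2
    ext i j
    by_cases h : i = j <;> simp [Pencil.dg, h] <;> ring
  have hE : sig p * sig p = U * Pencil.dg (fun i => ((a i + b i) / 2) ^ 2) * Uᴴ := by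
    rw [hS, show ∀ X : Matrix n n ℂ, U * X * Uᴴ * (U * X * Uᴴ) = U * (X * (Uᴴ * U) * X) * Uᴴ from
      fun X => by simp only [Matrix.mul_assoc], hU', mul_one, Pencil.dg, diagonal_mul_diagonal]
    congr 3
    funext i
    push_cast
    ring
  rw [XiC, Pencil.XiZ_eq, (code_spec hp).2.1, (code_spec hp).2.2.1, hB, hE,
    Pencil.Xi_conj_dg hν hν1 hU _ _ fun i => by nlinarith [mul_nonneg (ha i) (hb i)]]
  congr 3
  funext i
  congr 1
  ring

theorem homogeneous (hν : 1 / 2 < ν) (hν1 : ν < 1) (hp : p ∈ (Cone : Set (Pt n))) {θ : ℝ} (hθ : 0 ≤ θ) :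
    PhiC ν (θ • p) = θ ^ (2 * ν + 1) * PhiC ν p ∧ XiC ν (θ • p) = θ ^ (2 * ν) • XiC ν p ∧
      dPhiC ν (θ • p) = θ ^ (2 * ν) • dPhiC ν p := by
  have hν0 : 0 < ν := by linarith
  rcases hθ.eq_or_lt with rfl | hθ
  · have hs : sig (0 : Pt n) = 0 := map_zero sigL
    have hb : bee (0 : Pt n) = 0 := map_zero beeL
    have hX : XiC ν (0 : Pt n) = 0 := by
      have h := XiC_conj_dg hν hν1 (U := (1 : Matrix n n ℂ)) (by simp) (a := fun _ => 0) (b := fun _ => 0)
        (fun _ => le_rfl) fun _ => le_rfl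
      simpa [Pencil.dg, Real.zero_rpow hν0.ne', Prod.mk_zero_zero] using h
    have hH : HeC ν (0 : Pt n) = 0 := by simp [HeC, hs]
    rw [Real.zero_rpow (by linarith), Real.zero_rpow (by linarith), zero_smul, zero_smul, zero_mul, zero_smul]
    refine ⟨by simp [PhiC, hb, hs], hX, ?_⟩
    refine ContinuousLinearMap.ext fun d => ?_
    simp [dPhiC_apply, hX, hH]
  obtain ⟨h1, h2, h3⟩ := Pencil.smul_cone hν0 (show p ∈ Pencil.coneQ from hp) hθ
  have hq : θ • p ∈ (Cone : Set (Pt n)) := Pencil.smul_mem_coneQ hp hθ.le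
  have hH : HeC ν (θ • p) = θ ^ (2 * ν) • HeC ν p := by
    rw [HeC_eq hν0 hν1 hq, HeC_eq hν0 hν1 hp, h2, ← Complex.coe_smul, conjTranspose_smul, Complex.star_def,
      Complex.conj_ofReal, ← smul_add, Complex.coe_smul]
  refine ⟨?_, h1, ContinuousLinearMap.ext fun d => ?_⟩
  · rw [PhiC_eq hν0 hν1 hq, PhiC_eq hν0 hν1 hp, h3]
  · simp only [dPhiC_apply, _root_.smul_apply, smul_eq_mul]
    rw [show XiC ν (θ • p) = θ ^ (2 * ν) • XiC ν p from h1, hH, Pencil.pairing_smul, Pencil.pairing_smul, mul_add]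

lemma posSemidef_conj_dg (U : Matrix n n ℂ) {a : n → ℝ} (ha : ∀ i, 0 ≤ a i) :
    (U * Pencil.dg a * Uᴴ).PosSemidef :=
  (Matrix.posSemidef_diagonal_iff.2 fun i => Complex.zero_le_real.2 (ha i)).mul_mul_conjTranspose_same U

lemma powTr_conj_dg {U : Matrix n n ℂ} (hU : U * Uᴴ = 1) (a : n → ℝ) (r : ℝ) :
    powTr r (U * Pencil.dg a * Uᴴ) = ∑ i, a i ^ r := by
  have h : (U * Pencil.dg a * Uᴴ).IsHermitian :=
    Matrix.isHermitian_mul_mul_conjTranspose U (Pencil.isHermitian_dg a)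
  have hcp : (U * Pencil.dg a * Uᴴ).charpoly = (diagonal fun i => (a i : ℂ)).charpoly := by
    rw [Matrix.charpoly_mul_comm, ← Matrix.mul_assoc, mul_eq_one_comm.1 hU, one_mul, Pencil.dg]
  have hr := h.roots_charpoly_eq_eigenvalues
  rw [hcp, Matrix.charpoly_diagonal, Finset.prod, ← Function.comp_def (fun z => Polynomial.X - Polynomial.C z)
    (fun i => (a i : ℂ)), ← Multiset.map_map, Polynomial.roots_multiset_prod_X_sub_C] at hr
  have := congrArg (fun m : Multiset ℂ => (m.map fun z => z.re ^ r).sum) hr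
  simp only [Multiset.map_map, Function.comp_def] at this
  rw [powTr_eq h]
  exact this.symm

/-- Orthogonal nonnegative matrices have a common eigenbasis. -/
lemma exists_diag_orth (hp : p ∈ (Cone : Set (Pt n))) (h : p.1 * p.2 = 0) :
    ∃ (U : Matrix n n ℂ) (a b : n → ℝ), U * Uᴴ = 1 ∧ (∀ i, 0 ≤ a i) ∧ (∀ i, 0 ≤ b i) ∧ (∀ i, a i * b i = 0) ∧
      p = (U * Pencil.dg a * Uᴴ, U * Pencil.dg b * Uᴴ) := by
  have hD := hp.1.isHermitian.sub hp.2.isHermitian
  set U : Matrix n n ℂ := hD.eigenvectorUnitary.1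
  set d := hD.eigenvalues
  have hU : U * Uᴴ = 1 := Unitary.coe_mul_star_self _
  have hU' : Uᴴ * U = 1 := Unitary.coe_star_mul_self _
  have hspec : p.1 - p.2 = U * Pencil.dg d * Uᴴ := hD.spectral_theorem
  set X := Uᴴ * p.1 * U
  set Y := Uᴴ * p.2 * U
  have hX : X.PosSemidef := hp.1.conjTranspose_mul_mul_same U
  have hY : Y.PosSemidef := hp.2.conjTranspose_mul_mul_same U
  have hXY : X * Y = 0 := by
    rw [show X * Y = Uᴴ * (p.1 * (U * Uᴴ) * p.2) * U by simp only [X, Y, Matrix.mul_assoc], hU, mul_one, h,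
      mul_zero, zero_mul]
  have hYX : Y * X = 0 := by
    rw [← hX.isHermitian.eq, ← hY.isHermitian.eq, ← conjTranspose_mul, hXY, conjTranspose_zero]
  have hsub : X - Y = Pencil.dg d := by
    rw [show X - Y = Uᴴ * (p.1 - p.2) * U by simp only [X, Y, Matrix.mul_sub, Matrix.sub_mul], hspec,
      show Uᴴ * (U * Pencil.dg d * Uᴴ) * U = (Uᴴ * U) * Pencil.dg d * (Uᴴ * U) by simp only [Matrix.mul_assoc],
      hU', one_mul, mul_one]
  have hrow : ∀ (Z : Matrix n n ℂ), Z.IsHermitian → ∀ i, ((Z * Z) i i).re = ∑ k, Complex.normSq (Z i k) :=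
    fun Z hZ i => by
      rw [Matrix.mul_apply, Complex.re_sum]
      refine Finset.sum_congr rfl fun k _ => ?_
      rw [← hZ.apply k i, Complex.star_def, Complex.mul_conj, Complex.ofReal_re]
  have hzero : ∀ i, (∀ k, X i k = 0) ∨ (∀ k, Y i k = 0) := fun i => by
    rcases le_total 0 (d i) with hd | hd
    · refine Or.inr fun k => ?_
      have e : Y * Y = -(Pencil.dg d * Y) := by
        rw [← hsub, Matrix.sub_mul, hXY, zero_sub, neg_neg]
      have e2 := congrArg (fun M : Matrix n n ℂ => (M i i).re) e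
      simp only [hrow Y hY.isHermitian, Matrix.neg_apply, Pencil.dg, Matrix.diagonal_mul, Complex.neg_re,
        Complex.re_ofReal_mul] at e2
      have h1 : ∑ k, Complex.normSq (Y i k) ≤ 0 := by
        rw [e2]; nlinarith [(Complex.nonneg_iff.1 (hY.diag_nonneg (i := i))).1]
      exact Complex.normSq_eq_zero.1 (le_antisymm
        ((Finset.single_le_sum (fun j _ => Complex.normSq_nonneg (Y i j)) (Finset.mem_univ k)).trans h1)
        (Complex.normSq_nonneg _))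
    · refine Or.inl fun k => ?_
      have e : X * X = Pencil.dg d * X := by
        rw [← hsub, Matrix.sub_mul, hYX, sub_zero]
      have e2 := congrArg (fun M : Matrix n n ℂ => (M i i).re) e
      simp only [hrow X hX.isHermitian, Pencil.dg, Matrix.diagonal_mul, Complex.re_ofReal_mul] at e2
      have h1 : ∑ k, Complex.normSq (X i k) ≤ 0 := by
        rw [e2]; nlinarith [(Complex.nonneg_iff.1 (hX.diag_nonneg (i := i))).1]
      exact Complex.normSq_eq_zero.1 (le_antisymm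
        ((Finset.single_le_sum (fun j _ => Complex.normSq_nonneg (X i j)) (Finset.mem_univ k)).trans h1)
        (Complex.normSq_nonneg _))
  have hoff : ∀ i j, i ≠ j → X i j = 0 ∧ Y i j = 0 := fun i j hij => by
    have e : X i j - Y i j = 0 := by rw [← Matrix.sub_apply, hsub, Pencil.dg, diagonal_apply_ne _ hij]
    rcases hzero i with hx | hy
    · exact ⟨hx j, by simpa [hx j] using e⟩
    · exact ⟨by simpa [hy j] using e, hy j⟩
  have hdiag : ∀ Z : Matrix n n ℂ, Z.PosSemidef → (∀ i j, i ≠ j → Z i j = 0) →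
      Z = Pencil.dg fun i => (Z i i).re := fun Z hZ ho => by
    ext i j
    rcases eq_or_ne i j with rfl | hij
    · rw [Pencil.dg, diagonal_apply_eq]
      exact Complex.ext (by simp) (by simpa using (Complex.nonneg_iff.1 (hZ.diag_nonneg (i := i))).2.symm)
    · rw [Pencil.dg, diagonal_apply_ne _ hij, ho i j hij]
  refine ⟨U, fun i => (X i i).re, fun i => (Y i i).re, hU,
    fun i => (Complex.nonneg_iff.1 hX.diag_nonneg).1, fun i => (Complex.nonneg_iff.1 hY.diag_nonneg).1,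
    fun i => ?_, ?_⟩
  · rcases hzero i with hx | hy
    · simp [hx i]
    · simp [hy i]
  · rw [← hdiag X hX fun i j hij => (hoff i j hij).1, ← hdiag Y hY fun i j hij => (hoff i j hij).2]
    refine Prod.ext ?_ ?_ <;>
      simp only [X, Y, ← Matrix.mul_assoc, hU, one_mul] <;> rw [Matrix.mul_assoc, hU, mul_one]

/-- The potential vanishes where the two cones coincide. -/
lemma PhiQ_diag_zero (hν : 1 / 2 < ν) (hν1 : ν < 1) {U : Matrix n n ℂ} (hU : U * Uᴴ = 1) {c : n → ℝ}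
    (hc : ∀ i, 0 ≤ c i) : Pencil.PhiQ ν (U * Pencil.dg c * Uᴴ, U * Pencil.dg c * Uᴴ) = 0 := by
  have hν0 : 0 < ν := by linarith
  set A := U * Pencil.dg c * Uᴴ
  have hq : ((A, A) : Pt n) ∈ Pencil.coneQ := ⟨posSemidef_conj_dg U hc, posSemidef_conj_dg U hc⟩
  have hl : Tendsto (fun ε : ℝ => Pencil.PhiQ ν ((A, A) + ε • Pencil.one2)) (𝓝[>] 0)
      (𝓝 (Pencil.PhiQ ν (A, A))) := by
    have hcont : Continuous fun ε : ℝ => ((A, A) : Pt n) + ε • Pencil.one2 :=
      continuous_const.add (continuous_id.smul continuous_const)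
    have ht : Tendsto (fun ε : ℝ => ((A, A) : Pt n) + ε • Pencil.one2) (𝓝[>] 0) (𝓝[Pencil.coneQ] (A, A)) :=
      tendsto_nhdsWithin_iff.2 ⟨by simpa using (hcont.tendsto 0).mono_left nhdsWithin_le_nhds,
        eventually_nhdsWithin_of_forall fun ε hε => Pencil.shift_mem hq (le_of_lt hε)⟩
    exact (Pencil.continuousOn_PhiQ hν0 hν1 _ hq).tendsto.comp ht
  refine tendsto_nhds_unique hl (tendsto_const_nhds.congr' (eventually_nhdsWithin_of_forall fun ε hε => ?_))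
  obtain ⟨h1, h2⟩ := Pencil.shift_interior hq (show (0 : ℝ) < ε from hε)
  set w : Pt n := (A, A) + ε • Pencil.one2
  set f := fun i => c i + ε
  have hw : A + ε • (1 : Matrix n n ℂ) = U * Pencil.dg f * Uᴴ := by
    rw [show Pencil.dg f = Pencil.dg c + (ε : ℂ) • (1 : Matrix n n ℂ) by
        rw [Pencil.dg, Pencil.dg, ← diagonal_one, ← diagonal_smul, diagonal_add]; congr 1; funext i; simp [f],
      Matrix.mul_add, Matrix.add_mul, Matrix.mul_smul, mul_one, Matrix.smul_mul, hU, Complex.coe_smul]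
  have hB : Pencil.cB w = 0 := by
    show (1 / 2 : ℝ) • ((A + ε • (1 : Matrix n n ℂ)) - (A + ε • (1 : Matrix n n ℂ))) = 0
    simp
  have hC : Pencil.cC w = U * Pencil.dg f * Uᴴ := by
    show (1 / 2 : ℝ) • ((A + ε • (1 : Matrix n n ℂ)) + (A + ε • (1 : Matrix n n ℂ))) = _
    rw [hw]; module
  have hz : Pencil.codeQ w = (2 : ℂ) • (0 : Matrix n n ℂ) + I • (U * Pencil.dg (fun i => f i ^ 2) * Uᴴ) := by
    rw [Pencil.codeQ, hB, hC, show U * Pencil.dg f * Uᴴ * (U * Pencil.dg f * Uᴴ) =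
      U * (Pencil.dg f * (Uᴴ * U) * Pencil.dg f) * Uᴴ by simp only [Matrix.mul_assoc],
      mul_eq_one_comm.1 hU, mul_one, Pencil.dg, diagonal_mul_diagonal]
    congr 5
    funext i
    push_cast
    ring
  show (0 : ℝ) = Pencil.PhiQ ν w
  rw [Pencil.PhiQ, Pencil.HQ_eq (Pencil.integrableOn_multInt hν0 hν1 (Pencil.codeQ_mem_domZ h1 h2)), hB, hz,
    Pencil.GeZ_zero_dg hU _ fun i => pow_pos (by simp only [f]; linarith [hc i, show (0 : ℝ) < ε from hε]) 2]
  simp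

/-- The potential at commuting orthogonal points. -/
lemma PhiC_conj_dg (hν : 1 / 2 < ν) (hν1 : ν < 1) {U : Matrix n n ℂ} (hU : U * Uᴴ = 1) {a b : n → ℝ}
    (ha : ∀ i, 0 ≤ a i) (hb : ∀ i, 0 ≤ b i) (hab : ∀ i, a i * b i = 0) :
    PhiC ν (U * Pencil.dg a * Uᴴ, U * Pencil.dg b * Uᴴ) =
      endC ν * ((∑ i, (a i / 2) ^ (2 * ν + 1)) - ∑ i, (b i / 2) ^ (2 * ν + 1)) := by
  have hν0 : 0 < ν := by linarith
  set s := fun i => (a i + b i) / 2
  have hs : ∀ i, 0 ≤ s i := fun i => by simp only [s]; linarith [ha i, hb i]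
  set p : Pt n := (U * Pencil.dg a * Uᴴ, U * Pencil.dg b * Uᴴ)
  set A := U * Pencil.dg s * Uᴴ
  have hp : p ∈ Pencil.coneQ := ⟨posSemidef_conj_dg U ha, posSemidef_conj_dg U hb⟩
  have h0 : ((A, A) : Pt n) ∈ Pencil.coneQ := ⟨posSemidef_conj_dg U hs, posSemidef_conj_dg U hs⟩
  have hsub : ∀ f g : n → ℝ, U * Pencil.dg f * Uᴴ - U * Pencil.dg g * Uᴴ = U * Pencil.dg (f - g) * Uᴴ :=
    fun f g => by
      rw [← Matrix.sub_mul, ← Matrix.mul_sub, Pencil.dg, Pencil.dg, Pencil.dg, diagonal_sub]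
      congr 3
      funext i
      simp
  have hsmul : ∀ (t : ℝ) (f : n → ℝ), t • (U * Pencil.dg f * Uᴴ) = U * Pencil.dg (t • f) * Uᴴ := fun t f => by
    rw [← smul_mul_assoc, ← mul_smul_comm, Pencil.dg, Pencil.dg, ← diagonal_smul]
    congr 3
    funext i
    simp
  have hadd : ∀ f g : n → ℝ, U * Pencil.dg f * Uᴴ + U * Pencil.dg g * Uᴴ = U * Pencil.dg (f + g) * Uᴴ :=
    fun f g => by
      rw [← Matrix.add_mul, ← Matrix.mul_add, Pencil.dg, Pencil.dg, Pencil.dg, diagonal_add]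
      congr 3
      funext i
      simp
  set e := fun i => (a i - b i) / 2
  have hd : p - (A, A) = (U * Pencil.dg e * Uᴴ, U * Pencil.dg (-e) * Uᴴ) := by
    refine Prod.ext ?_ ?_ <;>
      · show U * _ * Uᴴ - U * _ * Uᴴ = _
        rw [hsub]
        congr 3
        funext i
        simp only [s, e, Pi.sub_apply, Pi.neg_apply]
        ring
  have hint : ∀ t ∈ Icc (0 : ℝ) 1, Pencil.dPhiQ ν ((A, A) + t • (p - (A, A))) (p - (A, A)) =
      (1 - t ^ 2) ^ ν * ∑ i, ((a i / 2) ^ (2 * ν + 1) - (b i / 2) ^ (2 * ν + 1)) := by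
    intro t ht
    have hP : (A, A) + t • (p - (A, A)) =
        ((U * Pencil.dg (s + t • e) * Uᴴ, U * Pencil.dg (s + t • (-e)) * Uᴴ) : Pt n) := by
      rw [hd]
      refine Prod.ext ?_ ?_ <;>
        · show U * _ * Uᴴ + t • (U * _ * Uᴴ) = _
          rw [hsmul, hadd]
    have hC0 : Pencil.cC (p - (A, A)) = 0 := by
      rw [hd]
      show (1 / 2 : ℝ) • (U * Pencil.dg e * Uᴴ + U * Pencil.dg (-e) * Uᴴ) = 0
      rw [hadd, add_neg_cancel, show Pencil.dg (0 : n → ℝ) = 0 by simp [Pencil.dg], mul_zero, zero_mul,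
        smul_zero]
    have hB0 : Pencil.cB (p - (A, A)) = U * Pencil.dg e * Uᴴ := by
      rw [hd]
      show (1 / 2 : ℝ) • (U * Pencil.dg e * Uᴴ - U * Pencil.dg (-e) * Uᴴ) = _
      rw [hsub, hsmul]
      congr 3
      funext i
      simp only [Pi.smul_apply, Pi.sub_apply, Pi.neg_apply, smul_eq_mul]
      ring
    have hX := XiC_conj_dg hν hν1 hU (a := s + t • e) (b := s + t • (-e))
      (fun i => by simp only [s, e, Pi.add_apply, Pi.smul_apply, smul_eq_mul]; nlinarith [ha i, hb i, ht.1, ht.2])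
      (fun i => by
        simp only [s, e, Pi.add_apply, Pi.smul_apply, Pi.neg_apply, smul_eq_mul]; nlinarith [ha i, hb i, ht.1, ht.2])
    rw [Pencil.dPhiQ, hC0, mul_zero, Matrix.trace_zero, Complex.zero_re, mul_zero, add_zero, hB0, hP]
    rw [show Pencil.XiZ ν (Pencil.codeQ ((U * Pencil.dg (s + t • e) * Uᴴ, U * Pencil.dg (s + t • (-e)) * Uᴴ) : Pt n)) =
      XiC ν (U * Pencil.dg (s + t • e) * Uᴴ, U * Pencil.dg (s + t • (-e)) * Uᴴ) from rfl]
    rw [hX, show ∀ X Y : Matrix n n ℂ, U * X * Uᴴ * (U * Y * Uᴴ) = U * (X * (Uᴴ * U) * Y) * Uᴴ from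
      fun X Y => by simp only [Matrix.mul_assoc], mul_eq_one_comm.1 hU, mul_one, Matrix.trace_mul_cycle,
      mul_eq_one_comm.1 hU, one_mul, Pencil.dg, Pencil.dg, diagonal_mul_diagonal, trace_diagonal, Complex.re_sum,
      Finset.mul_sum]
    refine Finset.sum_congr rfl fun i _ => ?_
    have ht2 : 0 ≤ 1 - t ^ 2 := by nlinarith [ht.1, ht.2]
    have hpw : ∀ x : ℝ, 0 ≤ x → (x ^ 2) ^ ν * x = x ^ (2 * ν + 1) := fun x hx => by
      rw [← Real.rpow_natCast x 2, ← Real.rpow_mul hx, ← Real.rpow_add_one' hx (by push_cast; linarith)]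
      norm_num
    rw [← Complex.ofReal_mul, Complex.ofReal_re]
    simp only [s, e, Pi.add_apply, Pi.smul_apply, Pi.neg_apply, smul_eq_mul]
    rcases mul_eq_zero.1 (hab i) with h | h
    · rw [h, show ((0 + b i) / 2 + t * ((0 - b i) / 2)) * ((0 + b i) / 2 + t * -((0 - b i) / 2)) =
        (1 - t ^ 2) * (b i / 2) ^ 2 by ring, Real.mul_rpow ht2 (sq_nonneg _), zero_div,
        Real.zero_rpow (by linarith), ← hpw _ (by linarith [hb i] : 0 ≤ b i / 2)]
      ring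
    · rw [h, show ((a i + 0) / 2 + t * ((a i - 0) / 2)) * ((a i + 0) / 2 + t * -((a i - 0) / 2)) =
        (1 - t ^ 2) * (a i / 2) ^ 2 by ring, Real.mul_rpow ht2 (sq_nonneg _), zero_div,
        Real.zero_rpow (by linarith), ← hpw _ (by linarith [ha i] : 0 ≤ a i / 2)]
      ring
  have h := Pencil.PhiQ_sub_eq_integral hν0 hν1 h0 hp
  rw [PhiQ_diag_zero hν hν1 hU hs, sub_zero, intervalIntegral.integral_congr fun t ht =>
    hint t (by rwa [uIcc_of_le zero_le_one] at ht), intervalIntegral.integral_mul_const, Finset.sum_sub_distrib] at h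
  rw [PhiC_eq hν0 hν1 hp, h]
  rfl

theorem PhiC_orth (hν : 1 / 2 < ν) (hν1 : ν < 1) (hp : p ∈ (Cone : Set (Pt n))) (h : p.1 * p.2 = 0) :
    PhiC ν p = endC ν * (powTr (2 * ν + 1) ((1 / 2 : ℝ) • p.1) - powTr (2 * ν + 1) ((1 / 2 : ℝ) • p.2)) := by
  obtain ⟨U, a, b, hU, ha, hb, hab, rfl⟩ := exists_diag_orth hp h
  have e : ∀ f : n → ℝ, (1 / 2 : ℝ) • (U * Pencil.dg f * Uᴴ) = U * Pencil.dg (fun i => f i / 2) * Uᴴ := fun f => by
    rw [← smul_mul_assoc, ← mul_smul_comm, Pencil.dg, Pencil.dg, ← diagonal_smul]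
    congr 3
    funext i
    simp [div_eq_inv_mul]
  rw [PhiC_conj_dg hν hν1 hU ha hb hab]
  dsimp only
  rw [e, e, powTr_conj_dg hU, powTr_conj_dg hU]

lemma powTr_smul {A : Matrix n n ℂ} (hA : A.PosSemidef) {t : ℝ} (ht : 0 ≤ t) (r : ℝ) :
    powTr r (t • A) = t ^ r * powTr r A := by
  have hsm : ((t : ℂ) • A).IsHermitian := (hA.smul (Complex.zero_le_real.2 ht)).isHermitian
  rw [← Complex.coe_smul, powTr_eq hsm, powTr_eq hA.1, Pencil.sum_eigenvalues_smul hA.1 t hsm fun x => x ^ r,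
    Finset.mul_sum]
  exact Finset.sum_congr rfl fun i _ => Real.mul_rpow ht (hA.eigenvalues_nonneg i)

/-- Differentiating the values along a line of orthogonal points. -/
lemma dPhiC_radial (hν : 1 / 2 < ν) (hν1 : ν < 1) (hp : p ∈ (Cone : Set (Pt n))) {d : Pt n} {A B : ℝ}
    (hmem : ∀ t : ℝ, 0 < t → p + (t - 1) • d ∈ (Cone : Set (Pt n)))
    (hval : ∀ t : ℝ, 0 < t → PhiC ν (p + (t - 1) • d) = t ^ (2 * ν + 1) * A + B) :
    dPhiC ν p d = (2 * ν + 1) * A := by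
  have hn : Ioi (0 : ℝ) ∈ 𝓝 (1 : ℝ) := Ioi_mem_nhds one_pos
  have h1 : HasDerivAt (fun t : ℝ => p + (t - 1) • d) d 1 := by
    simpa using (((hasDerivAt_id (1 : ℝ)).sub_const 1).smul_const d).const_add p
  have hΦ := HasFDerivWithinAt.comp_hasDerivWithinAt_of_eq (t := (Cone : Set (Pt n))) (1 : ℝ)
    (hasFDerivWithinAt_PhiC hν hν1 hp) (h1.hasDerivWithinAt (s := Ioi 0)) (fun t ht => hmem t ht) (by simp)
  have h2 : HasDerivAt (fun t : ℝ => t ^ (2 * ν + 1) * A + B) ((2 * ν + 1) * A) 1 := by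
    simpa using ((Real.hasDerivAt_rpow_const (p := 2 * ν + 1) (Or.inl one_ne_zero)).mul_const A).add_const B
  exact (hΦ.hasDerivAt hn).unique
    (h2.congr_of_eventuallyEq (eventually_of_mem hn fun t ht => hval t ht))

theorem dPhiC_orth (hν : 1 / 2 < ν) (hν1 : ν < 1) (hp : p ∈ (Cone : Set (Pt n))) (h : p.1 * p.2 = 0) :
    dPhiC ν p (p.1, 0) = (2 * ν + 1) * endC ν * powTr (2 * ν + 1) ((1 / 2 : ℝ) • p.1) ∧
      dPhiC ν p (0, p.2) = -((2 * ν + 1) * endC ν * powTr (2 * ν + 1) ((1 / 2 : ℝ) • p.2)) := by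
  have hh : ∀ {X : Matrix n n ℂ}, X.PosSemidef → ((1 / 2 : ℝ) • X).PosSemidef := fun hX => hX.smul (by norm_num)
  constructor
  · have e : ∀ t : ℝ, p + (t - 1) • ((p.1, 0) : Pt n) = (t • p.1, p.2) := fun t => by
      refine Prod.ext ?_ ?_
      · show p.1 + (t - 1) • p.1 = t • p.1
        module
      · show p.2 + (t - 1) • (0 : Matrix n n ℂ) = p.2
        simp
    refine (dPhiC_radial hν hν1 hp (A := endC ν * powTr (2 * ν + 1) ((1 / 2 : ℝ) • p.1))
      (B := -(endC ν * powTr (2 * ν + 1) ((1 / 2 : ℝ) • p.2))) (fun t ht => ?_) fun t ht => ?_).trans (by ring)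
    · rw [e]; exact ⟨hp.1.smul ht.le, hp.2⟩
    · rw [e, PhiC_orth (p := (t • p.1, p.2)) hν hν1 ⟨hp.1.smul ht.le, hp.2⟩ (by simp [h])]
      dsimp only
      rw [smul_comm, powTr_smul (hh hp.1) ht.le]
      ring
  · have e : ∀ t : ℝ, p + (t - 1) • ((0, p.2) : Pt n) = (p.1, t • p.2) := fun t => by
      refine Prod.ext ?_ ?_
      · show p.1 + (t - 1) • (0 : Matrix n n ℂ) = p.1
        simp
      · show p.2 + (t - 1) • p.2 = t • p.2
        module
    refine (dPhiC_radial hν hν1 hp (A := -(endC ν * powTr (2 * ν + 1) ((1 / 2 : ℝ) • p.2)))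
      (B := endC ν * powTr (2 * ν + 1) ((1 / 2 : ℝ) • p.1)) (fun t ht => ?_) fun t ht => ?_).trans (by ring)
    · rw [e]; exact ⟨hp.1, hp.2.smul ht.le⟩
    · rw [e, PhiC_orth (p := (p.1, t • p.2)) hν hν1 ⟨hp.1, hp.2.smul ht.le⟩ (by simp [h])]
      dsimp only
      rw [smul_comm, powTr_smul (hh hp.2) ht.le]
      ring

end Vale.Agent.P371.Link
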