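import Vale.Agent.P371.Pencil.Commute

/-!
P371, gauge selection: the two-cone coordinates `(P, Q)`, the potential with its multiplier weighted by
`σ = (P + Q) / 2`, the functional and the box.
-/

namespace Vale.Agent.P371.Link

open Matrix Complex MeasureTheory Set
open scoped ComplexOrder Matrix.Norms.L2Operator

variable {n : Type} [Fintype n] [DecidableEq n]

/-- A point: the pair `(P, Q)`; also used for the parameter `(X, Y)`. -/
abbrev Pt (n : Type) := Matrix n n ℂ × Matrix n n ℂ

/-- Half the sum, as a linear map. -/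
noncomputable def sigL : Pt n →L[ℝ] Matrix n n ℂ :=
  (1 / 2 : ℝ) • (ContinuousLinearMap.fst ℝ (Matrix n n ℂ) (Matrix n n ℂ) +
    ContinuousLinearMap.snd ℝ (Matrix n n ℂ) (Matrix n n ℂ))

/-- Half the difference, as a linear map. -/
noncomputable def beeL : Pt n →L[ℝ] Matrix n n ℂ :=
  (1 / 2 : ℝ) • (ContinuousLinearMap.fst ℝ (Matrix n n ℂ) (Matrix n n ℂ) -
    ContinuousLinearMap.snd ℝ (Matrix n n ℂ) (Matrix n n ℂ))

/-- The square root of the constant coefficient. -/
noncomputable def sig (p : Pt n) : Matrix n n ℂ := sigL p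

/-- The linear coefficient. -/
noncomputable def bee (p : Pt n) : Matrix n n ℂ := beeL p

/-- The pencil code of a point. -/
noncomputable def code (p : Pt n) : Matrix n n ℂ := (2 : ℂ) • bee p + I • (sig p * sig p)

/-- The anticommutator half, equal to `E - B * B`. -/
noncomputable def mid (p : Pt n) : Matrix n n ℂ := (1 / 2 : ℝ) • (p.1 * p.2 + p.2 * p.1)

/-- The product of the two cones. -/
def Cone : Set (Pt n) := {p | p.1.PosSemidef ∧ p.2.PosSemidef}

/-- The weight at a point. -/
noncomputable def XiC (ν : ℝ) (p : Pt n) : Matrix n n ℂ := Pencil.XiZ ν (code p)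

/-- The multiplier weighted by `σ`; it makes sense on the whole product of cones. -/
noncomputable def HeC (ν : ℝ) (p : Pt n) : Matrix n n ℂ :=
  (Pencil.scal ν)⁻¹ • ∫ u in Ioi (0 : ℝ), u ^ (ν - 1 / 2) •
    (sig p * Pencil.gZ (Pencil.shiftZ (code p) u) + Pencil.gZ (Pencil.shiftZ (code p) u) * sig p)

/-- The potential on the product of cones. -/
noncomputable def PhiC (ν : ℝ) (p : Pt n) : ℝ :=
  ((XiC ν p * bee p).trace.re + (HeC ν p * sig p).trace.re) / (2 * ν + 1)

/-- The differential of the potential. -/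
noncomputable def dPhiC (ν : ℝ) (p : Pt n) : Pt n →L[ℝ] ℝ :=
  (Pencil.pairing (XiC ν p)).comp beeL + (Pencil.pairing (HeC ν p)).comp sigL

/-- The functional without barrier; `z = (X, Y)`. -/
noncomputable def F0 (ν : ℝ) (z p : Pt n) : ℝ :=
  (z.1 * (sig p * sig p)).trace.re + (z.2 * bee p).trace.re - PhiC ν p

/-- The differential of the functional without barrier. -/
noncomputable def dF0 (ν : ℝ) (z p : Pt n) : Pt n →L[ℝ] ℝ :=
  (Pencil.pairing (z.1 * sig p + sig p * z.1)).comp sigL + (Pencil.pairing z.2).comp beeL - dPhiC ν p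

/-- The distance to the upper end of the slab. -/
noncomputable def co (R : ℝ) (P : Matrix n n ℂ) : Matrix n n ℂ := (R : ℂ) • 1 - P

/-- The barrier in `P`. -/
noncomputable def barrier (ε R : ℝ) (P : Matrix n n ℂ) : ℝ :=
  ε * ((P⁻¹).trace.re + ((co R P)⁻¹).trace.re)

/-- The functional. -/
noncomputable def F (ν ε R : ℝ) (z p : Pt n) : ℝ := F0 ν z p - barrier ε R p.1

/-- The differential of the functional. -/
noncomputable def dF (ν ε R : ℝ) (z p : Pt n) : Pt n →L[ℝ] ℝ :=
  dF0 ν z p + (Pencil.pairing (ε • (p.1⁻¹ * p.1⁻¹ - (co R p.1)⁻¹ * (co R p.1)⁻¹))).comp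
    (ContinuousLinearMap.fst ℝ (Matrix n n ℂ) (Matrix n n ℂ))

/-- The matrix interval between `δ` and `R - δ`. -/
def slab (δ R : ℝ) : Set (Matrix n n ℂ) :=
  {P | (P - (δ : ℂ) • 1).PosSemidef ∧ (co (R - δ) P).PosSemidef}

/-- Stationary points of the functional in the box: free in `P`, minimal to first order in `Q`. -/
structure Stat (ν ε R : ℝ) (z p : Pt n) : Prop where
  posP : p.1.PosDef
  posCo : (co R p.1).PosDef
  memQ : p.2 ∈ slab 0 R
  freeP : ∀ k : Matrix n n ℂ, k.IsHermitian → dF ν ε R z p (k, 0) = 0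
  minQ : ∀ w ∈ slab 0 R, 0 ≤ dF ν ε R z p (0, w - p.2)

/-- The one-bound-state profile constant. -/
noncomputable def endC (ν : ℝ) : ℝ := ∫ t in (0 : ℝ)..1, (1 - t ^ 2) ^ ν

/-- The sum of the powers of the eigenvalues. -/
noncomputable def powTr (r : ℝ) (A : Matrix n n ℂ) : ℝ :=
  open Classical in if h : A.IsHermitian then ∑ i, h.eigenvalues i ^ r else 0

/-- The end value for a single weight: `max_{e ≥ 0} (a e / 2 - endC ν e ^ (ν + 1/2))`. -/
noncomputable def endA (ν a : ℝ) : ℝ :=
  (ν - 1 / 2) * endC ν * (a / (2 * (ν + 1 / 2) * endC ν)) ^ ((ν + 1 / 2) / (ν - 1 / 2))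

end Vale.Agent.P371.Link
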