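import Vale.Agent.P371.Link.Cone
import Vale.Agent.P371.Soliton

/-!
P371, gauge selection: the end values. On `(P, 0)` and `(0, Q)` the pencil is orthogonal, so both ends
reduce to Peierls and the Legendre transform of the profile (seat helper3).
-/

namespace Vale.Agent.P371.Link

open _root_.Matrix Complex MeasureTheory Set
open Vale.Agent.P371.Pencil (qf dg qf_nonneg)
open scoped ComplexOrder Matrix.Norms.L2Operator

variable {n : Type} [Fintype n] [DecidableEq n] {ν : ℝ}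

lemma endC_pos (hν : 0 ≤ ν) : 0 < endC ν :=
  intervalIntegral.intervalIntegral_pos_of_pos_on
    ((Continuous.rpow_const (by fun_prop) fun _ => Or.inr hν).intervalIntegrable _ _)
    (fun t ht => Real.rpow_pos_of_pos (by nlinarith [ht.1, ht.2]) _) zero_lt_one

lemma tangent_le_rpow {γ : ℝ} (hγ : 1 ≤ γ) {m y : ℝ} (hm : 0 ≤ m) (hy : 0 ≤ y) :
    γ * m ^ (γ - 1) * y - (γ - 1) * m ^ γ ≤ y ^ γ := by
  rcases hm.eq_or_lt with rfl | hm
  · rcases hγ.eq_or_lt with rfl | hγ'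
    · simp
    · simp [Real.zero_rpow (show γ - 1 ≠ 0 by linarith), Real.zero_rpow (show γ ≠ 0 by linarith),
        Real.rpow_nonneg hy]
  have hy' : 0 ≤ y / m := by positivity
  have h := one_add_mul_self_le_rpow_one_add (s := y / m - 1) (by linarith) hγ
  rw [add_sub_cancel, Real.div_rpow hy hm.le, le_div_iff₀ (Real.rpow_pos_of_pos hm γ)] at h
  refine le_trans (le_of_eq ?_) h
  rw [Real.rpow_sub_one hm.ne']
  field_simp
  ring

lemma qf_single (X : Matrix n n ℂ) (i : n) : qf X (Pi.single i 1) = (X i i).re := by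
  simp [qf, dotProduct, Pi.single_apply, Matrix.mulVec]

omit [DecidableEq n] in
lemma qf_conj (X U : Matrix n n ℂ) (v : n → ℂ) : qf (Uᴴ * X * U) v = qf X (U *ᵥ v) := by
  simp only [qf, ← Matrix.mulVec_mulVec, Matrix.dotProduct_mulVec, Matrix.star_mulVec]

lemma trace_mul_conj_dg (X U : Matrix n n ℂ) (d : n → ℝ) :
    (X * (U * dg d * Uᴴ)).trace.re = ∑ i, d i * qf X (U *ᵥ Pi.single i 1) := by
  rw [show X * (U * dg d * Uᴴ) = X * (U * dg d) * Uᴴ from (Matrix.mul_assoc _ _ _).symm,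
    Matrix.trace_mul_cycle, ← Matrix.mul_assoc, Matrix.trace, re_sum]
  refine Finset.sum_congr rfl fun i _ => ?_
  rw [← qf_conj, qf_single, Matrix.diag_apply, dg, Matrix.mul_diagonal, mul_comm, Complex.re_ofReal_mul]

/-- The diagonal of a positive matrix is dominated in power sum by its eigenvalues. -/
lemma sum_rpow_diag_le {γ : ℝ} (hγ : 1 ≤ γ) {U V : Matrix n n ℂ} (hU : U * Uᴴ = 1) (hV : V * Vᴴ = 1)
    (d : n → ℝ) (hd : ∀ j, 0 ≤ d j) :
    ∑ i, qf (V * dg d * Vᴴ) (U *ᵥ Pi.single i 1) ^ γ ≤ ∑ j, d j ^ γ := by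
  set W := Vᴴ * U
  have hW : Wᴴ * W = 1 := by
    simp only [W, conjTranspose_mul, conjTranspose_conjTranspose]
    rw [Matrix.mul_assoc, ← Matrix.mul_assoc V, hV, one_mul, mul_eq_one_comm.1 hU]
  have e : ∀ i, qf (V * dg d * Vᴴ) (U *ᵥ Pi.single i 1) = ∑ j, Complex.normSq (W j i) * d j := fun i => by
    rw [← qf_conj, show Uᴴ * (V * dg d * Vᴴ) * U = Wᴴ * dg d * W by
      simp only [W, conjTranspose_mul, conjTranspose_conjTranspose, Matrix.mul_assoc], qf_single,
      Matrix.mul_apply, re_sum]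
    refine Finset.sum_congr rfl fun j _ => ?_
    rw [dg, Matrix.mul_diagonal, conjTranspose_apply, mul_right_comm, Complex.star_def,
      ← Complex.normSq_eq_conj_mul_self, ← Complex.ofReal_mul, Complex.ofReal_re]
  have col : ∀ i, ∑ j, Complex.normSq (W j i) = 1 := fun i => by
    have h := congrArg (fun M : Matrix n n ℂ => (M i i).re) hW
    simp only [Matrix.mul_apply, re_sum, conjTranspose_apply, Complex.star_def, ← Complex.normSq_eq_conj_mul_self,
      Complex.ofReal_re, Matrix.one_apply_eq, Complex.one_re] at h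
    exact h
  have row : ∀ j, ∑ i, Complex.normSq (W j i) = 1 := fun j => by
    have h := congrArg (fun M : Matrix n n ℂ => (M j j).re) (mul_eq_one_comm.1 hW)
    simp only [Matrix.mul_apply, re_sum, conjTranspose_apply, Complex.star_def, Complex.mul_conj,
      Complex.ofReal_re, Matrix.one_apply_eq, Complex.one_re] at h
    exact h
  calc ∑ i, qf (V * dg d * Vᴴ) (U *ᵥ Pi.single i 1) ^ γ
      ≤ ∑ i, ∑ j, Complex.normSq (W j i) * d j ^ γ := Finset.sum_le_sum fun i _ => by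
        rw [e]
        exact Real.rpow_arith_mean_le_arith_mean_rpow _ _ _ (fun j _ => Complex.normSq_nonneg _) (col i)
          (fun j _ => hd j) hγ
    _ = _ := by
        rw [Finset.sum_comm]
        simp only [← Finset.sum_mul, row, one_mul]

lemma le_endA (hν : 1 / 2 < ν) {a e : ℝ} (ha : 0 ≤ a) (he : 0 ≤ e) :
    a / 2 * e - endC ν * e ^ (ν + 1 / 2) ≤ endA ν a := by
  have hk := endC_pos (ν := ν) (by linarith)
  set w := a / (2 * (ν + 1 / 2) * endC ν)
  have hw : 0 ≤ w := by positivity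
  have h := tangent_le_rpow (γ := ν + 1 / 2) (m := w ^ (1 / (ν - 1 / 2))) (by linarith)
    (Real.rpow_nonneg hw _) he
  have hne : ν - 1 / 2 ≠ 0 := by linarith
  rw [← Real.rpow_mul hw, ← Real.rpow_mul hw,
    show 1 / (ν - 1 / 2) * (ν + 1 / 2 - 1) = 1 by
      rw [one_div_mul_eq_div, div_eq_one_iff_eq hne]; ring, Real.rpow_one,
    show 1 / (ν - 1 / 2) * (ν + 1 / 2) = (ν + 1 / 2) / (ν - 1 / 2) by ring] at h
  have hxw : (ν + 1 / 2) * endC ν * w = a / 2 := by simp only [w]; field_simp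
  have h2 := mul_le_mul_of_nonneg_left h hk.le
  have e1 : endC ν * ((ν + 1 / 2) * w * e) = a / 2 * e := by rw [← hxw]; ring
  rw [endA]
  linarith

/-- The weight attached to the level `e`, and the end value it produces. -/
theorem endA_dual (hν : 1 / 2 < ν) {e : ℝ} (he : 0 ≤ e) :
    2 * (ν + 1 / 2) * endC ν * e ^ (ν - 1 / 2) * e - 2 * endA ν (2 * (ν + 1 / 2) * endC ν * e ^ (ν - 1 / 2)) =
      2 * endC ν * e ^ (ν + 1 / 2) := by
  have hk := endC_pos (ν := ν) (by linarith)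
  have hne : ν - 1 / 2 ≠ 0 := by linarith
  have e1 : e ^ (ν - 1 / 2) * e = e ^ (ν + 1 / 2) := by
    rw [← Real.rpow_add_one' he (by linarith)]; ring_nf
  rw [endA, mul_div_cancel_left₀ _ (by positivity : 2 * (ν + 1 / 2) * endC ν ≠ 0), ← Real.rpow_mul he,
    mul_div_cancel₀ _ hne, mul_assoc _ (e ^ (ν - 1 / 2)) e, e1]
  ring

lemma powTr_zero {r : ℝ} (hr : r ≠ 0) : powTr r (0 : Matrix n n ℂ) = 0 := by
  rw [powTr, dif_pos Matrix.isHermitian_zero]
  refine Finset.sum_eq_zero fun i _ => ?_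
  rw [(Matrix.IsHermitian.eigenvalues_eq_zero_iff _).2 rfl, Pi.zero_apply, Real.zero_rpow hr]

/-- Peierls: the Legendre bound for a positive matrix. -/
lemma trace_sq_sub_powTr_le (hν : 1 / 2 < ν) {g : n → ℝ} (hg : ∀ i, 0 ≤ g i) {A : Matrix n n ℂ}
    (hA : A.PosSemidef) :
    ((diagonal fun i => ((g i / 2 : ℝ) : ℂ)) * (A * A)).trace.re - endC ν * powTr (2 * ν + 1) A ≤
      ∑ i, endA ν (g i) := by
  set V : Matrix n n ℂ := hA.1.eigenvectorUnitary.1
  set s := hA.1.eigenvalues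
  have hV : V * Vᴴ = 1 := Unitary.coe_mul_star_self _
  have hAV : A = V * dg s * Vᴴ := hA.1.spectral_theorem
  have hEV : A * A = V * dg (fun i => s i ^ 2) * Vᴴ := by
    rw [hAV, show V * dg s * Vᴴ * (V * dg s * Vᴴ) = V * (dg s * (Vᴴ * V) * dg s) * Vᴴ by
      simp only [Matrix.mul_assoc], mul_eq_one_comm.1 hV, mul_one, dg, dg, diagonal_mul_diagonal]
    congr 3
    funext i
    rw [← Complex.ofReal_mul, sq]
  have hU : (1 : Matrix n n ℂ) * (1 : Matrix n n ℂ)ᴴ = 1 := by rw [conjTranspose_one, mul_one]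
  set E := V * dg (fun i => s i ^ 2) * Vᴴ
  have hE : ∀ i, 0 ≤ qf E ((1 : Matrix n n ℂ) *ᵥ Pi.single i 1) := fun i => qf_nonneg
    ((Matrix.posSemidef_diagonal_iff.2 fun j => Complex.zero_le_real.2 (sq_nonneg _)).mul_mul_conjTranspose_same V) _
  have hJ : ∑ i, qf E ((1 : Matrix n n ℂ) *ᵥ Pi.single i 1) ^ (ν + 1 / 2) ≤ powTr (2 * ν + 1) A := by
    rw [powTr, dif_pos hA.1]
    refine (sum_rpow_diag_le (by linarith) hU hV _ fun j => sq_nonneg _).trans (le_of_eq ?_)
    refine Finset.sum_congr rfl fun j _ => ?_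
    rw [← Real.rpow_natCast (s j) 2, ← Real.rpow_mul (hA.eigenvalues_nonneg j)]
    push_cast
    ring_nf
  have ht : ((diagonal fun i => ((g i / 2 : ℝ) : ℂ)) * E).trace.re =
      ∑ i, g i / 2 * qf E ((1 : Matrix n n ℂ) *ᵥ Pi.single i 1) := by
    have h := trace_mul_conj_dg E (1 : Matrix n n ℂ) (fun i => g i / 2)
    rw [conjTranspose_one, one_mul, mul_one, Matrix.trace_mul_comm] at h
    exact h
  have h := Finset.sum_le_sum (s := Finset.univ) fun i _ => le_endA hν (hg i) (hE i)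
  rw [Finset.sum_sub_distrib, ← Finset.mul_sum] at h
  rw [hEV, ht]
  have := mul_le_mul_of_nonneg_left hJ (endC_pos (ν := ν) (by linarith)).le
  linarith

theorem end_upper (hν : 1 / 2 < ν) (hν1 : ν < 1) {g : n → ℝ} (hg : ∀ i, 0 ≤ g i) {P : Matrix n n ℂ}
    (hP : P.PosSemidef) :
    F0 ν ((diagonal fun i => ((g i / 2 : ℝ) : ℂ)), 0) (P, 0) ≤ ∑ i, endA ν (g i) := by
  have h := PhiC_orth hν hν1 (p := ((P, 0) : Pt n)) ⟨hP, Matrix.PosSemidef.zero⟩ (mul_zero P)
  have hs : sig ((P, 0) : Pt n) = (1 / 2 : ℝ) • P := by simp [sig, sigL]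
  rw [F0, h, hs]
  simp only [smul_zero, powTr_zero (show (2 * ν + 1) ≠ 0 by linarith), sub_zero, Matrix.zero_mul,
    Matrix.trace_zero, Complex.zero_re, add_zero]
  exact trace_sq_sub_powTr_le hν hg (hP.smul (by norm_num))

theorem end_lower (hν : 1 / 2 < ν) (hν1 : ν < 1) {g : n → ℝ} (hg : ∀ i, 0 ≤ g i) {Q : Matrix n n ℂ}
    (hQ : Q.PosSemidef) :
    -∑ i, endA ν (g i) ≤ F0 ν ((diagonal fun i => ((-(g i / 2) : ℝ) : ℂ)), 0) (0, Q) := by
  have h := PhiC_orth hν hν1 (p := ((0, Q) : Pt n)) ⟨Matrix.PosSemidef.zero, hQ⟩ (zero_mul Q)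
  have hs : sig ((0, Q) : Pt n) = (1 / 2 : ℝ) • Q := by simp [sig, sigL]
  have hd : (diagonal fun i => ((-(g i / 2) : ℝ) : ℂ)) = -diagonal fun i => ((g i / 2 : ℝ) : ℂ) := by
    rw [diagonal_neg]; congr 1; funext i; simp
  rw [F0, h, hs, hd]
  simp only [smul_zero, powTr_zero (show (2 * ν + 1) ≠ 0 by linarith), zero_sub, Matrix.zero_mul,
    Matrix.trace_zero, Complex.zero_re, add_zero, Matrix.neg_mul, Matrix.trace_neg, Complex.neg_re]
  have := trace_sq_sub_powTr_le hν hg (hQ.smul (show (0 : ℝ) ≤ 1 / 2 by norm_num))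
  linarith

/-- The closed form of the profile constant. -/
theorem endC_eq (hν : 0 ≤ ν) :
    endC ν = Real.sqrt Real.pi * Real.Gamma (ν + 1) / (2 * Real.Gamma (ν + 3 / 2)) := by
  set u : ℝ → ℝ := fun t => t / Real.sqrt (1 + t ^ 2) with hu
  have hq : ∀ t : ℝ, 0 < 1 + t ^ 2 := fun t => by positivity
  have hd : ∀ t, HasDerivAt u ((1 + t ^ 2) ^ (-(3 / 2) : ℝ)) t := fun t => by
    have h1 : HasDerivAt (fun t : ℝ => 1 + t ^ 2) (2 * t) t := by
      simpa using (hasDerivAt_pow 2 t).const_add 1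
    have hs := Real.sqrt_pos.2 (hq t)
    refine ((hasDerivAt_id t).div (h1.sqrt (hq t).ne') hs.ne').congr_deriv ?_
    rw [Pencil.rpow_neg_three_halves (hq t), id]
    field_simp
    rw [Real.sq_sqrt (hq t).le]
    ring
  have hinv : ∀ t, 1 - u t ^ 2 = (1 + t ^ 2)⁻¹ := fun t => by
    have := hq t
    rw [hu, div_pow, Real.sq_sqrt this.le]
    field_simp
    ring
  have himg : u '' Ioi 0 = Ioo 0 1 := by
    refine Set.ext fun y => ⟨?_, fun ⟨h0, h1⟩ => ⟨y / Real.sqrt (1 - y ^ 2), ?_, ?_⟩⟩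
    · rintro ⟨t, (ht : 0 < t), rfl⟩
      have := hinv t
      have h2 : 0 < u t := div_pos ht (Real.sqrt_pos.2 (hq t))
      have h3 : 0 < (1 + t ^ 2)⁻¹ := inv_pos.2 (hq t)
      exact ⟨h2, by nlinarith⟩
    · exact div_pos h0 (Real.sqrt_pos.2 (by nlinarith))
    · have h2 : 0 < 1 - y ^ 2 := by nlinarith
      have h3 : 1 + (y / Real.sqrt (1 - y ^ 2)) ^ 2 = (1 - y ^ 2)⁻¹ := by
        rw [div_pow, Real.sq_sqrt h2.le]; field_simp; ring
      have := Real.sqrt_pos.2 h2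
      simp only [hu]
      rw [h3, Real.sqrt_inv]
      field_simp
  have hinj : InjOn u (Ioi 0) :=
    (strictMono_of_hasDerivAt_pos hd fun t => Real.rpow_pos_of_pos (hq t) _).injective.injOn
  have h := integral_image_eq_integral_abs_deriv_smul measurableSet_Ioi
    (fun t _ => (hd t).hasDerivWithinAt) hinj fun x : ℝ => (1 - x ^ 2) ^ ν
  rw [himg] at h
  rw [endC, intervalIntegral.integral_of_le zero_le_one, integral_Ioc_eq_integral_Ioo, h,
    setIntegral_congr_fun measurableSet_Ioi (g := fun t : ℝ => (1 + t ^ 2) ^ (-(ν + 3 / 2))) fun t _ => ?_,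
    Soliton.integral_Ioi_one_add_sq_rpow (by linarith)]
  · ring_nf
  · show |(1 + t ^ 2) ^ (-(3 / 2) : ℝ)| • (1 - u t ^ 2) ^ ν = _
    rw [abs_of_pos (Real.rpow_pos_of_pos (hq t) _), smul_eq_mul, hinv, Real.inv_rpow (hq t).le,
      ← Real.rpow_neg (hq t).le, ← Real.rpow_add (hq t)]
    ring_nf

end Vale.Agent.P371.Link
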