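import Vale.Agent.P371.Link.Brouwer

/-!
P371: the linking value of a `C¹` function on a compact convex set and its one-sided growth under a
perturbation: it is controlled by the stationary points at the level of the value. One explicit
deformation step is used, so no convexity, flow or Palais–Smale condition is needed.
-/

open Set Filter Topology Metric

namespace Vale.Agent.P371.Link

section Value

variable {S W : Type*} [TopologicalSpace S] [TopologicalSpace W]
  {K Kb : Set S} {U : Set W} {h₀ : S → W} {F G : W → ℝ}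

/-- The competitors: continuous maps of `K` into `U` with the prescribed values on `Kb`. -/
def Admissible (K Kb : Set S) (U : Set W) (h₀ : S → W) : Set (S → W) :=
  {h | ContinuousOn h K ∧ MapsTo h K U ∧ EqOn h h₀ Kb}

/-- The linking value. -/
noncomputable def value (K Kb : Set S) (U : Set W) (h₀ : S → W) (F : W → ℝ) : ℝ :=
  sInf {a | ∃ h ∈ Admissible K Kb U h₀, ∀ x ∈ K, F (h x) ≤ a}

/-- An upper bound along one competitor bounds the value. -/
theorem value_le (hK : K.Nonempty) (hF : BddBelow (F '' U)) {h : S → W}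
    (hh : h ∈ Admissible K Kb U h₀) {a : ℝ} (ha : ∀ x ∈ K, F (h x) ≤ a) :
    value K Kb U h₀ F ≤ a := by
  obtain ⟨b, hb⟩ := hF
  obtain ⟨x, hx⟩ := hK
  refine csInf_le ⟨b, ?_⟩ ⟨h, hh, ha⟩
  rintro a' ⟨h', hh', ha'⟩
  exact (hb (mem_image_of_mem F (hh'.2.1 hx))).trans (ha' x hx)

/-- A lower bound met by every competitor bounds the value. -/
theorem le_value (hne : h₀ ∈ Admissible K Kb U h₀) (hF : BddAbove (F '' U)) {a : ℝ}
    (ha : ∀ h ∈ Admissible K Kb U h₀, ∃ x ∈ K, a ≤ F (h x)) : a ≤ value K Kb U h₀ F := by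
  obtain ⟨b, hb⟩ := hF
  refine le_csInf ⟨b, h₀, hne, fun x hx => hb (mem_image_of_mem F (hne.2.1 hx))⟩ ?_
  rintro a' ⟨h, hh, ha'⟩
  obtain ⟨x, hx, hax⟩ := ha h hh
  exact hax.trans (ha' x hx)

/-- The value is monotone, up to a constant. -/
theorem value_le_add (hK : K.Nonempty) (hne : h₀ ∈ Admissible K Kb U h₀)
    (hF : BddBelow (F '' U)) (hG : BddAbove (G '' U)) {δ : ℝ} (h : ∀ p ∈ U, F p ≤ G p + δ) :
    value K Kb U h₀ F ≤ value K Kb U h₀ G + δ := by
  obtain ⟨b, hb⟩ := hG
  refine le_of_forall_pos_le_add fun e he => ?_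
  obtain ⟨a, ⟨g, hg, hga⟩, hae⟩ := exists_lt_of_csInf_lt
    (s := {a | ∃ h ∈ Admissible K Kb U h₀, ∀ x ∈ K, G (h x) ≤ a})
    ⟨b, h₀, hne, fun x hx => hb (mem_image_of_mem G (hne.2.1 hx))⟩
    (show value K Kb U h₀ G < value K Kb U h₀ G + e by linarith)
  refine (value_le hK hF hg fun x hx => (h _ (hg.2.1 hx)).trans ?_).trans
    (show a + δ ≤ _ by linarith)
  exact add_le_add (hga x hx) le_rfl

end Value

section Linking

variable {S : Type*} [NormedAddCommGroup S] [NormedSpace ℝ S] [FiniteDimensional ℝ S]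
  {W : Type*} [TopologicalSpace W] {K : Set S} {U : Set W} {h₀ : S → W} {F : W → ℝ}

/-- Every competitor meets each slice `π = y₀`, so the minimum on a slice is a lower bound. -/
theorem le_value_of_slice (hK : IsCompact K) {π : W → S} (hπ : Continuous π)
    (hne : h₀ ∈ Admissible K (frontier K) U h₀) (h₀π : ∀ x ∈ frontier K, π (h₀ x) = x)
    (hF : BddAbove (F '' U)) {y₀ : S} (hy : y₀ ∈ interior K) {a : ℝ}
    (ha : ∀ p ∈ U, π p = y₀ → a ≤ F p) : a ≤ value K (frontier K) U h₀ F := by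
  refine le_value hne hF fun h hh => ?_
  obtain ⟨x, hx, hxy⟩ := exists_mem_eq hK (hπ.comp_continuousOn hh.1)
    (fun x hx => by rw [Function.comp_apply, hh.2.2 hx, h₀π x hx]) hy
  exact ⟨x, hx, ha _ (hh.2.1 hx) hxy⟩

end Linking

section Dini

variable {W : Type*} [NormedAddCommGroup W] [NormedSpace ℝ W] {U : Set W}
  {F L : W → ℝ} {dF : W → W →L[ℝ] ℝ}

/-- First order expansion, uniform on a compact convex set. -/
theorem exists_uniform_expansion (hU : IsCompact U) (hconv : Convex ℝ U)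
    (hd : ∀ p ∈ U, HasFDerivWithinAt F (dF p) U p) (hdc : ContinuousOn dF U) {ε : ℝ}
    (hε : 0 < ε) :
    ∃ ρ > 0, ∀ p ∈ U, ∀ q ∈ U, ‖q - p‖ ≤ ρ → F q - F p ≤ dF p (q - p) + ε * ‖q - p‖ := by
  obtain ⟨δ, hδ, hu⟩ :=
    Metric.uniformContinuousOn_iff.1 (hU.uniformContinuousOn_of_continuous hdc) ε hε
  refine ⟨δ / 2, half_pos hδ, fun p hp q hq hpq => ?_⟩
  have h := Convex.norm_image_sub_le_of_norm_hasFDerivWithin_le' (f := F) (f' := dF) (φ := dF p)
    (s := U ∩ closedBall p (δ / 2)) (C := ε) (x := p) (y := q)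
    (fun x hx => (hd x hx.1).mono inter_subset_left) (fun x hx => ?_)
    (hconv.inter (convex_closedBall _ _)) ⟨hp, mem_closedBall_self (half_pos hδ).le⟩
    ⟨hq, by rwa [mem_closedBall, dist_eq_norm]⟩
  · rw [Real.norm_eq_abs] at h
    linarith [(le_abs_self _).trans h]
  · rw [← dist_eq_norm]
    have := mem_closedBall.1 hx.2
    exact (hu x hx.1 p hp (by linarith)).le

/-- A point is stationary when no direction into `U` decreases `F` to first order. -/
def Stationary (U : Set W) (dF : W → W →L[ℝ] ℝ) (p : W) : Prop :=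
  ∀ w ∈ U, 0 ≤ dF p (w - p)

/-- A continuous field of feasible directions which does not increase `F` to first order, fixes
the low levels and decreases `F` at a positive rate on a compact set without stationary points. -/
theorem exists_descent_field (hU : IsCompact U) (hconv : Convex ℝ U)
    (hFc : ContinuousOn F U) (hdc : ContinuousOn dF U) {Z : Set W} (hZ : IsCompact Z)
    (hZU : Z ⊆ U) (hns : ∀ p ∈ Z, ¬ Stationary U dF p) {lo hi : ℝ} (hlh : lo < hi)
    (hZF : ∀ p ∈ Z, hi ≤ F p) :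
    ∃ v : W → W, ∃ a > 0, ∃ Cv > 0, ContinuousOn v U ∧ (∀ p ∈ U, F p ≤ lo → v p = 0) ∧
      (∀ p ∈ U, dF p (v p) ≤ 0 ∧ ‖v p‖ ≤ Cv) ∧ (∀ p ∈ Z, dF p (v p) ≤ -a) ∧
      ∃ σ > 0, ∀ p ∈ U, ∀ s : ℝ, 0 ≤ s → s ≤ σ → p + s • v p ∈ U := by
  classical
  set T : U → Set W := fun p => if (p : W) ∈ Z then {w ∈ U | dF p (w - p) < 0} else U
  have hT : ∀ p, Convex ℝ (T p) := fun p => by
    simp only [T]
    split_ifs
    · have : {w ∈ U | dF p (w - p) < 0} = U ∩ {w | dF p w < dF p p} := by
        ext w; simp [map_sub, sub_neg]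
      rw [this]
      exact hconv.inter (convex_halfSpace_lt (dF p : W →ₗ[ℝ] ℝ).isLinear _)
    · exact hconv
  obtain ⟨g, hg⟩ := exists_continuous_forall_mem_convex_of_local_const hT fun p => by
    by_cases hp : (p : W) ∈ Z
    · obtain ⟨w, hw, hlt⟩ : ∃ w ∈ U, dF p (w - p) < 0 := by
        simpa [Stationary] using hns p hp
      have hc : Continuous fun q : U => dF q (w - q) :=
        (continuousOn_iff_continuous_domRestrict.1 hdc).clm_apply
          (continuous_const.sub continuous_subtype_val)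
      refine ⟨w, (hc.continuousAt.eventually_lt continuousAt_const hlt).mono fun q hq => ?_⟩
      simp only [T]
      split_ifs
      exacts [⟨hw, hq⟩, hw]
    · refine ⟨p, (continuous_subtype_val.continuousAt.eventually
        (hZ.isClosed.isOpen_compl.mem_nhds hp)).mono fun q hq => ?_⟩
      simp only [T, if_neg (show (q : W) ∉ Z from hq)]
      exact p.2
  have hgU : ∀ p, g p ∈ U := fun p => by
    have := hg p
    simp only [T] at this
    split_ifs at this
    exacts [this.1, this]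
  set χ : U → ℝ := fun p => max 0 (-(dF p (g p - p))) * max 0 (min 1 ((F p - lo) / (hi - lo)))
  set v : W → W := fun q => if h : q ∈ U then χ ⟨q, h⟩ • (g ⟨q, h⟩ - q) else 0
  have hv : ∀ p : U, v p = χ p • (g p - p) := fun p => by simp [v, p.2]
  have hχc : Continuous χ := by
    have h1 := (continuousOn_iff_continuous_domRestrict.1 hdc).clm_apply
      (g.continuous.sub continuous_subtype_val)
    have h2 := continuousOn_iff_continuous_domRestrict.1 hFc
    exact (continuous_const.max h1.neg).mul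
      (continuous_const.max (continuous_const.min ((h2.sub continuous_const).div_const _)))
  have hvc : ContinuousOn v U := by
    rw [continuousOn_iff_continuous_domRestrict]
    exact (hχc.smul (g.continuous.sub continuous_subtype_val)).congr fun p => (hv p).symm
  have hχ0 : ∀ p, 0 ≤ χ p := fun p => mul_nonneg (le_max_left _ _) (le_max_left _ _)
  have hdv : ∀ p : U, dF p (v p) ≤ 0 := fun p => by
    rw [hv, map_smul, smul_eq_mul]
    rcases le_or_gt 0 (dF p (g p - p)) with h | h
    · rw [show χ p = 0 from mul_eq_zero_of_left (max_eq_left (neg_nonpos.2 h)) _, zero_mul]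
    · exact mul_nonpos_of_nonneg_of_nonpos (hχ0 p) h.le
  obtain ⟨Cv, hCv⟩ := hU.exists_bound_of_continuousOn hvc
  have hZv : ∀ p ∈ Z, dF p (v p) < 0 := fun p hp => by
    set p' : U := ⟨p, hZU hp⟩
    have h := hg p'
    simp only [T, if_pos (show (p' : W) ∈ Z from hp)] at h
    have hpos : 0 < χ p' := by
      refine mul_pos (lt_max_of_lt_right (neg_pos.2 h.2)) (lt_max_of_lt_right (lt_min one_pos ?_))
      exact div_pos (by linarith [hZF p hp]) (by linarith)
    rw [show v p = χ p' • (g p' - p) from hv p', map_smul, smul_eq_mul]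
    exact mul_neg_of_pos_of_neg hpos h.2
  have hdvc : ContinuousOn (fun p => dF p (v p)) Z :=
    (hdc.mono hZU).clm_apply (hvc.mono hZU)
  obtain ⟨a, ha, hav⟩ : ∃ a > 0, ∀ p ∈ Z, dF p (v p) ≤ -a := by
    rcases Z.eq_empty_or_nonempty with hZe | hZe
    · exact ⟨1, one_pos, fun p hp => by simp [hZe] at hp⟩
    · obtain ⟨p, hp, hmax⟩ := hZ.exists_isMaxOn hZe hdvc
      exact ⟨-dF p (v p), neg_pos.2 (hZv p hp), fun q hq => by rw [neg_neg]; exact hmax hq⟩
  have hcs : CompactSpace U := isCompact_iff_compactSpace.1 hU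
  obtain ⟨Cχ, hCχ⟩ := isCompact_univ.exists_bound_of_continuousOn hχc.continuousOn
  refine ⟨v, a, ha, |Cv| + 1, by positivity, hvc, fun p hp hlo => ?_, fun p hp => ⟨hdv ⟨p, hp⟩,
    (hCv p hp).trans ((le_abs_self _).trans (lt_add_one _).le)⟩, hav, 1 / (|Cχ| + 1),
    by positivity, fun p hp s hs0 hs => ?_⟩
  · have : min (1 : ℝ) ((F p - lo) / (hi - lo)) ≤ 0 :=
      (min_le_right _ _).trans (div_nonpos_of_nonpos_of_nonneg (by linarith) (by linarith))
    rw [hv ⟨p, hp⟩]
    simp only [χ, max_eq_left this, mul_zero, zero_smul]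
  · set p' : U := ⟨p, hp⟩
    rw [show v p = χ p' • (g p' - p) from hv p', smul_smul]
    refine hconv.add_smul_sub_mem hp (hgU p') ⟨mul_nonneg hs0 (hχ0 p'), ?_⟩
    have h1 : χ p' ≤ |Cχ| + 1 :=
      (le_abs_self _).trans ((hCχ p' (mem_univ _)).trans ((le_abs_self _).trans (lt_add_one _).le))
    calc s * χ p' ≤ 1 / (|Cχ| + 1) * (|Cχ| + 1) := mul_le_mul hs h1 (hχ0 p') (by positivity)
      _ = 1 := by field_simp

variable {S : Type*} [TopologicalSpace S] {K Kb : Set S} {h₀ : S → W}

/-- The value grows at least at the least rate of `L` at the stationary points of its level. -/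
theorem dini_linear (hK : K.Nonempty) (hKb : Kb ⊆ K) (hne : h₀ ∈ Admissible K Kb U h₀)
    (hU : IsCompact U) (hconv : Convex ℝ U) (hd : ∀ p ∈ U, HasFDerivWithinAt F (dF p) U p)
    (hdc : ContinuousOn dF U) (hL : ContinuousOn L U) {cb : ℝ}
    (hb : ∀ x ∈ Kb, F (h₀ x) ≤ cb) (hbc : cb < value K Kb U h₀ F) {m : ℝ}
    (hm : ∀ p ∈ U, F p = value K Kb U h₀ F → Stationary U dF p → m ≤ L p) {η : ℝ} (hη : 0 < η) :
    ∀ᶠ t in 𝓝[>] (0 : ℝ),
      value K Kb U h₀ F + t * (m - η) ≤ value K Kb U h₀ (fun p => F p + t * L p) := by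
  classical
  have hFc : ContinuousOn F U := fun p hp => (hd p hp).continuousWithinAt
  have hUc : IsClosed U := hU.isClosed
  set c := value K Kb U h₀ F
  -- the low points of `L` near the level contain no stationary point
  set Cr : Set W := {p ∈ U | L p ≤ m - η / 2} ∩ ⋂ w ∈ U, {p ∈ U | 0 ≤ dF p (w - p)}
  have hlow : IsClosed {p ∈ U | L p ≤ m - η / 2} := hUc.isClosed_le hL continuousOn_const
  have hCr : IsCompact Cr := hU.of_isClosed_subset
    (hlow.inter (isClosed_biInter fun w _ =>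
      hUc.isClosed_le continuousOn_const (hdc.clm_apply (continuousOn_const.sub continuousOn_id))))
    fun p hp => hp.1.1
  obtain ⟨δ₁, hδ₁, hδCr⟩ : ∃ δ > 0, ∀ p ∈ Cr, δ < |F p - c| := by
    rcases Cr.eq_empty_or_nonempty with hCe | hCe
    · exact ⟨1, one_pos, fun p hp => by simp [hCe] at hp⟩
    · obtain ⟨p, hp, hmin⟩ := hCr.exists_isMinOn hCe
        (((hFc.mono fun q hq => hq.1.1).sub continuousOn_const).abs)
      have hpos : 0 < |F p - c| := abs_pos.2 fun h0 => by
        have h1 : m ≤ L p := hm p hp.1.1 (sub_eq_zero.1 h0)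
          fun w hw => (mem_iInter₂.1 hp.2 w hw).2
        linarith [hp.1.2]
      exact ⟨|F p - c| / 2, half_pos hpos, fun q hq => (half_lt_self hpos).trans_le (hmin hq)⟩
  set δ := min δ₁ ((c - cb) / 2)
  have hδ : 0 < δ := lt_min hδ₁ (by linarith)
  have hδb : cb < c - δ := by
    have := min_le_right δ₁ ((c - cb) / 2)
    simp only [δ]
    linarith
  set Z : Set W := {p ∈ U | L p ≤ m - η / 2} ∩ {p ∈ U | |F p - c| ≤ δ}
  have hZ : IsCompact Z := hU.of_isClosed_subset
    (hlow.inter (hUc.isClosed_le (hFc.sub continuousOn_const).abs continuousOn_const))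
    fun p hp => hp.1.1
  obtain ⟨v, a, ha, Cv, hCv, hvc, hvlo, hvd, hva, σ, hσ, hvmem⟩ :=
    exists_descent_field hU hconv hFc hdc hZ (fun p hp => hp.1.1)
      (fun p hp hst => absurd hp.2.2 (not_le.2 ((min_le_left _ _).trans_lt
        (hδCr p ⟨hp.1, mem_iInter₂.2 fun w hw => ⟨hp.1.1, hst w hw⟩⟩))))
      hδb (fun p hp => by linarith [(abs_le.1 hp.2.2).1])
  obtain ⟨ML, hML⟩ := hU.exists_bound_of_continuousOn hL
  set M : ℝ := |m - η| + |ML|
  set κ : ℝ := (M + η) / a
  have hκ : 0 < κ := by positivity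
  obtain ⟨ρ, hρ, hexp⟩ := exists_uniform_expansion hU hconv hd hdc
    (show 0 < η / (4 * κ * Cv) by positivity)
  set τ : ℝ := min (min (σ / κ) (ρ / (κ * Cv))) (min (δ / (M + 1)) (δ / η))
  have hτ : 0 < τ := lt_min (lt_min (by positivity) (by positivity))
    (lt_min (by positivity) (by positivity))
  filter_upwards [Ioo_mem_nhdsGT hτ] with t ⟨ht, htτ⟩
  have ht1 : κ * t ≤ σ := by
    have := htτ.trans_le ((min_le_left _ _).trans (min_le_left _ _))
    rw [lt_div_iff₀ hκ] at this
    linarith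
  have ht2 : κ * t * Cv ≤ ρ := by
    have := htτ.trans_le ((min_le_left _ _).trans (min_le_right _ _))
    rw [lt_div_iff₀ (by positivity)] at this
    linarith
  have ht3 : t * M ≤ δ := by
    have := htτ.trans_le ((min_le_right _ _).trans (min_le_left _ _))
    rw [lt_div_iff₀ (by positivity)] at this
    linarith
  have ht4 : t * η ≤ δ := by
    have := htτ.trans_le ((min_le_right _ _).trans (min_le_right _ _))
    rw [lt_div_iff₀ hη] at this
    linarith
  by_contra hlt
  rw [not_le] at hlt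
  obtain ⟨b, ⟨h, hh, hhb⟩, hbt⟩ := exists_lt_of_csInf_lt (by
    obtain ⟨B, hB⟩ := hU.bddAbove_image (hFc.add (continuousOn_const.mul hL) :
      ContinuousOn (fun p => F p + t * L p) U)
    exact ⟨B, h₀, hne, fun x hx => hB (mem_image_of_mem _ (hne.2.1 hx))⟩) hlt
  have hadm : (fun x => h x + (κ * t) • v (h x)) ∈ Admissible K Kb U h₀ := by
    refine ⟨hh.1.add ((hvc.comp hh.1 hh.2.1).const_smul _), fun x hx =>
      hvmem _ (hh.2.1 hx) _ (by positivity) ht1, fun x hx => ?_⟩
    show h x + _ = h₀ x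
    rw [hh.2.2 hx, hvlo _ (hne.2.1 (hKb hx)) (hb x hx), smul_zero, add_zero]
  refine absurd (value_le hK (hU.bddBelow_image hFc) hadm (a := c - t * η / 4) fun x hx => ?_)
    (not_le.2 (show c - t * η / 4 < c by linarith [mul_pos ht hη]))
  set p := h x
  have hp : p ∈ U := hh.2.1 hx
  have hval : F p + t * L p ≤ c + t * (m - η) := (hhb x hx).trans hbt.le
  have hML' : |L p| ≤ |ML| := (hML p hp).trans (le_abs_self _)
  have hnorm : ‖(κ * t) • v p‖ ≤ κ * t * Cv := by
    rw [norm_smul, Real.norm_of_nonneg (by positivity)]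
    exact mul_le_mul_of_nonneg_left (hvd p hp).2 (by positivity)
  have hstep := hexp p hp (p + (κ * t) • v p) (hvmem p hp _ (by positivity) ht1)
    (by rw [add_sub_cancel_left]; exact hnorm.trans ht2)
  rw [add_sub_cancel_left, map_smul, smul_eq_mul] at hstep
  have herr : η / (4 * κ * Cv) * ‖(κ * t) • v p‖ ≤ t * η / 4 :=
    (mul_le_mul_of_nonneg_left hnorm (by positivity)).trans_eq (by field_simp)
  have hκt : κ * t * dF p (v p) ≤ 0 :=
    mul_nonpos_of_nonneg_of_nonpos (by positivity) (hvd p hp).1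
  show F (p + (κ * t) • v p) ≤ _
  by_cases hLp : L p ≤ m - η / 2
  swap
  · have := mul_le_mul_of_nonneg_left (le_of_not_ge hLp) ht.le
    linarith
  by_cases hFp : F p < c - δ
  · linarith
  have hup : F p - c ≤ t * M := by
    have h1 : m - η - L p ≤ M := by
      simp only [M]
      linarith [le_abs_self (m - η), neg_abs_le (L p)]
    have := mul_le_mul_of_nonneg_left h1 ht.le
    linarith
  have hdec := mul_le_mul_of_nonneg_left
    (hva p ⟨⟨hp, hLp⟩, ⟨hp, abs_le.2 ⟨by linarith, by linarith⟩⟩⟩) (show 0 ≤ κ * t by positivity)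
  have hκa : κ * a = M + η := div_mul_cancel₀ _ ha.ne'
  have : κ * t * -a = -(t * M) - t * η := by linear_combination (-t) * hκa
  linarith [mul_pos ht hη]

/-- The same along a curve of functions tangent to `L`. -/
theorem dini (hK : K.Nonempty) (hKb : Kb ⊆ K) (hne : h₀ ∈ Admissible K Kb U h₀)
    (hU : IsCompact U) (hconv : Convex ℝ U) (hd : ∀ p ∈ U, HasFDerivWithinAt F (dF p) U p)
    (hdc : ContinuousOn dF U) (hL : ContinuousOn L U) {cb : ℝ}
    (hb : ∀ x ∈ Kb, F (h₀ x) ≤ cb) (hbc : cb < value K Kb U h₀ F) {m : ℝ}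
    (hm : ∀ p ∈ U, F p = value K Kb U h₀ F → Stationary U dF p → m ≤ L p)
    {Φ : ℝ → W → ℝ} (hΦb : ∀ t, BddAbove (Φ t '' U))
    (hΦ : ∀ e > 0, ∀ᶠ t in 𝓝[>] (0 : ℝ), ∀ p ∈ U, F p + t * L p - e * t ≤ Φ t p)
    {η : ℝ} (hη : 0 < η) :
    ∀ᶠ t in 𝓝[>] (0 : ℝ), value K Kb U h₀ F + t * (m - η) ≤ value K Kb U h₀ (Φ t) := by
  filter_upwards [dini_linear hK hKb hne hU hconv hd hdc hL hb hbc hm (half_pos hη),
    hΦ _ (half_pos hη)] with t h1 h2
  have hb' : BddBelow ((fun p => F p + t * L p) '' U) :=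
    hU.bddBelow_image (ContinuousOn.add (f := F) (fun p hp => (hd p hp).continuousWithinAt)
      (continuousOn_const.mul hL))
  have := value_le_add hK hne hb' (hΦb t) (δ := η / 2 * t) fun p hp => by linarith [h2 p hp]
  linarith

end Dini

end Vale.Agent.P371.Link
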