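import Vale.Agent.P371.Link.Cone

/-!
P371, gauge selection: continuity of power traces, the pointwise Young inequality for a matrix
potential against a family, and the flow inequality.
-/

namespace Vale.Agent.P371.Link

open _root_.Matrix Complex Set Filter Topology Finset
open scoped ComplexOrder Matrix.Norms.L2Operator

variable {n : Type} [Fintype n] [DecidableEq n]

lemma powTr_zero {r : ℝ} (hr : r ≠ 0) : powTr r (0 : Matrix n n ℂ) = 0 := by
  rw [powTr_eq isHermitian_zero]
  refine sum_eq_zero fun i _ => ?_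
  have h : (isHermitian_zero : (0 : Matrix n n ℂ).IsHermitian).eigenvalues = 0 :=
    IsHermitian.eigenvalues_eq_zero_iff isHermitian_zero |>.2 rfl
  rw [h, Pi.zero_apply, Real.zero_rpow hr]

lemma trace_pow_re {A : Matrix n n ℂ} (hA : A.IsHermitian) (k : ℕ) :
    (A ^ k).trace.re = ∑ i, hA.eigenvalues i ^ k := by
  set U : Matrix n n ℂ := (hA.eigenvectorUnitary : Matrix n n ℂ)
  set d : Matrix n n ℂ := diagonal fun i => (hA.eigenvalues i : ℂ)
  have hU : Uᴴ * U = 1 := Unitary.coe_star_mul_self hA.eigenvectorUnitary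
  have hspec : A = U * d * Uᴴ := by
    have := hA.spectral_theorem
    simpa [Unitary.conjStarAlgAut_apply, Matrix.star_eq_conjTranspose, U, d, Function.comp_def]
      using this
  have hp : A ^ k = U * d ^ k * Uᴴ := by
    induction k with
    | zero => rw [pow_zero, pow_zero, Matrix.mul_one, mul_eq_one_comm.mp hU]
    | succ k ih =>
      rw [pow_succ, ih, hspec, pow_succ]
      simp only [Matrix.mul_assoc]
      rw [← Matrix.mul_assoc Uᴴ U, hU, Matrix.one_mul]
  rw [hp, trace_mul_cycle, hU, Matrix.one_mul, diagonal_pow, trace_diagonal, Complex.re_sum]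
  exact sum_congr rfl fun i _ => by simp [← Complex.ofReal_pow]

lemma abs_eigenvalue_le {A : Matrix n n ℂ} (hA : A.IsHermitian) (i : n) :
    |hA.eigenvalues i| ≤ ‖A‖ := by
  have h := hA.mulVec_eigenvectorBasis i
  have h2 := Matrix.l2_opNorm_mulVec A (hA.eigenvectorBasis i)
  rw [h, show (EuclideanSpace.equiv n ℂ).symm (hA.eigenvalues i • (hA.eigenvectorBasis i).ofLp) =
    hA.eigenvalues i • hA.eigenvectorBasis i from rfl, norm_smul, Real.norm_eq_abs] at h2
  simpa using h2

/-- Power traces are continuous along continuous Hermitian curves. -/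
theorem continuousOn_powTr {s : Set ℝ} (hs : IsCompact s) {Y : ℝ → Matrix n n ℂ} (hc : ContinuousOn Y s)
    (hh : ∀ x ∈ s, (Y x).IsHermitian) {r : ℝ} (hr : 0 ≤ r) :
    ContinuousOn (fun x => powTr r (Y x)) s := by
  obtain ⟨C, hC⟩ := hs.exists_bound_of_continuousOn hc
  choose p hp using fun k : ℕ => exists_polynomial_near_of_continuousOn (-C) C (fun t : ℝ => t ^ r)
    (Real.continuous_rpow_const hr).continuousOn (1 / ((k : ℝ) + 1)) (by positivity)
  have hk : ∀ k, ContinuousOn (fun x => ∑ j ∈ range ((p k).natDegree + 1),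
      (p k).coeff j * ((Y x) ^ j).trace.re) s := fun k =>
    continuousOn_finsetSum _ fun j _ => continuousOn_const.mul
      ((Complex.continuous_re.comp continuous_id.matrix_trace).comp_continuousOn (hc.pow j))
  refine TendstoUniformlyOn.continuousOn (p := atTop) ?_ (.of_forall hk)
  rw [Metric.tendstoUniformlyOn_iff]
  intro η hη
  filter_upwards [(tendsto_one_div_add_atTop_nhds_zero_nat.const_mul (Fintype.card n : ℝ)).eventually
    (gt_mem_nhds (show (Fintype.card n : ℝ) * 0 < η by simpa using hη))] with k hk1 x hx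
  have e : ∑ j ∈ range ((p k).natDegree + 1), (p k).coeff j * ((Y x) ^ j).trace.re =
      ∑ i, (p k).eval ((hh x hx).eigenvalues i) := by
    simp only [trace_pow_re (hh x hx), Polynomial.eval_eq_sum_range, mul_sum]
    exact sum_comm
  rw [e, powTr_eq (hh x hx), Real.dist_eq, ← sum_sub_distrib]
  refine lt_of_le_of_lt (abs_sum_le_sum_abs _ _) (lt_of_le_of_lt ?_ hk1)
  refine (sum_le_sum fun i _ => (?_ : |_| ≤ 1 / ((k : ℝ) + 1))).trans (by simp)
  have hi := abs_le.1 ((abs_eigenvalue_le (hh x hx) i).trans (hC x hx))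
  rw [abs_sub_comm]
  exact (hp k _ hi).le

lemma young_scalar {ν : ℝ} (hν : 0 < ν) {a s : ℝ} (ha : 0 ≤ a) (hs : 0 ≤ s) :
    a * s ≤ s ^ (1 + 1 / ν) + ν ^ ν / (ν + 1) ^ (ν + 1) * a ^ (1 + ν) := by
  set r : ℝ := 1 + 1 / ν with hr
  have hr0 : 0 < r := by positivity
  have hc : 0 < r ^ (1 / r) := Real.rpow_pos_of_pos hr0 _
  have hpq : (1 + ν).HolderConjugate r := by
    rw [Real.holderConjugate_iff]
    refine ⟨by linarith, ?_⟩
    rw [hr]
    field_simp
    ring
  have h := Real.young_inequality_of_nonneg (div_nonneg ha hc.le) (mul_nonneg hs hc.le) hpq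
  rw [div_mul_eq_mul_div, ← mul_assoc, mul_div_cancel_right₀ _ hc.ne'] at h
  have e1 : (s * r ^ (1 / r)) ^ r / r = s ^ r := by
    rw [Real.mul_rpow hs hc.le, ← Real.rpow_mul hr0.le, one_div_mul_cancel hr0.ne', Real.rpow_one]
    field_simp
  have e2 : (a / r ^ (1 / r)) ^ (1 + ν) / (1 + ν) = ν ^ ν / (ν + 1) ^ (ν + 1) * a ^ (1 + ν) := by
    have h1 : (r ^ (1 / r)) ^ (1 + ν) = r ^ ν := by
      rw [← Real.rpow_mul hr0.le]
      congr 1
      rw [hr]
      field_simp
      ring
    have h2 : r = (ν + 1) / ν := by rw [hr]; field_simp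
    rw [Real.div_rpow ha hc.le, h1, h2, Real.div_rpow (by linarith) hν.le, Real.rpow_add_one (by linarith),
      add_comm ν 1]
    field_simp
  rw [e1, e2] at h
  linarith

/-- The pointwise Young inequality of a potential against a family. -/
theorem young_powTr {ν : ℝ} (hν : 0 < ν) {m : Type} [Fintype m] [DecidableEq m] {A : Matrix m m ℂ}
    (hA : A.PosSemidef) (Φ : Matrix m n ℂ) :
    (Φᴴ * A * Φ).trace.re ≤ powTr (1 + 1 / ν) (Φᴴ * Φ) +
      ν ^ ν / (ν + 1) ^ (ν + 1) * ∑ i, hA.isHermitian.eigenvalues i ^ (1 + ν) := by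
  set κ : ℝ := ν ^ ν / (ν + 1) ^ (ν + 1)
  have hκ : 0 ≤ κ := by positivity
  have hY : (Φᴴ * Φ).PosSemidef := posSemidef_conjTranspose_mul_self Φ
  set V : Matrix n n ℂ := (hY.isHermitian.eigenvectorUnitary : Matrix n n ℂ)
  set U : Matrix m m ℂ := (hA.isHermitian.eigenvectorUnitary : Matrix m m ℂ)
  set y := hY.isHermitian.eigenvalues
  set l := hA.isHermitian.eigenvalues
  set d : Matrix m m ℂ := diagonal fun i => (l i : ℂ)
  have hV : Vᴴ * V = 1 := Unitary.coe_star_mul_self hY.isHermitian.eigenvectorUnitary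
  have hV' : V * Vᴴ = 1 := mul_eq_one_comm.mp hV
  have hU : Uᴴ * U = 1 := Unitary.coe_star_mul_self hA.isHermitian.eigenvectorUnitary
  have hU' : U * Uᴴ = 1 := mul_eq_one_comm.mp hU
  have hspec : A = U * d * Uᴴ := by
    have := hA.isHermitian.spectral_theorem
    simpa [Unitary.conjStarAlgAut_apply, Matrix.star_eq_conjTranspose, U, d, l, Function.comp_def]
      using this
  set C := Uᴴ * Φ * V
  have hCC : Cᴴ * C = diagonal fun k => (y k : ℂ) := by
    have h1 : Cᴴ * C = Vᴴ * (Φᴴ * Φ) * V := by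
      simp only [C, conjTranspose_mul, conjTranspose_conjTranspose, Matrix.mul_assoc]
      simp only [← Matrix.mul_assoc U, hU', Matrix.one_mul]
    have h2 : Φᴴ * Φ = V * (diagonal fun k => (y k : ℂ)) * Vᴴ := by
      have := hY.isHermitian.spectral_theorem
      simpa [Unitary.conjStarAlgAut_apply, Matrix.star_eq_conjTranspose, V, y, Function.comp_def]
        using this
    rw [h1, h2]
    simp only [Matrix.mul_assoc, hV, Matrix.mul_one]
    rw [← Matrix.mul_assoc, hV, Matrix.one_mul]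
  have hq : ∀ i k, ((starRingEnd ℂ) (C i k) * C i k).re = ‖C i k‖ ^ 2 := fun i k => by
    rw [mul_comm, Complex.mul_conj, Complex.ofReal_re, Complex.normSq_eq_norm_sq]
  have hcol : ∀ k, ∑ i, ‖C i k‖ ^ 2 = y k := fun k => by
    have h := congrArg Complex.re (congrFun (congrFun hCC k) k)
    rw [Matrix.mul_apply, Complex.re_sum, diagonal_apply_eq, Complex.ofReal_re] at h
    simpa only [conjTranspose_apply, RCLike.star_def, hq] using h
  have htr : (Φᴴ * A * Φ).trace.re = ∑ k, ∑ i, l i * ‖C i k‖ ^ 2 := by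
    have h1 : Cᴴ * d * C = Vᴴ * (Φᴴ * A * Φ) * V := by
      simp only [C, hspec, conjTranspose_mul, conjTranspose_conjTranspose, Matrix.mul_assoc]
    have h2 : (Cᴴ * d * C).trace = (Φᴴ * A * Φ).trace := by
      rw [h1, trace_mul_comm, ← Matrix.mul_assoc, hV', Matrix.one_mul]
    rw [← h2, trace, Complex.re_sum]
    refine sum_congr rfl fun k _ => ?_
    rw [Matrix.diag, Matrix.mul_apply, Complex.re_sum]
    refine sum_congr rfl fun i _ => ?_
    simp only [d, mul_diagonal, conjTranspose_apply, RCLike.star_def]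
    rw [mul_comm _ (l i : ℂ), mul_assoc, Complex.re_ofReal_mul, hq]
  -- normalised columns
  set D : Matrix n n ℂ := diagonal fun k => ((if y k = 0 then 0 else (Real.sqrt (y k))⁻¹ : ℝ) : ℂ)
  set G := C * D
  have hGG : Gᴴ * G = diagonal fun k => ((if y k = 0 then 0 else 1 : ℝ) : ℂ) := by
    have hD : Dᴴ = D := by
      simp only [D, diagonal_conjTranspose]
      congr 1
      funext k
      simp [Complex.conj_ofReal]
    rw [show Gᴴ * G = D * (Cᴴ * C) * D by
      simp only [G, conjTranspose_mul, hD, Matrix.mul_assoc], hCC]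
    simp only [D, diagonal_mul_diagonal]
    congr 1
    funext k
    by_cases hk : y k = 0
    · simp [hk]
    · have hk' : 0 < y k := lt_of_le_of_ne (hY.eigenvalues_nonneg k) (Ne.symm hk)
      rw [if_neg hk, if_neg hk, ← Complex.ofReal_mul, ← Complex.ofReal_mul, Complex.ofReal_inj]
      rw [show (Real.sqrt (y k))⁻¹ * y k * (Real.sqrt (y k))⁻¹ =
        y k / (Real.sqrt (y k) * Real.sqrt (y k)) by ring, Real.mul_self_sqrt hk'.le, div_self hk]
  have hproj : G * Gᴴ * (G * Gᴴ) = G * (Gᴴ * G) * Gᴴ := by simp only [Matrix.mul_assoc]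
  have hGI : G * (Gᴴ * G) = G := by
    rw [hGG]
    ext i k
    simp only [mul_diagonal, G, D]
    by_cases hk : y k = 0 <;> simp [hk]
  rw [hGI] at hproj
  have hrow : ∀ i, ∑ k, ‖G i k‖ ^ 2 ≤ 1 := fun i => by
    set P := G * Gᴴ
    have hP : Pᴴ = P := (isHermitian_mul_conjTranspose_self G).eq
    have hii : (P i i).re = ∑ k, ‖G i k‖ ^ 2 := by
      show ((G * Gᴴ) i i).re = _
      rw [Matrix.mul_apply, Complex.re_sum]
      refine sum_congr rfl fun k _ => ?_
      rw [conjTranspose_apply, RCLike.star_def, Complex.mul_conj, Complex.ofReal_re,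
        Complex.normSq_eq_norm_sq]
    have h1 : (P i i).re = ∑ j, ‖P i j‖ ^ 2 := by
      conv_lhs => rw [← hproj]
      rw [Matrix.mul_apply, Complex.re_sum]
      refine sum_congr rfl fun j _ => ?_
      conv_lhs => rw [show P j i = Pᴴ j i by rw [hP]]
      rw [conjTranspose_apply, RCLike.star_def, Complex.mul_conj, Complex.ofReal_re,
        Complex.normSq_eq_norm_sq]
    have h2 : (P i i).re ^ 2 ≤ (P i i).re := by
      refine le_trans ?_ ((single_le_sum (f := fun j => ‖P i j‖ ^ 2) (fun j _ => sq_nonneg _)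
        (mem_univ i)).trans_eq h1.symm)
      rw [← sq_abs]
      exact pow_le_pow_left₀ (abs_nonneg _) (Complex.abs_re_le_norm _) 2
    rw [← hii]
    nlinarith [h2]
  have hnorm : ∀ i k, ‖C i k‖ ^ 2 = y k * ‖G i k‖ ^ 2 := fun i k => by
    by_cases hk : y k = 0
    · have h0 : ‖C i k‖ ^ 2 ≤ 0 := by
        rw [← hk, ← hcol k]
        exact single_le_sum (f := fun i => ‖C i k‖ ^ 2) (fun i _ => sq_nonneg _) (mem_univ i)
      rw [hk, zero_mul]
      exact le_antisymm h0 (sq_nonneg _)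
    · have hk' : 0 < y k := lt_of_le_of_ne (hY.eigenvalues_nonneg k) (Ne.symm hk)
      simp only [G, D, mul_diagonal, if_neg hk, norm_mul, Complex.norm_real, mul_pow, Real.norm_eq_abs,
        sq_abs, inv_pow, Real.sq_sqrt hk'.le]
      field_simp
  have hl := hA.eigenvalues_nonneg
  have hy := hY.eigenvalues_nonneg
  have hmain : ∀ k, ∑ i, l i * ‖C i k‖ ^ 2 ≤
      y k ^ (1 + 1 / ν) + κ * ∑ i, l i ^ (1 + ν) * ‖G i k‖ ^ 2 := fun k => by
    by_cases hk : y k = 0
    · simp only [hnorm, hk, zero_mul, mul_zero, sum_const_zero]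
      exact add_nonneg (Real.rpow_nonneg le_rfl _) (mul_nonneg hκ (sum_nonneg fun i _ =>
        mul_nonneg (Real.rpow_nonneg (hl i) _) (sq_nonneg _)))
    · have hw : ∑ i, ‖G i k‖ ^ 2 = 1 := by
        have h := hcol k
        simp only [hnorm] at h
        rw [← mul_sum] at h
        exact mul_left_cancel₀ hk (h.trans (mul_one _).symm)
      have hJ : (∑ i, ‖G i k‖ ^ 2 * l i) ^ (1 + ν) ≤ ∑ i, ‖G i k‖ ^ 2 * l i ^ (1 + ν) :=
        Real.rpow_arith_mean_le_arith_mean_rpow univ _ _ (fun i _ => sq_nonneg _) hw (fun i _ => hl i)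
          (by linarith)
      have hys := young_scalar hν (a := ∑ i, ‖G i k‖ ^ 2 * l i)
        (sum_nonneg fun i _ => mul_nonneg (sq_nonneg _) (hl i)) (hy k)
      have h2 := mul_le_mul_of_nonneg_left hJ hκ
      have e1 : ∑ i, l i * ‖C i k‖ ^ 2 = (∑ i, ‖G i k‖ ^ 2 * l i) * y k := by
        rw [sum_mul]
        exact sum_congr rfl fun i _ => by rw [hnorm]; ring
      have e2 : ∑ i, l i ^ (1 + ν) * ‖G i k‖ ^ 2 = ∑ i, ‖G i k‖ ^ 2 * l i ^ (1 + ν) :=
        sum_congr rfl fun i _ => mul_comm _ _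
      rw [e1, e2]
      linarith
  rw [htr, powTr_eq hY.isHermitian]
  refine (sum_le_sum fun k _ => hmain k).trans ?_
  rw [sum_add_distrib, ← mul_sum, sum_comm]
  refine add_le_add le_rfl (mul_le_mul_of_nonneg_left (sum_le_sum fun i _ => ?_) hκ)
  rw [← mul_sum]
  exact mul_le_of_le_one_right (Real.rpow_nonneg (hl i) _) (hrow i)

omit [DecidableEq n] in
/-- The flow inequality. -/
theorem flow_le {m : Type} [Fintype m] [DecidableEq m] (Φ Φ' : Matrix m n ℂ) {B : Matrix n n ℂ}
    (hB : B.IsHermitian) :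
    -(Φ'ᴴ * Φ').trace.re - (Φᴴ * Φ * (B * B)).trace.re ≤ ((Φ'ᴴ * Φ + Φᴴ * Φ') * B).trace.re := by
  have h := (Complex.nonneg_iff.1 (posSemidef_conjTranspose_mul_self (Φ' + Φ * B)).trace_nonneg).1
  have e : ((Φ' + Φ * B)ᴴ * (Φ' + Φ * B)).trace =
      (Φ'ᴴ * Φ').trace + (Φᴴ * Φ * (B * B)).trace + ((Φ'ᴴ * Φ + Φᴴ * Φ') * B).trace := by
    rw [conjTranspose_add, conjTranspose_mul, hB.eq]
    simp only [Matrix.add_mul, Matrix.mul_add, trace_add]
    rw [trace_mul_comm (B * Φᴴ) Φ', trace_mul_comm (B * Φᴴ) (Φ * B)]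
    rw [show (Φ' * (B * Φᴴ)).trace = (Φᴴ * Φ' * B).trace by
        rw [← Matrix.mul_assoc, trace_mul_comm, Matrix.mul_assoc],
      show (Φ * B * (B * Φᴴ)).trace = (Φᴴ * Φ * (B * B)).trace by
        rw [← Matrix.mul_assoc, trace_mul_comm, Matrix.mul_assoc Φ B B, ← Matrix.mul_assoc]]
    rw [← Matrix.mul_assoc Φ'ᴴ Φ B]
    ring
  rw [e, Complex.add_re, Complex.add_re] at h
  linarith

end Vale.Agent.P371.Link
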