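import Vale.Agent.P371.Link.Box
import Vale.Agent.P371.Link.Ends
import Vale.Agent.P371.Link.Minimax
import Vale.Agent.P371.Link.Spectral

/-!
P371, gauge selection: the selected gauge integrates to the inequality (seat helper25).
-/

namespace Vale.Agent.P371.Link

open _root_.Matrix Complex MeasureTheory Set Filter
open scoped ComplexOrder MatrixOrder Matrix.Norms.L2Operator Topology

set_option linter.unusedSectionVars false

variable {n : Type} [Fintype n] [DecidableEq n] {ν δ ε R : ℝ}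

/-- The slab among Hermitian matrices. -/
def slabH (δ R : ℝ) : Set (Her n) := Subtype.val ⁻¹' slab δ R

/-- The box. -/
def box (δ R : ℝ) : Set (Pt n) := slab δ R ×ˢ slab 0 R

/-- The fixed competitor. -/
def base (x : Her n) : Pt n := ((x : Matrix n n ℂ), 0)

/-- The linking value at a parameter. -/
noncomputable def level (ν ε δ R : ℝ) (z : Pt n) : ℝ :=
  value (slabH δ R) (frontier (slabH δ R)) (box δ R) base (F ν ε R z)

lemma isClosed_slabH : IsClosed (slabH δ R : Set (Her n)) := isClosed_slab.preimage continuous_subtype_val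

lemma isCompact_slabH (hR : 0 ≤ R) (hδ : 0 ≤ δ) : IsCompact (slabH δ R : Set (Her n)) :=
  (Submodule.closed_of_finiteDimensional (Her n)).isClosedEmbedding_subtypeVal.isCompact_preimage
    (isCompact_slab hR hδ)

lemma isCompact_box (hR : 0 ≤ R) (hδ : 0 ≤ δ) : IsCompact (box δ R : Set (Pt n)) :=
  (isCompact_slab hR hδ).prod (isCompact_slab hR le_rfl)

lemma base_mem (hR : 0 ≤ R) :
    (base : Her n → Pt n) ∈ Admissible (slabH δ R) (frontier (slabH δ R)) (box δ R) base :=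
  ⟨(continuous_subtype_val.prodMk continuous_const).continuousOn, fun _ hx => ⟨hx, zero_mem_slab hR⟩,
    fun _ _ => rfl⟩

lemma continuousOn_F (hν : 1 / 2 < ν) (hν1 : ν < 1) (hδ : 0 < δ) (z : Pt n) :
    ContinuousOn (F ν ε R z) (box δ R) := fun _ hp =>
  (hasFDerivWithinAt_F hν hν1 hδ z hp).continuousWithinAt

lemma bounds_image_F (hν : 1 / 2 < ν) (hν1 : ν < 1) (hR : 0 ≤ R) (hδ : 0 < δ) (z : Pt n) :
    BddBelow (F ν ε R z '' box δ R) ∧ BddAbove (F ν ε R z '' box δ R) :=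
  ⟨(isCompact_box hR hδ.le).bddBelow_image (continuousOn_F hν hν1 hδ z),
    (isCompact_box hR hδ.le).bddAbove_image (continuousOn_F hν hν1 hδ z)⟩

lemma mem_interior_slabH {x : Her n} (h1 : ((x : Matrix n n ℂ) - (δ : ℂ) • 1).PosDef)
    (h2 : (co (R - δ) (x : Matrix n n ℂ)).PosDef) : x ∈ interior (slabH δ R) :=
  mem_interior_iff_mem_nhds.2 (((continuous_subtype_val.tendsto x).eventually (eventually_mem_slab h1 h2)).mono
    fun y hy => hy y.2)

/-- The functional is below the levels of interest on the frontier. -/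
lemma F_base_le (hδ : 0 < δ) (hε : 0 ≤ ε) (hR : 0 ≤ R) {z : Pt n} {C0 : ℝ}
    (hC : ∀ p ∈ box 0 R, F0 ν z p ≤ C0) {x : Her n} (hx : x ∈ frontier (slabH δ R)) :
    F ν ε R z (base x) ≤ C0 - ε / δ := by
  have hxK : (x : Matrix n n ℂ) ∈ slab δ R := isClosed_slabH.frontier_subset hx
  have h := (barrier_bounds hδ hε hxK).2 fun h => hx.2 (mem_interior_slabH h.1 h.2)
  have h0 : F0 ν z (base x) ≤ C0 := hC _ ⟨mem_slab_zero hδ.le hxK, zero_mem_slab hR⟩
  show F0 ν z (base x) - barrier ε R (x : Matrix n n ℂ) ≤ _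
  linarith

/-- A stationary point above the frontier levels is free in `P`. -/
lemma stat_of_level (hδ : 0 < δ) (hε : 0 ≤ ε) {z : Pt n} {C0 : ℝ}
    (hC : ∀ p ∈ box 0 R, F0 ν z p ≤ C0) {p : Pt n} (hp : p ∈ box δ R)
    (hlev : C0 - ε / δ < F ν ε R z p) (hst : Stationary (box δ R) (dF ν ε R z) p) :
    Stat ν ε R z p := by
  have hPD := posDef_of_mem_slab hδ hp.1
  have hin : (p.1 - (δ : ℂ) • 1).PosDef ∧ (co (R - δ) p.1).PosDef := by
    by_contra hn
    have h := (barrier_bounds hδ hε hp.1).2 hn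
    have h0 := hC p ⟨mem_slab_zero hδ.le hp.1, hp.2⟩
    rw [F] at hlev
    linarith
  refine ⟨hPD.1, hPD.2, hp.2, fun k hk => ?_, fun w hw => ?_⟩
  · have hc : Tendsto (fun t : ℝ => p.1 + t • k) (𝓝 0) (𝓝 p.1) := by
      simpa using (((continuous_id.smul continuous_const).const_add p.1).tendsto (0 : ℝ) :
        Tendsto (fun t : ℝ => p.1 + t • k) (𝓝 0) (𝓝 (p.1 + (0 : ℝ) • k)))
    obtain ⟨r, hr, hball⟩ := Metric.eventually_nhds_iff.1 (hc.eventually (eventually_mem_slab hin.1 hin.2))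
    have key : ∀ t : ℝ, |t| < r → 0 ≤ t * dF ν ε R z p (k, 0) := fun t ht => by
      have hm := hball (y := t) (by rwa [dist_zero_right]) (hPD.1.1.add ((IsSelfAdjoint.all t).smul hk))
      have h := hst (p.1 + t • k, p.2) ⟨hm, hp.2⟩
      rwa [show ((p.1 + t • k, p.2) : Pt n) - p = t • ((k, 0) : Pt n) by
        refine Prod.ext ?_ ?_ <;> simp, map_smul, smul_eq_mul] at h
    have h1 := key (r / 2) (by rw [abs_of_pos (half_pos hr)]; linarith)
    have h2 := key (-(r / 2)) (by rw [abs_neg, abs_of_pos (half_pos hr)]; linarith)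
    nlinarith
  · have h := hst (p.1, w) ⟨hp.1, hw⟩
    rwa [show ((p.1, w) : Pt n) - p = (0, w - p.2) by refine Prod.ext ?_ ?_ <;> simp] at h

/-- The rate of the remainder. -/
noncomputable def errF (ν R c C1 C2 ε : ℝ) : ℝ :=
  (2 * Real.sqrt (c * ε * (C1 + c * ε / R ^ 2)) + 2 * c * ε / R) * (R / 2) +
    (1 + 1 / ν) * (4 * ε / R ^ 2) * C2

/-- The growth rate at a stationary point. -/
lemma rate_bound (hν : 1 / 2 < ν) (hν1 : ν < 1) (hε : 0 ≤ ε) (hR : 0 < R) {X Y Y' : Matrix n n ℂ} {T : ℝ}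
    (hY : Y.PosSemidef)
    (hflow : ∀ B : Matrix n n ℂ, B.IsHermitian → -T - (Y * (B * B)).trace.re ≤ (Y' * B).trace.re)
    {p : Pt n} (hst : Stat ν ε R (X, Y) p) (hP : (co (R / 2) p.1).PosSemidef)
    (hQ : (co (R / 2) p.2).PosSemidef) {C1 C2 : ℝ}
    (hC1 : |dF0 ν (X, Y) p ((((1 : Matrix n n ℂ) - (1 / R) • p.1) * (1 - (1 / R) • p.1)), 0)| ≤ C1)
    (hC2 : powTr (1 / ν) Y ≤ C2) :
    powTr (1 + 1 / ν) Y - T - errF ν R (Fintype.card n) C1 C2 ε ≤ paramL p (Y, Y') := by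
  have h1 := stat_key hν hν1 hε hR hY hst hP hQ
  have h2 := stat_barrier hε hR hst
  have hp : p ∈ (Cone : Set (Pt n)) := Stat.mem_cone hst
  have h3 := hflow (bee p) (bee_isHermitian hp)
  have e : (Y * mid p).trace.re = (Y * (sig p * sig p)).trace.re - (Y * (bee p * bee p)).trace.re := by
    rw [← (code_spec hp).2.2.2, Matrix.mul_sub, Matrix.trace_sub, Complex.sub_re]
  have hc : (0 : ℝ) ≤ Fintype.card n := Nat.cast_nonneg _
  have h4 := mul_le_mul_of_nonneg_right (h2.trans (add_le_add_left (mul_le_mul_of_nonneg_left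
    (Real.sqrt_le_sqrt (mul_le_mul_of_nonneg_left (add_le_add_left hC1 _) (mul_nonneg hc hε)))
    zero_le_two) _)) (show (0 : ℝ) ≤ R / 2 by linarith)
  have h5 := mul_le_mul_of_nonneg_left hC2 (show 0 ≤ (1 + 1 / ν) * (4 * ε / R ^ 2) by
    have : 0 < ν := by linarith
    positivity)
  rw [paramL_apply, errF]
  dsimp only at h1 e ⊢
  linarith

lemma level_le (hν : 1 / 2 < ν) (hν1 : ν < 1) (hδ : 0 < δ) (hε : 0 ≤ ε) (hR : 0 ≤ R)
    (hne : (slabH δ R : Set (Her n)).Nonempty) {z : Pt n} {A : ℝ}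
    (hA : ∀ P : Matrix n n ℂ, P.PosSemidef → F0 ν z (P, 0) ≤ A) : level ν ε δ R z ≤ A := by
  refine value_le hne (bounds_image_F hν hν1 hR hδ z).1 (base_mem hR) fun x hx => ?_
  have h0 := hA x (posSemidef_of_mem_slab hδ.le hx).1
  have h1 := (barrier_bounds hδ hε hx).1
  show F0 ν z ((x : Matrix n n ℂ), 0) - barrier ε R (x : Matrix n n ℂ) ≤ A
  linarith

/-- The Hermitian part of the first coordinate. -/
noncomputable def proj (p : Pt n) : Her n :=
  ⟨(1 / 2 : ℝ) • (p.1 + star p.1), (IsSelfAdjoint.all (1 / 2 : ℝ)).smul (IsSelfAdjoint.add_star_self p.1)⟩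

lemma proj_eq {p : Pt n} (hp : p.1.IsHermitian) : (proj p : Matrix n n ℂ) = p.1 := by
  show (1 / 2 : ℝ) • (p.1 + star p.1) = p.1
  rw [Matrix.star_eq_conjTranspose, hp.eq]
  module

lemma continuous_proj : Continuous (proj : Pt n → Her n) :=
  Continuous.subtype_mk ((continuous_fst.add continuous_fst.star).const_smul (1 / 2 : ℝ)) _

lemma le_level (hν : 1 / 2 < ν) (hν1 : ν < 1) (hδ : 0 < δ) (hR : 0 ≤ R) {z : Pt n} {τ : ℝ}
    (hτ : δ < τ) (hτ' : τ < R - δ) {a : ℝ}
    (ha : ∀ Q ∈ slab 0 R, a ≤ F0 ν z ((τ : ℂ) • 1, Q)) :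
    a - ε * (Fintype.card n / τ + Fintype.card n / (R - τ)) ≤ level ν ε δ R z := by
  have hh : ((τ : ℂ) • 1 : Matrix n n ℂ).IsHermitian :=
    Matrix.isHermitian_one.smul (by simp [IsSelfAdjoint])
  set y₀ : Her n := ⟨(τ : ℂ) • 1, hh⟩
  have hy : y₀ ∈ interior (slabH δ R) := by
    refine mem_interior_slabH ?_ ?_
    · show ((τ : ℂ) • (1 : Matrix n n ℂ) - (δ : ℂ) • 1).PosDef
      rw [← sub_smul, ← Complex.ofReal_sub]
      exact Matrix.PosDef.one.smul (Complex.zero_lt_real.2 (sub_pos.2 hτ))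
    · show (co (R - δ) ((τ : ℂ) • (1 : Matrix n n ℂ))).PosDef
      rw [co, ← sub_smul, ← Complex.ofReal_sub]
      exact Matrix.PosDef.one.smul (Complex.zero_lt_real.2 (sub_pos.2 hτ'))
  have key : ∀ p ∈ box δ R, proj p = y₀ →
      a - ε * (Fintype.card n / τ + Fintype.card n / (R - τ)) ≤ F ν ε R z p := fun p hp hpy => by
    have e : p.1 = (τ : ℂ) • 1 := by
      rw [← proj_eq (posSemidef_of_mem_slab hδ.le hp.1).1.1, hpy]
    have h := ha p.2 hp.2
    rw [← e] at h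
    rw [F, e, barrier_smul_one (by linarith) (by linarith)]
    linarith
  exact le_value_of_slice (S := Her n) (W := Pt n) (K := slabH δ R) (U := box δ R) (h₀ := base)
    (F := F ν ε R z) (isCompact_slabH hR hδ.le) (π := proj) continuous_proj (base_mem hR)
    (fun x _ => Subtype.ext (proj_eq (p := base x) x.2)) (bounds_image_F hν hν1 hR hδ z).2
    (y₀ := y₀) hy (a := a - ε * (Fintype.card n / τ + Fintype.card n / (R - τ))) key

lemma abs_level_sub_le (hν : 1 / 2 < ν) (hν1 : ν < 1) (hδ : 0 < δ) (hR : 0 ≤ R)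
    (hne : (slabH δ R : Set (Her n)).Nonempty) {M : ℝ} (hM : ∀ p ∈ (box δ R : Set (Pt n)), ‖paramL p‖ ≤ M) (z w : Pt n) :
    |level ν ε δ R z - level ν ε δ R w| ≤ M * ‖z - w‖ := by
  have key : ∀ z w : Pt n, level ν ε δ R z ≤ level ν ε δ R w + M * ‖z - w‖ := fun z w => by
    refine value_le_add hne (base_mem hR) (bounds_image_F hν hν1 hR hδ z).1 (bounds_image_F hν hν1 hR hδ w).2
      fun p hp => ?_
    have h := F_add_param (ν := ν) (ε := ε) (R := R) w (z - w) p
    rw [add_sub_cancel] at h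
    have h1 := ((le_abs_self _).trans ((paramL p).le_opNorm (z - w))).trans
      (mul_le_mul_of_nonneg_right (hM p hp) (norm_nonneg _))
    linarith
  rw [abs_le]
  have h1 := key z w
  have h2 := key w z
  rw [norm_sub_rev] at h2
  constructor <;> linarith

/-- The slope at a parameter, along a differentiable curve. -/
lemma level_slope (hν : 1 / 2 < ν) (hν1 : ν < 1) (hδ : 0 < δ) (hε : 0 ≤ ε) (hR : 0 ≤ R)
    (hne : (slabH δ R : Set (Her n)).Nonempty) {z : ℝ → Pt n} {w : Pt n} {x : ℝ} (hz : HasDerivAt z w x)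
    {C0 M m : ℝ} (hC : ∀ p ∈ (box 0 R : Set (Pt n)), F0 ν (z x) p ≤ C0)
    (hM : ∀ p ∈ (box δ R : Set (Pt n)), ‖paramL p‖ ≤ M) (hM0 : 0 ≤ M)
    (hlev : C0 - ε / δ < level ν ε δ R (z x))
    (hm : ∀ p ∈ (box δ R : Set (Pt n)), Stat ν ε R (z x) p → m ≤ paramL p w) {η : ℝ} (hη : 0 < η) :
    ∀ᶠ t in 𝓝[>] (0 : ℝ), level ν ε δ R (z x) + t * (m - η) ≤ level ν ε δ R (z (x + t)) := by
  refine dini (F := F ν ε R (z x)) (L := fun p => paramL p w) (dF := dF ν ε R (z x))
    (Φ := fun t p => F ν ε R (z (x + t)) p) hne isClosed_slabH.frontier_subset (base_mem hR)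
    (isCompact_box hR hδ.le) (convex_slab.prod convex_slab)
    (fun p hp => hasFDerivWithinAt_F hν hν1 hδ _ hp) (continuousOn_dF hν hν1 hδ _)
    (continuous_paramL.clm_apply continuous_const).continuousOn
    (fun y hy => F_base_le hδ hε hR hC hy) hlev
    (fun p hp hpl hst => hm p hp (stat_of_level hδ hε hC hp (hpl.symm ▸ hlev) hst))
    (fun t => (bounds_image_F hν hν1 hR hδ _).2) (fun e he => ?_) hη
  have hd := hasDerivAt_iff_isLittleO_nhds_zero.1 hz
  filter_upwards [(hd.def (show 0 < e / (M + 1) by positivity)).filter_mono nhdsWithin_le_nhds,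
    self_mem_nhdsWithin] with t ht (htpos : (0 : ℝ) < t)
  intro p hp
  rw [Real.norm_of_nonneg htpos.le] at ht
  have he1 := F_add_param (ν := ν) (ε := ε) (R := R) (z x) (z (x + t) - z x) p
  rw [add_sub_cancel] at he1
  have h1 := (neg_le_abs _).trans (((paramL p).le_opNorm (z (x + t) - z x - t • w)).trans
    (mul_le_mul (hM p hp) ht (norm_nonneg _) hM0))
  rw [map_sub (paramL p) (z (x + t) - z x), map_smul, smul_eq_mul] at h1
  have h2 : M * (e / (M + 1) * t) ≤ e * t := by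
    rw [← mul_assoc]
    refine mul_le_mul_of_nonneg_right ?_ htpos.le
    rw [mul_div_assoc', div_le_iff₀ (by positivity)]
    nlinarith
  linarith

/-- A lower bound on all right slopes integrates. -/
lemma integral_le_of_slope {a b : ℝ} (hab : a ≤ b) {G f : ℝ → ℝ} (hG : ContinuousOn G (Icc a b))
    (hf : ContinuousOn f (Icc a b))
    (h : ∀ x ∈ Ico a b, ∀ η > 0, ∀ᶠ t in 𝓝[>] (0 : ℝ), G x + t * (f x - η) ≤ G (x + t)) :
    G a + (∫ t in a..b, f t) ≤ G b := by
  set fe : ℝ → ℝ := Set.IccExtend hab fun x => f x with hfedef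
  have hfec : Continuous fe := continuous_IccExtend_iff.2 (continuousOn_iff_continuous_domRestrict.1 hf)
  have hfe : ∀ x ∈ Icc a b, fe x = f x := fun x hx => IccExtend_of_mem hab _ hx
  rw [← intervalIntegral.integral_congr (f := fe) fun x hx => hfe x (by rwa [uIcc_of_le hab] at hx)]
  have hd : ∀ y, HasDerivAt (fun y => -G a - ∫ t in a..y, fe t) (-fe y) y := fun y =>
    (hfec.integral_hasStrictDerivAt a y).hasDerivAt.const_sub _
  have hint := image_le_of_liminf_slope_right_le_deriv_boundary (f := fun y => -G y) hG.neg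
    (B := fun y => -G a - ∫ t in a..y, fe t) (B' := fun y => -fe y) (by simp)
    (fun y _ => (hd y).continuousAt.continuousWithinAt) (fun y _ => (hd y).hasDerivWithinAt)
    (fun y hy q hq => ?_) (right_mem_Icc.2 hab)
  · linarith
  · rw [hfe y (Ico_subset_Icc_self hy)] at hq
    obtain ⟨η, hη, hηq⟩ : ∃ η > 0, -f y + η < q := ⟨(q + f y) / 2, by linarith, by linarith⟩
    have hmap : 𝓝[>] y = map (fun t => y + t) (𝓝[>] (0 : ℝ)) := by
      have h := (Homeomorph.addLeft y).isEmbedding.map_nhdsWithin_eq (Ioi (0 : ℝ)) (0 : ℝ)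
      simpa using h.symm
    rw [hmap, frequently_map]
    refine Eventually.frequently ?_
    filter_upwards [h y hy η hη, self_mem_nhdsWithin] with t ht (htpos : (0 : ℝ) < t)
    rw [slope_def_field, add_sub_cancel_left, div_lt_iff₀ htpos]
    nlinarith

/-- The growth of the level along a curve, for fixed parameters of the box. -/
lemma level_growth (hν : 1 / 2 < ν) (hν1 : ν < 1) (hδ : 0 < δ) (hε : 0 ≤ ε) (hR : 0 ≤ R)
    (hne : (slabH δ R : Set (Her n)).Nonempty) {a b : ℝ} (hab : a ≤ b) {z z' : ℝ → Pt n}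
    (hz : ∀ x ∈ Icc a b, HasDerivAt z (z' x) x) {C0 M : ℝ} (hM0 : 0 ≤ M)
    (hC : ∀ x ∈ Icc a b, ∀ p ∈ (box 0 R : Set (Pt n)), F0 ν (z x) p ≤ C0)
    (hM : ∀ p ∈ (box δ R : Set (Pt n)), ‖paramL p‖ ≤ M)
    (hlev : ∀ x ∈ Icc a b, C0 - ε / δ < level ν ε δ R (z x)) {f : ℝ → ℝ} (hf : ContinuousOn f (Icc a b))
    (hm : ∀ x ∈ Icc a b, ∀ p ∈ (box δ R : Set (Pt n)), Stat ν ε R (z x) p → f x ≤ paramL p (z' x)) :
    level ν ε δ R (z a) + (∫ x in a..b, f x) ≤ level ν ε δ R (z b) := by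
  refine integral_le_of_slope (G := fun x => level ν ε δ R (z x)) hab (fun x hx => ?_) hf
    fun x hx η hη => level_slope hν hν1 hδ hε hR hne (hz x (Ico_subset_Icc_self hx))
      (hC x (Ico_subset_Icc_self hx)) hM hM0 (hlev x (Ico_subset_Icc_self hx)) (hm x (Ico_subset_Icc_self hx)) hη
  refine tendsto_iff_norm_sub_tendsto_zero.2 (squeeze_zero (fun y => norm_nonneg _)
    (fun y => abs_level_sub_le hν hν1 hδ hR hne hM (z y) (z x)) ?_)
  simpa using (tendsto_iff_norm_sub_tendsto_zero.1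
    (hz x hx).continuousAt.continuousWithinAt).const_mul M

/-- The constants of a compact box. -/
lemma exists_bounds (hν : 1 / 2 < ν) (hν1 : ν < 1) (hR : 0 ≤ R) {s : Set (Pt n)} (hs : IsCompact s) :
    ∃ C0 C1 M : ℝ, 0 ≤ M ∧ ∀ p ∈ (box 0 R : Set (Pt n)), ‖paramL p‖ ≤ M ∧ ∀ w ∈ s,
      |F0 ν w p| ≤ C0 ∧ |dF0 ν w p ((((1 : Matrix n n ℂ) - (1 / R) • p.1) * (1 - (1 / R) • p.1)), 0)| ≤ C1 := by
  have hbox : IsCompact (box 0 R : Set (Pt n)) := isCompact_box hR le_rfl
  have hsub : s ×ˢ (box 0 R : Set (Pt n)) ⊆ univ ×ˢ Cone := fun q hq => ⟨mem_univ _, box_subset_cone le_rfl hq.2⟩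
  obtain ⟨C0, hC0⟩ := (hs.prod hbox).exists_bound_of_continuousOn ((continuousOn_F0 hν hν1).mono hsub)
  have hK : Continuous fun q : Pt n × Pt n =>
      ((((1 : Matrix n n ℂ) - (1 / R) • q.2.1) * (1 - (1 / R) • q.2.1), 0) : Pt n) := by
    have h : Continuous fun q : Pt n × Pt n => (1 : Matrix n n ℂ) - (1 / R) • q.2.1 :=
      continuous_const.sub (continuous_snd.fst.const_smul (1 / R))
    exact (h.mul h).prodMk continuous_const
  obtain ⟨C1, hC1⟩ := (hs.prod hbox).exists_bound_of_continuousOn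
    (((continuousOn_dF0 hν hν1).mono hsub).clm_apply hK.continuousOn)
  obtain ⟨M, hM⟩ := hbox.exists_bound_of_continuousOn continuous_paramL.continuousOn
  exact ⟨C0, C1, M, le_trans (norm_nonneg _) (hM (0, 0) ⟨zero_mem_slab hR, zero_mem_slab hR⟩), fun p hp =>
    ⟨hM p hp, fun w hw => ⟨Real.norm_eq_abs _ ▸ hC0 (w, p) ⟨hw, hp⟩, Real.norm_eq_abs _ ▸ hC1 (w, p) ⟨hw, hp⟩⟩⟩⟩

/-- The functional without barrier is uniformly continuous near the slices with small `P`. -/
lemma exists_slice (hν : 1 / 2 < ν) (hν1 : ν < 1) (hR : 0 < R) (w : Pt n) {e : ℝ} (he : 0 < e) :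
    ∃ τ : ℝ, 0 < τ ∧ τ ≤ R / 4 ∧ ∀ Q ∈ slab 0 R, F0 ν w (0, Q) - e ≤ F0 ν w ((τ : ℂ) • 1, Q) := by
  have hbox : IsCompact (box 0 R : Set (Pt n)) := isCompact_box hR.le le_rfl
  obtain ⟨r, hr, hunif⟩ := Metric.uniformContinuousOn_iff.1 (hbox.uniformContinuousOn_of_continuous
    (ContinuousOn.comp (g := fun q : Pt n × Pt n => F0 ν q.1 q.2) (f := fun p : Pt n => ((w, p) : Pt n × Pt n))
      (continuousOn_F0 hν hν1) (continuousOn_const.prodMk continuousOn_id)
      fun p hp => ⟨mem_univ _, box_subset_cone le_rfl hp⟩)) e he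
  set k := ‖(1 : Matrix n n ℂ)‖ with hk
  have hk0 : 0 ≤ k := norm_nonneg _
  refine ⟨min (R / 4) (r / (2 * (k + 1))), lt_min (by linarith) (by positivity), min_le_left _ _, fun Q hQ => ?_⟩
  set τ := min (R / 4) (r / (2 * (k + 1))) with hτdef
  have hτ : 0 < τ := lt_min (by linarith) (by positivity)
  have hτR : τ ≤ R / 4 := min_le_left _ _
  have hdist : dist (((τ : ℂ) • 1, Q) : Pt n) (0, Q) < r := by
    rw [dist_eq_norm, Prod.mk_sub_mk, sub_zero, sub_self, Prod.norm_mk, norm_zero, norm_smul,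
      Complex.norm_real, Real.norm_of_nonneg hτ.le, ← hk, max_eq_left (by positivity)]
    refine (mul_le_mul_of_nonneg_right (min_le_right _ _) hk0).trans_lt ?_
    rw [div_mul_eq_mul_div, div_lt_iff₀ (by positivity)]
    nlinarith
  have h1 := hunif _ ⟨smul_one_mem_slab hτ.le (by linarith), hQ⟩ _ ⟨zero_mem_slab hR.le, hQ⟩ hdist
  rw [Real.dist_eq] at h1
  have := (abs_lt.1 h1).1
  simp only [Function.comp_apply] at this
  linarith

/-- The gauge inequality along a curve with prescribed ends. -/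
theorem gauge (hν : 1 / 2 < ν) (hν1 : ν < 1) {a b : ℝ} (hab : a ≤ b)
    {X Y Y' : ℝ → Matrix n n ℂ} {T : ℝ → ℝ} {g : n → ℝ} (hg : ∀ i, 0 ≤ g i)
    (hX : ∀ x ∈ Icc a b, HasDerivAt X (Y x) x) (hY : ∀ x ∈ Icc a b, HasDerivAt Y (Y' x) x)
    (hY'c : ContinuousOn Y' (Icc a b)) (hT : ContinuousOn T (Icc a b))
    (hXh : ∀ x ∈ Icc a b, (X x).IsHermitian) (hYp : ∀ x ∈ Icc a b, (Y x).PosSemidef)
    (hflow : ∀ x ∈ Icc a b, ∀ B : Matrix n n ℂ, B.IsHermitian →
      -T x - (Y x * (B * B)).trace.re ≤ (Y' x * B).trace.re)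
    (hYa : Y a = 0) (hYb : Y b = 0) (hXa : X a = diagonal fun i => ((-(g i / 2) : ℝ) : ℂ))
    (hXb : X b = diagonal fun i => ((g i / 2 : ℝ) : ℂ)) :
    (∫ x in a..b, powTr (1 + 1 / ν) (Y x)) - ∫ x in a..b, T x ≤ 2 * ∑ i, endA ν (g i) := by
  have hν0 : 0 < ν := by linarith
  set c : ℝ := (Fintype.card n : ℝ) with hcdef
  set A := ∑ i, endA ν (g i) with hA
  set z : ℝ → Pt n := fun x => (X x, Y x) with hzdef
  have hz : ∀ x ∈ Icc a b, HasDerivAt z ((Y x, Y' x) : Pt n) x := fun x hx => (hX x hx).prodMk (hY x hx)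
  have hzc : ContinuousOn z (Icc a b) := fun x hx => (hz x hx).continuousAt.continuousWithinAt
  have hs : IsCompact (z '' Icc a b) := isCompact_Icc.image_of_continuousOn hzc
  obtain ⟨R₀, hR₀⟩ := exists_apriori hν hν1 hs (forall_mem_image.2 fun x hx => ⟨hXh x hx, (hYp x hx).1⟩)
  set R := 2 * max R₀ 1
  have hR2 : 2 ≤ R := by linarith [le_max_right R₀ 1]
  have hR0 : 0 ≤ R := by linarith
  have hR₀R : R₀ ≤ R / 2 := by linarith [le_max_left R₀ 1]
  obtain ⟨C0, C1, M, hM0, hbd⟩ := exists_bounds hν hν1 hR0 hs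
  have hYc : ContinuousOn Y (Icc a b) := fun x hx => (hY x hx).continuousAt.continuousWithinAt
  obtain ⟨C2, hC2⟩ := isCompact_Icc.exists_bound_of_continuousOn
    (continuousOn_powTr isCompact_Icc hYc (fun x hx => (hYp x hx).1) (r := 1 / ν) (by positivity))
  have hPc := continuousOn_powTr isCompact_Icc hYc (fun x hx => (hYp x hx).1)
    (r := 1 + 1 / ν) (by positivity)
  refine le_of_forall_pos_le_add fun e₀ he₀ => ?_
  obtain ⟨τ, hτ, hτR, hslice⟩ := exists_slice hν hν1 (show 0 < R by linarith) (z a) (show 0 < e₀ / 3 by positivity)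
  have htend : Tendsto (fun ε : ℝ => ε * (c / τ + c / (R - τ)) + errF ν R c C1 C2 ε * (b - a))
      (𝓝[>] 0) (𝓝 0) := by
    have h : Continuous fun ε : ℝ => ε * (c / τ + c / (R - τ)) + errF ν R c C1 C2 ε * (b - a) := by
      unfold errF
      fun_prop
    simpa [errF] using (h.tendsto 0).mono_left nhdsWithin_le_nhds
  obtain ⟨ε, hεe, hε⟩ := ((htend.eventually (gt_mem_nhds (show 0 < e₀ / 3 by positivity))).and
    (Ioc_mem_nhdsGT (zero_lt_one : (0 : ℝ) < 1))).exists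
  set Bt := ε * (c / τ + c / (R - τ)) with hBtdef
  have hc0 : 0 ≤ c := Nat.cast_nonneg _
  have hBt : 0 ≤ Bt :=
    mul_nonneg hε.1.le (add_nonneg (div_nonneg hc0 hτ.le) (div_nonneg hc0 (by linarith)))
  set D := 2 * |C0| + Bt + 1
  have hD : 0 < D := by positivity
  set δ := min (τ / 2) (ε / D)
  have hδ : 0 < δ := lt_min (by linarith) (div_pos hε.1 hD)
  have hδτ : δ < τ := (min_le_left _ _).trans_lt (by linarith)
  have hεδ : D ≤ ε / δ := by
    rw [le_div_iff₀ hδ, mul_comm, ← le_div_iff₀ hD]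
    exact min_le_right _ _
  have hτδR : τ < R - δ := by linarith
  have hne : (slabH δ R : Set (Her n)).Nonempty :=
    ⟨⟨(τ : ℂ) • 1, Matrix.isHermitian_one.smul (by simp [IsSelfAdjoint])⟩,
      smul_one_mem_slab hδτ.le hτδR.le⟩
  have hsub : ∀ p ∈ (box δ R : Set (Pt n)), p ∈ (box 0 R : Set (Pt n)) := fun p hp =>
    ⟨mem_slab_zero hδ.le hp.1, hp.2⟩
  have hlev : ∀ x ∈ Icc a b, C0 - ε / δ < level ν ε δ R (z x) := fun x hx => by
    have h := le_level (ε := ε) (z := z x) hν hν1 hδ hR0 hδτ hτδR (a := -C0) fun Q hQ =>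
      neg_le_of_abs_le ((hbd _ ⟨smul_one_mem_slab hτ.le (by linarith), hQ⟩).2 (z x) (mem_image_of_mem z hx)).1
    have := le_abs_self C0
    rw [← hcdef, ← hBtdef] at h
    linarith
  set err := errF ν R c C1 C2 ε with herr
  have hfc : ContinuousOn (fun x => powTr (1 + 1 / ν) (Y x) - T x - err) (Icc a b) :=
    (hPc.sub hT).sub continuousOn_const
  have hgrow := level_growth hν hν1 hδ hε.1.le hR0 hne hab hz hM0
    (fun x hx p hp => le_of_abs_le ((hbd p hp).2 (z x) (mem_image_of_mem z hx)).1)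
    (fun p hp => (hbd p (hsub p hp)).1) hlev hfc fun x hx p hp hS => by
      obtain ⟨h1, h2⟩ := hR₀ ε hε R (by linarith) (z x) (mem_image_of_mem z hx) p hS
      exact rate_bound hν hν1 hε.1.le (by linarith) (hYp x hx) (hflow x hx) hS (co_posSemidef_mono hR₀R h1)
        (co_posSemidef_mono hR₀R h2) ((hbd p (hsub p hp)).2 (z x) (mem_image_of_mem z hx)).2
        ((le_abs_self _).trans (Real.norm_eq_abs (powTr (1 / ν) (Y x)) ▸ hC2 x hx))
  rw [intervalIntegral.integral_sub ((hPc.intervalIntegrable_of_Icc hab).sub (hT.intervalIntegrable_of_Icc hab))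
      intervalIntegrable_const,
    intervalIntegral.integral_sub (hPc.intervalIntegrable_of_Icc hab) (hT.intervalIntegrable_of_Icc hab),
    intervalIntegral.integral_const, smul_eq_mul] at hgrow
  have hb' : level ν ε δ R (z b) ≤ A := by
    refine level_le hν hν1 hδ hε.1.le hR0 hne fun P hP => ?_
    show F0 ν (X b, Y b) (P, 0) ≤ A
    rw [hXb, hYb]
    exact end_upper hν hν1 hg hP
  have ha' : -A - e₀ / 3 - Bt ≤ level ν ε δ R (z a) := by
    refine le_level (a := -A - e₀ / 3) hν hν1 hδ hR0 hδτ hτδR fun Q hQ => ?_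
    have h0 : -A ≤ F0 ν (z a) (0, Q) := by
      show -A ≤ F0 ν (X a, Y a) (0, Q)
      rw [hXa, hYa]
      exact end_lower hν hν1 hg (posSemidef_of_mem_slab le_rfl hQ).1
    linarith [hslice Q hQ]
  linarith

end Vale.Agent.P371.Link
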