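import Vale.Agent.P371.Link.Gauge
import Vale.Agent.P371.Link.Spectral
import Vale.Agent.P371.MatrixLifting

/-!
P371: from the gauge inequality to the bound on the sum of powers of the energies, by weighting the
family with `w j = 2 endC ν γ e j ^ (γ - 1)`.
-/

open Matrix Complex MeasureTheory Set Filter Topology ComplexConjugate

namespace Vale.Agent.P371.Link

open Sharp (energyM form_integrable)
open scoped ComplexOrder Matrix.Norms.L2Operator

lemma hasDerivAt_matrix {l k : Type*} [Fintype l] [Fintype k] [DecidableEq l] [DecidableEq k]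
    {M : ℝ → Matrix l k ℂ} {D : Matrix l k ℂ} {x : ℝ}
    (h : ∀ i j, HasDerivAt (fun y => M y i j) (D i j) x) : HasDerivAt M D x := by
  have e : ∀ A : Matrix l k ℂ, A = ∑ i, ∑ j, A i j • Matrix.single i j (1 : ℂ) := fun A => by
    conv_lhs => rw [_root_.Matrix.matrix_eq_sum_single A]
    simp [Matrix.smul_single]
  rw [e D, show M = fun y => ∑ i, ∑ j, M y i j • Matrix.single i j (1 : ℂ) from funext fun y => e _]
  exact HasDerivAt.fun_sum fun i _ => HasDerivAt.fun_sum fun j _ => (h i j).smul_const _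

variable {m : ℕ} {ι : Type} [Fintype ι] [DecidableEq ι]

/-- The family, with weights, as a rectangular matrix. -/
noncomputable def cols (r : ι → ℝ) (v : ι → Fin m → ℂ) : Matrix (Fin m) ι ℂ :=
  Matrix.of fun a j => (r j : ℂ) * v j a

omit [DecidableEq ι] in
lemma trace_form {A : Matrix (Fin m) (Fin m) ℂ} {r : ι → ℝ} (v : ι → Fin m → ℂ) :
    ((cols r v)ᴴ * A * cols r v).trace.re = ∑ j, r j * r j * (star (v j) ⬝ᵥ A *ᵥ v j).re := by
  rw [trace, Complex.re_sum]
  refine Finset.sum_congr rfl fun j _ => ?_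
  rw [← Complex.re_ofReal_mul, diag, Matrix.mul_assoc, Matrix.mul_apply]
  congr 1
  simp only [dotProduct, mulVec, Matrix.mul_apply, Finset.mul_sum, cols, conjTranspose_apply,
    Matrix.of_apply, Pi.star_apply, star_mul', RCLike.star_def, Complex.conj_ofReal, Complex.ofReal_mul]
  exact Finset.sum_congr rfl fun a _ => Finset.sum_congr rfl fun b _ => by ring

/-- The kinetic inequality with free weights. -/
theorem kinetic_weighted {ν : ℝ} (hν : 1 / 2 < ν) (hν1 : ν < 1)
    {W : ℝ → Matrix (Fin m) (Fin m) ℂ} (hW : ∀ x, (W x).PosSemidef)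
    (hWm : ∀ a b, Measurable fun x => W x a b)
    (hWi : Integrable fun x => ∑ i, (hW x).isHermitian.eigenvalues i ^ (1 + ν))
    {u : ι → ℝ → Fin m → ℂ} (hu : ∀ j a, ContDiff ℝ 1 fun x => u j x a)
    (hsupp : ∀ j a, HasCompactSupport fun x => u j x a)
    (horth : ∀ j k, j ≠ k → ∫ x, ∑ a, conj (u j x a) * u k x a = 0)
    (hnorm : ∀ j, ∫ x, ∑ a, ‖u j x a‖ ^ 2 = 1) {w : ι → ℝ} (hw : ∀ j, 0 ≤ w j) :
    ∑ j, w j * energyM W (u j) ≤ 2 * ∑ j, endA ν (w j) +
      ν ^ ν / (ν + 1) ^ (ν + 1) * ∫ x, ∑ i, (hW x).isHermitian.eigenvalues i ^ (1 + ν) := by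
  classical
  set r : ι → ℝ := fun j => Real.sqrt (w j)
  have hr : ∀ j, r j * r j = w j := fun j => Real.mul_self_sqrt (hw j)
  obtain ⟨Φ, hΦ⟩ : ∃ Φ : ℝ → Matrix (Fin m) ι ℂ, Φ = fun x => cols r fun j => u j x := ⟨_, rfl⟩
  obtain ⟨Φ', hΦ'⟩ : ∃ Φ' : ℝ → Matrix (Fin m) ι ℂ,
      Φ' = fun x => cols r fun j a => deriv (fun y => u j y a) x := ⟨_, rfl⟩
  obtain ⟨Y, hYdef⟩ : ∃ Y : ℝ → Matrix ι ι ℂ, Y = fun x => (Φ x)ᴴ * Φ x := ⟨_, rfl⟩
  obtain ⟨Y', hY'def⟩ : ∃ Y' : ℝ → Matrix ι ι ℂ,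
      Y' = fun x => (Φ' x)ᴴ * Φ x + (Φ x)ᴴ * Φ' x := ⟨_, rfl⟩
  obtain ⟨T, hTdef⟩ : ∃ T : ℝ → ℝ, T = fun x => ((Φ' x)ᴴ * Φ' x).trace.re := ⟨_, rfl⟩
  have hd : ∀ a j x, HasDerivAt (fun y => Φ y a j) (Φ' x a j) x := fun a j x => by
    simp only [hΦ, hΦ', cols, Matrix.of_apply]
    exact (((hu j a).differentiable one_ne_zero x).hasDerivAt).const_mul _
  have hΦc : Continuous Φ := continuous_matrix fun a j =>
    continuous_iff_continuousAt.2 fun x => (hd a j x).continuousAt
  have hΦ'c : Continuous Φ' := continuous_matrix fun a j => by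
    simp only [hΦ', cols, Matrix.of_apply]
    exact continuous_const.mul ((hu j a).continuous_deriv le_rfl)
  have hYc : Continuous Y := by
    rw [hYdef]
    exact hΦc.matrix_conjTranspose.matrix_mul hΦc
  have hY'c : Continuous Y' := by
    rw [hY'def]
    exact (hΦ'c.matrix_conjTranspose.matrix_mul hΦc).add (hΦc.matrix_conjTranspose.matrix_mul hΦ'c)
  have hTc : Continuous T := by
    rw [hTdef]
    exact Complex.continuous_re.comp (hΦ'c.matrix_conjTranspose.matrix_mul hΦ'c).matrix_trace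
  have hYd : ∀ x, HasDerivAt Y (Y' x) x := fun x => hasDerivAt_matrix fun j k => by
    simp only [hYdef, hY'def, Matrix.add_apply, Matrix.mul_apply, conjTranspose_apply,
      ← Finset.sum_add_distrib]
    exact HasDerivAt.fun_sum fun a _ => (hd a j x).star.mul (hd a k x)
  -- the support
  obtain ⟨R₁, hR₁⟩ := (Bornology.IsBounded.subset_closedBall
    (isCompact_iUnion fun p : ι × Fin m => hsupp p.1 p.2).isBounded (0 : ℝ))
  obtain ⟨R, hR⟩ : ∃ R, R = |R₁| + 1 := ⟨_, rfl⟩
  have hR0 : -R ≤ R := by linarith [abs_nonneg R₁]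
  have hout : ∀ j a x, x ∉ Set.Ioo (-R) R → x ∉ tsupport (fun y => u j y a) := by
    intro j a x hx hmem
    have hxr : |x| ≤ R₁ := by
      simpa [Real.dist_eq] using hR₁ (Set.mem_iUnion.2 ⟨(j, a), hmem⟩)
    rw [abs_le] at hxr
    exact hx ⟨by linarith [le_abs_self R₁], by linarith [le_abs_self R₁]⟩
  have hΦ0 : ∀ x, x ∉ Set.Ioo (-R) R → Φ x = 0 := fun x hx => by
    ext a j
    simp [hΦ, cols, image_eq_zero_of_notMem_tsupport (f := fun y => u j y a) (hout j a x hx)]
  have hΦ'0 : ∀ x, x ∉ Set.Ioo (-R) R → Φ' x = 0 := fun x hx => by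
    ext a j
    simp [hΦ', cols, Function.notMem_support.1 fun h => hout j a x hx (support_deriv_subset h)]
  have hY0 : ∀ x, x ∉ Set.Ioo (-R) R → Y x = 0 := fun x hx => by simp [hYdef, hΦ0 x hx]
  have heq : ∀ F : ℝ → ℂ, (∀ x, x ∉ Set.Ioo (-R) R → F x = 0) → ∫ x, F x = ∫ x in -R..R, F x :=
    fun F hF => (intervalIntegral.integral_eq_integral_of_support_subset fun x hx =>
      Set.Ioo_subset_Ioc_self (by_contra fun h => hx (hF x h))).symm
  have heqR : ∀ F : ℝ → ℝ, (∀ x, x ∉ Set.Ioo (-R) R → F x = 0) → ∫ x, F x = ∫ x in -R..R, F x :=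
    fun F hF => (intervalIntegral.integral_eq_integral_of_support_subset fun x hx =>
      Set.Ioo_subset_Ioc_self (by_contra fun h => hx (hF x h))).symm
  -- the mass
  have hYjk : ∀ x j k, Y x j k = (r j : ℂ) * (r k : ℂ) * ∑ a, conj (u j x a) * u k x a := by
    intro x j k
    simp only [hYdef, hΦ, cols, Matrix.mul_apply, conjTranspose_apply, Matrix.of_apply, star_mul',
      RCLike.star_def, Complex.conj_ofReal, Finset.mul_sum]
    exact Finset.sum_congr rfl fun a _ => by ring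
  have hmass : ∀ j k, ∫ x in -R..R, Y x j k = if j = k then (w j : ℂ) else 0 := fun j k => by
    rw [← heq _ fun x hx => by rw [hY0 x hx, Matrix.zero_apply]]
    simp only [hYjk]
    rw [MeasureTheory.integral_const_mul]
    split_ifs with h
    · subst h
      simp only [Complex.conj_mul', ← Complex.ofReal_pow, ← Complex.ofReal_sum]
      rw [integral_complex_ofReal, hnorm j, Complex.ofReal_one, mul_one, ← Complex.ofReal_mul, hr]
    · rw [horth j k h, mul_zero]
  obtain ⟨X, hXdef⟩ : ∃ X : ℝ → Matrix ι ι ℂ, X = fun x =>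
      Matrix.of (fun j k => ∫ y in -R..x, Y y j k) - diagonal fun i => ((w i / 2 : ℝ) : ℂ) :=
    ⟨_, rfl⟩
  have hYjkc : ∀ j k, Continuous fun x => Y x j k := fun j k => hYc.matrix_elem j k
  have hXd : ∀ x, HasDerivAt X (Y x) x := fun x => hasDerivAt_matrix fun j k => by
    simp only [hXdef, Matrix.sub_apply, Matrix.of_apply]
    exact (intervalIntegral.integral_hasDerivAt_right ((hYjkc j k).intervalIntegrable _ _)
      (hYjkc j k).stronglyMeasurable.stronglyMeasurableAtFilter (hYjkc j k).continuousAt).sub_const _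
  have hYp : ∀ x, (Y x).PosSemidef := fun x => by
    rw [hYdef]
    exact posSemidef_conjTranspose_mul_self _
  have hXh : ∀ x, (X x).IsHermitian := fun x => Matrix.IsHermitian.ext fun j k => by
    simp only [hXdef, Matrix.sub_apply, Matrix.of_apply, star_sub, RCLike.star_def,
      ← intervalIntegral.intervalIntegral_conj]
    congr 1
    · refine intervalIntegral.integral_congr fun y _ => ?_
      exact (hYp y).isHermitian.apply j k
    · by_cases h : j = k
      · subst h; simp [map_ofNat]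
      · simp [diagonal_apply_ne _ h, diagonal_apply_ne _ (Ne.symm h)]
  have hXa : X (-R) = diagonal fun i => ((-(w i / 2) : ℝ) : ℂ) := by
    ext j k
    by_cases h : j = k
    · subst h; simp [hXdef]
    · simp [hXdef, h]
  have hXb : X R = diagonal fun i => ((w i / 2 : ℝ) : ℂ) := by
    ext j k
    by_cases h : j = k
    · subst h
      simp [hXdef, hmass]
      ring
    · simp [hXdef, hmass, h]
  have hgauge := gauge hν hν1 hR0 hw (fun x _ => hXd x) (fun x _ => hYd x) hY'c.continuousOn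
    hTc.continuousOn (fun x _ => hXh x) (fun x _ => hYp x) (fun x _ B hB => by
      simp only [hTdef, hYdef, hY'def]
      exact flow_le (Φ x) (Φ' x) hB) (hY0 _ fun h => lt_irrefl _ h.1)
    (hY0 _ fun h => lt_irrefl _ h.2) hXa hXb
  -- the potential
  have hν0 : 0 < ν := by linarith
  have hF : ∀ j, _ := fun j => form_integrable (by linarith : (1 : ℝ) ≤ 1 + ν) hW hWm hWi
    (v := u j) (fun a => (hu j a).continuous) (hsupp j)
  have hexp : 1 + 1 / ν ≠ 0 := by positivity
  have hP0 : ∀ x, x ∉ Set.Ioo (-R) R → powTr (1 + 1 / ν) (Y x) = 0 := fun x hx => by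
    rw [hY0 x hx, powTr_zero hexp]
  have hPi : Integrable fun x => powTr (1 + 1 / ν) (Y x) :=
    ((continuousOn_powTr (isCompact_Icc (a := -R) (b := R)) hYc.continuousOn
      (fun x _ => (hYp x).isHermitian) (by positivity)).integrableOn_Icc).integrable_of_forall_notMem_eq_zero
        fun x hx => hP0 x fun h => hx (Ioo_subset_Icc_self h)
  have hform : ∫ x, ∑ j, w j * (star (u j x) ⬝ᵥ W x *ᵥ u j x).re ≤
      (∫ x in -R..R, powTr (1 + 1 / ν) (Y x)) +
        ν ^ ν / (ν + 1) ^ (ν + 1) * ∫ x, ∑ i, (hW x).isHermitian.eigenvalues i ^ (1 + ν) := by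
    rw [← heqR _ hP0, ← MeasureTheory.integral_const_mul, ← integral_add hPi (hWi.const_mul _)]
    refine integral_mono (integrable_finsetSum _ fun j _ => (hF j).1.const_mul _)
      (hPi.add (hWi.const_mul _)) fun x => ?_
    simpa only [hYdef, hΦ, trace_form, hr, Pi.add_apply] using young_powTr hν0 (hW x) (Φ x)
  have hT : ∫ x in -R..R, T x = ∑ j, w j * ∫ x, ∑ a, ‖deriv (fun y => u j y a) x‖ ^ 2 := by
    rw [← heqR _ fun x hx => by simp [hTdef, hΦ'0 x hx]]
    simp only [← MeasureTheory.integral_const_mul]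
    rw [← integral_finsetSum _ fun j _ => (integrable_finsetSum _ fun a _ =>
      integrable_deriv_sq (u := fun (_ : Fin 1) x => u j x a) (fun _ => hu j a) (fun _ => hsupp j a) 0).const_mul _]
    refine integral_congr_ae (.of_forall fun x => ?_)
    simp only [hTdef, hΦ', trace, diag, Complex.re_sum, Matrix.mul_apply, cols, conjTranspose_apply,
      Matrix.of_apply, Finset.mul_sum]
    refine Finset.sum_congr rfl fun j _ => Finset.sum_congr rfl fun a _ => ?_
    rw [star_mul', RCLike.star_def, Complex.conj_ofReal,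
      show ∀ c z : ℂ, c * conj z * (c * z) = c * c * (conj z * z) from fun c z => by ring,
      Complex.conj_mul', ← Complex.ofReal_mul, ← Complex.ofReal_pow, ← Complex.ofReal_mul,
      Complex.ofReal_re, hr]
  have hE : ∑ j, w j * energyM W (u j) = (∫ x, ∑ j, w j * (star (u j x) ⬝ᵥ W x *ᵥ u j x).re) -
      ∫ x in -R..R, T x := by
    rw [hT, integral_finsetSum _ fun j _ => (hF j).1.const_mul _, ← Finset.sum_sub_distrib]
    exact Finset.sum_congr rfl fun j _ => by rw [MeasureTheory.integral_const_mul, energyM]; ring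
  linarith

/-- The constant `κ / (2 endC ν)` is the one-bound-state constant. -/
theorem const_eq {ν : ℝ} (hν : 0 < ν) :
    ν ^ ν / (ν + 1) ^ (ν + 1) / (2 * endC ν) = 2 * (ν / (ν + 1)) ^ ν *
      (Real.Gamma (ν + 3 / 2) / (2 * Real.sqrt Real.pi * Real.Gamma (ν + 1 + 1))) := by
  have h1 : 0 < ν + 1 := by linarith
  have h2 := (Real.Gamma_pos_of_pos h1).ne'
  have h3 := (Real.Gamma_pos_of_pos (by linarith : 0 < ν + 3 / 2)).ne'
  have h4 := (Real.sqrt_pos.2 Real.pi_pos).ne'
  have h5 := (Real.rpow_pos_of_pos h1 ν).ne'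
  rw [endC_eq hν.le, Real.Gamma_add_one h1.ne', Real.div_rpow hν.le h1.le, Real.rpow_add_one h1.ne']
  field_simp

variable {W : ℝ → Matrix (Fin m) (Fin m) ℂ}

/-- The sharp bound on the sum of powers of the energies, for `1 < γ < 3/2`. -/
theorem moment {γ : ℝ} (hγ : 1 < γ) (hγ' : γ < 3 / 2) (hW : ∀ x, (W x).PosSemidef)
    (hWm : ∀ a b, Measurable fun x => W x a b)
    (hWi : Integrable fun x => ∑ i, (hW x).isHermitian.eigenvalues i ^ (γ + 1 / 2))
    {u : ι → ℝ → Fin m → ℂ} (hu : ∀ j a, ContDiff ℝ 1 fun x => u j x a)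
    (hsupp : ∀ j a, HasCompactSupport fun x => u j x a)
    (horth : ∀ j k, j ≠ k → ∫ x, ∑ a, conj (u j x a) * u k x a = 0)
    (hnorm : ∀ j, ∫ x, ∑ a, ‖u j x a‖ ^ 2 = 1) :
    ∑ j, max 0 (energyM W (u j)) ^ γ ≤ 2 * ((γ - 1 / 2) / (γ + 1 / 2)) ^ (γ - 1 / 2) *
      (Real.Gamma (γ + 1) / (2 * Real.sqrt Real.pi * Real.Gamma (γ + 3 / 2))) *
        ∫ x, ∑ i, (hW x).isHermitian.eigenvalues i ^ (γ + 1 / 2) := by
  obtain ⟨ν, rfl⟩ : ∃ ν, γ = ν + 1 / 2 := ⟨γ - 1 / 2, by ring⟩
  have hν : 1 / 2 < ν := by linarith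
  have hν0 : 0 < ν := by linarith
  have hk := endC_pos (ν := ν) hν0.le
  set e : ι → ℝ := fun j => max 0 (energyM W (u j))
  have he : ∀ j, 0 ≤ e j := fun j => le_max_left _ _
  set w : ι → ℝ := fun j => 2 * (ν + 1 / 2) * endC ν * e j ^ (ν - 1 / 2)
  have hw : ∀ j, 0 ≤ w j := fun j => mul_nonneg (by positivity) (Real.rpow_nonneg (he j) _)
  have hexp : ν + 1 / 2 + 1 / 2 = 1 + ν := by ring
  have h := kinetic_weighted hν (by linarith) hW hWm (by simpa only [hexp] using hWi) hu hsupp horth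
    hnorm hw
  have h1 : ∀ j, w j * energyM W (u j) = w j * e j := fun j => by
    rcases le_total (energyM W (u j)) 0 with hj | hj
    · simp only [w, e, max_eq_left hj, Real.zero_rpow (show ν - 1 / 2 ≠ 0 by linarith), mul_zero, zero_mul]
    · simp [e, max_eq_right hj]
  simp only [h1] at h
  rw [Finset.mul_sum, ← sub_le_iff_le_add', ← Finset.sum_sub_distrib,
    Finset.sum_congr rfl fun j _ => endA_dual hν (he j), ← Finset.mul_sum] at h
  simp only [hexp, show ν + 1 / 2 - 1 / 2 = ν by ring,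
    show ν + 1 / 2 + 1 = ν + 3 / 2 by ring, show ν + 1 / 2 + 3 / 2 = ν + 1 + 1 by ring]
  rw [add_comm 1 ν, ← const_eq hν0, add_comm ν 1, div_mul_eq_mul_div, le_div_iff₀ (by positivity), mul_comm]
  simpa only [e, add_comm 1 ν] using h

end Vale.Agent.P371.Link
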