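import Vale.Agent.P371.Link.Defs
import Vale.Agent.P371.Pencil.Strict

/-!
P371, gauge selection: the strict dual inequality on the product of cones.
-/

namespace Vale.Agent.P371.Link

open Matrix Complex MeasureTheory Set
open scoped ComplexOrder Matrix.Norms.L2Operator

variable {n : Type} [Fintype n] [DecidableEq n] {ν : ℝ} {p : Pt n}

omit [DecidableEq n] in
lemma mid_eq_sub (p : Pt n) :
    mid p = Pencil.cC p * Pencil.cC p - Pencil.cB p * Pencil.cB p := by
  rw [mid, Pencil.cC, Pencil.cB]
  simp only [Matrix.smul_mul, Matrix.mul_smul, smul_smul, Matrix.add_mul, Matrix.mul_add, Matrix.sub_mul,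
    Matrix.mul_sub]
  module

theorem mul_eq_zero_of_trace_le (hν : 1 / 2 < ν) (hν1 : ν < 1) (hp : p ∈ (Cone : Set (Pt n)))
    (h : (XiC ν p * mid p).trace.re ≤ 0) : p.1 * p.2 = 0 := by
  have hc : code p = Pencil.codeQ p := rfl
  refine Pencil.mul_eq_zero_of_trace_nonpos (by linarith) hν1 hp ?_
  rw [← mid_eq_sub, ← hc]
  exact h

end Vale.Agent.P371.Link
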